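import Vale.Agent.P267S.SC0

/-! P267, solver part C: frames. -/

open scoped Topology
open Filter Metric Set

noncomputable section

namespace Vale.Agent.P267

set_option linter.unusedSectionVars false

variable {M : Type} [TopologicalSpace M] [ChartedSpace C2 M] [T2Space M]

namespace Cov
variable {C : Cov M} {φ P : C.I → M → ℂ} {Φ : ℕ → C.I → M → ℂ} {Ψ : C.I → M → ℂ} {δ B : ℝ}
  {N : ℕ}

theorem Fr.monoC {r r' B' : ℝ} (h : C.Fr φ r B) (hr : r' ≤ r) (hB : B ≤ B') : C.Fr φ r' B' :=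
  ⟨fun i p hp => h.ne i p (C.U_mono i hr hp),
    fun i j p hp => h.hol i j p ⟨C.U_mono i hr hp.1, C.U_mono j hr hp.2⟩,
    fun i p hp => (h.bd i p (C.U_mono i hr hp)).imp (·.trans hB) (·.trans hB)⟩

theorem Fr.invC {r : ℝ} (h : C.Fr φ r B) : C.Fr φ⁻¹ r B := by
  refine ⟨fun i p hp => inv_ne_zero (h.ne i p hp), fun i j p hp => ?_, fun i p hp => ?_⟩
  · rw [Pi.inv_apply, Pi.inv_apply, inv_div_inv]
    exact h.hol j i p hp.symm
  · rw [Pi.inv_apply, Pi.inv_apply, inv_inv]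
    exact (h.bd i p hp).symm

theorem Fr.shift {r : ℝ} (h : C.Fr φ r B) (k : ℤ) :
    C.Fr (fun i p => φ (C.sh i k) ((C.g ^ k) p)) r B :=
  ⟨fun i p hp => h.ne _ _ ((sh_mem i k r p).2 hp),
    fun i j p hp => (C.hol_gz (f := φ (C.sh i k) / φ (C.sh j k)) k).2
      (h.hol _ _ _ ⟨(sh_mem i k r p).2 hp.1, (sh_mem j k r p).2 hp.2⟩),
    fun i p hp => h.bd _ _ ((sh_mem i k r p).2 hp)⟩

/-- Change of the frame. -/
theorem Fr.hol_to {r : ℝ} (h : C.Fr φ r B) {i j : C.I} {p : M} (hi : p ∈ C.U i r)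
    (hj : p ∈ C.U j r) {s : M → ℂ} (hs : HolAt (φ j * s) p) : HolAt (φ i * s) p := by
  refine ((h.hol i j p ⟨hi, hj⟩).mul hs).congr ?_
  filter_upwards [(C.isOpen_U j r).mem_nhds hj] with q hq
  have := h.ne j q hq
  simp only [Pi.mul_apply, Pi.div_apply]
  field_simp

theorem kf_fr : ∃ B, C.Fr C.kf 2 B := by
  have h1 : ∀ a : C.ι, ∃ B : ℝ, ∀ q ∈ (C.e a).source, ‖C.e a q‖ ≤ 2 →
      ‖C.kc a q‖ ≤ B ∧ ‖(C.kc a q)⁻¹‖ ≤ B := fun a => by
    have hK := C.isCompact_cl (a, 0) (r := 2) (by norm_num)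
    have hc : ContinuousOn (fun q => (‖C.kc a q‖ : ℂ))
        {p | p ∈ (C.ch (a, 0)).source ∧ ‖C.ch (a, 0) p‖ ≤ 2} := fun q hq =>
      (C.kc_sm a q ((C.ch_source (a, 0) q).1 hq.1)).continuousAt.continuousWithinAt
    obtain ⟨B1, b1⟩ := hK.exists_bound_of_continuousOn hc
    obtain ⟨B2, b2⟩ := hK.exists_bound_of_continuousOn (hc.inv₀ fun q hq => by
      simpa using C.kc_ne a q ((C.ch_source (a, 0) q).1 hq.1))
    refine ⟨max B1 B2, fun q hq hq' => ?_⟩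
    have h2 : q ∈ {p | p ∈ (C.ch (a, 0)).source ∧ ‖C.ch (a, 0) p‖ ≤ 2} :=
      ⟨(C.ch_source (a, 0) q).2 hq, hq'⟩
    exact ⟨le_max_of_le_left (by simpa using b1 q h2), le_max_of_le_right (by simpa using b2 q h2)⟩
  choose B hB using h1
  obtain ⟨B0, h0⟩ := (finite_range B).bddAbove
  refine ⟨B0, fun i p hp => C.kf_ne hp.1, fun i j p hp => C.kf_hol hp.1.1 hp.2.1, fun i p hp => ?_⟩
  exact (hB i.1 _ ((C.ch_source i p).1 hp.1) hp.2.le).imp (·.trans (h0 ⟨_, rfl⟩))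
    (·.trans (h0 ⟨_, rfl⟩))

theorem Fr.div {r B' : ℝ} (h : C.Fr φ r B) (h' : C.Fr Ψ r B') : C.Fr (φ / Ψ) r (B * B') := by
  refine ⟨fun i p hp => div_ne_zero (h.ne i p hp) (h'.ne i p hp), fun i j p hp => ?_,
    fun i p hp => ?_⟩
  · refine ((h.hol i j p hp).mul (h'.hol j i p hp.symm)).congr (Eventually.of_forall fun q => ?_)
    simp only [Pi.mul_apply, Pi.div_apply, div_eq_mul_inv, Pi.inv_apply, mul_inv, inv_inv]
    ring
  · obtain ⟨a1, a2⟩ := h.bd i p hp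
    obtain ⟨a3, a4⟩ := h'.bd i p hp
    have a0 := (norm_nonneg _).trans a1
    simp only [Pi.div_apply, div_eq_mul_inv, mul_inv, inv_inv, norm_mul]
    exact ⟨mul_le_mul a1 a4 (norm_nonneg _) a0, mul_le_mul a2 a3 (norm_nonneg _) a0⟩

theorem tc_one : C.Tc 1 1 1 := by
  refine ⟨one_pos, le_rfl, ⟨fun _ _ _ => one_ne_zero, fun i j p _ => ?_, fun _ _ _ => by simp⟩,
    fun i p _ => ?_⟩
  · rw [Pi.one_apply, Pi.one_apply, div_one]
    exact holAt_one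
  · simp [wt, Real.exp_nonneg]

theorem Tc.mono {δ' B' : ℝ} (h : C.Tc φ δ B) (h0 : 0 < δ') (hδ : δ' ≤ δ) (hB : B ≤ B') :
    C.Tc φ δ' B' := by
  refine ⟨h0, h.one.trans hB, h.fr.monoC le_rfl hB, fun i p hp => (h.tl i p hp).trans ?_⟩
  have := h.one
  unfold wt
  gcongr
  linarith

theorem Tc.inv (h : C.Tc φ δ B) : C.Tc φ⁻¹ δ (B * B) := by
  have h1 := h.one
  have h2 : B ≤ B * B := le_mul_of_one_le_left (by linarith) h1
  refine ⟨h.pos, h1.trans h2, h.fr.invC.monoC le_rfl h2, fun i p hp => ?_⟩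
  have e : φ⁻¹ i p - 1 = (φ i p)⁻¹ * -(φ i p - 1) := by
    have := h.fr.ne i p hp
    simp only [Pi.inv_apply]
    field_simp
    ring
  rw [e, norm_mul, norm_neg, mul_assoc]
  exact mul_le_mul (h.fr.bd i p hp).2 (h.tl i p hp) (norm_nonneg _) (by linarith)

theorem Tc.shift (h : C.Tc φ δ B) (k : ℤ) :
    C.Tc (fun i p => φ (C.sh i k) ((C.g ^ k) p)) δ (B * Real.exp (δ * |(k : ℝ)|)) := by
  have h1 := h.one
  have h0 := h.pos
  have h2 : B ≤ B * Real.exp (δ * |(k : ℝ)|) :=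
    le_mul_of_one_le_right (by linarith) (Real.one_le_exp (by positivity))
  refine ⟨h0, h1.trans h2, (h.fr.shift k).monoC le_rfl h2, fun i p hp => ?_⟩
  refine (h.tl _ _ ((sh_mem i k 2 p).2 hp)).trans ?_
  rw [mul_assoc, wt, wt, ← Real.exp_add]
  refine mul_le_mul_of_nonneg_left (Real.exp_le_exp.2 ?_) (by linarith)
  simp only [sh, Int.cast_sub, Int.cast_zero, sub_zero]
  nlinarith [abs_sub_abs_le_abs_sub (i.2 : ℝ) k]

theorem Sys.mono {δ' B' : ℝ} (h : C.Sys φ δ B Φ) (h0 : 0 < δ') (hδ : δ' ≤ δ) (hB : B ≤ B') :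
    C.Sys φ δ' B' Φ := by
  refine ⟨h.tc.mono h0 hδ hB, fun N => (h.fr N).monoC le_rfl hB, fun N hN =>
    ⟨(h.per N hN).per, fun i hi p hp => ((h.per N hN).near i hi p hp).trans ?_⟩⟩
  have h1 := h.tc.one
  have h2 : |(i.2 : ℝ)| ≤ N := by exact_mod_cast hi
  gcongr
  linarith

theorem sys_one : C.Sys 1 1 1 fun _ => 1 :=
  ⟨tc_one, fun _ => tc_one.fr, fun _ _ => ⟨fun _ _ => rfl, fun _ _ _ _ => by
    simp [Real.exp_nonneg]⟩⟩

/-- In the neck the periodic frames are close to one. -/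
theorem Sys.neck (h : C.Sys φ δ B Φ) (hN : 0 < N) {i : C.I} (hi : |i.2| ≤ N) {p : M}
    (hp : p ∈ C.U i 2) :
    ‖Φ N i p - 1‖ ≤ 2 * B * Real.exp (-δ * min |(i.2 : ℝ)| (N - |(i.2 : ℝ)|)) := by
  have h1 := (h.per N hN).near i hi p hp
  have h2 := h.tc.tl i p hp
  have h3 := norm_sub_le_norm_sub_add_norm_sub (Φ N i p) (φ i p) 1
  have h4 : 0 ≤ B := zero_le_one.trans h.tc.one
  have h5 : ∀ x, min |(i.2 : ℝ)| (N - |(i.2 : ℝ)|) ≤ x → B * Real.exp (-δ * x) ≤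
      B * Real.exp (-δ * min |(i.2 : ℝ)| (N - |(i.2 : ℝ)|)) := fun x hx =>
    mul_le_mul_of_nonneg_left (Real.exp_le_exp.2
      (mul_le_mul_of_nonpos_left hx (neg_nonpos.2 h.tc.pos.le))) h4
  simp only [wt, Int.cast_zero, sub_zero] at h2
  linarith [h5 _ (min_le_left _ _), h5 _ (min_le_right _ _)]

theorem Sys.tendsto (h : C.Sys φ δ B Φ) {i : C.I} {p : M} (hp : p ∈ C.U i 2) :
    Tendsto (fun N => Φ N i p) atTop (𝓝 (φ i p)) := by
  have h1 : Tendsto (fun N : ℕ => B * Real.exp (-δ * (N - |(i.2 : ℝ)|))) atTop (𝓝 (B * 0)) :=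
    (Real.tendsto_exp_atBot.comp ((tendsto_atTop_add_const_right _ (-|(i.2 : ℝ)|)
      tendsto_natCast_atTop_atTop).const_mul_atTop_of_neg (neg_neg_of_pos h.tc.pos))).const_mul B
  rw [mul_zero] at h1
  refine tendsto_iff_norm_sub_tendsto_zero.2 (squeeze_zero' (Eventually.of_forall fun _ =>
    norm_nonneg _) ?_ h1)
  filter_upwards [eventually_gt_atTop i.2.natAbs] with N hN
  exact (h.per N (by omega)).near i (by rw [Int.abs_eq_natAbs]; exact_mod_cast hN.le) p hp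

end Cov

end Vale.Agent.P267
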