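import Vale.Agent.P267S.SA3

/-! P267, solver part A: the maximum principle for sections. -/

open scoped Manifold ContDiff Topology
open Filter Metric Set

noncomputable section

namespace Vale.Agent.P267

set_option linter.unusedSectionVars false

variable {M : Type} [TopologicalSpace M] [ChartedSpace C2 M] [T2Space M]

namespace Cov
variable (C : Cov M) {F : C.I → M → ℂ} {s : M → ℂ} {r B : ℝ}

theorem sa4_cont {i : C.I} {p : M} (hp : p ∈ (C.ch i).source) :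
    ContinuousAt (fun q => ‖C.kf i q‖) p := by
  have h : SmAt ((fun q => (‖C.kc i.1 q‖ : ℂ)) ∘ (C.g ^ i.2 : M ≃ₜ M)) p :=
    (C.sm_gz i.2).2 (C.kc_sm _ _ ((C.ch_source i p).1 hp))
  exact Complex.continuous_re.continuousAt.comp h.continuousAt

theorem sa4_bd (a : C.ι) : ∃ B : ℝ, ∀ p ∈ C.U (a, 0) 3,
    ‖C.kf (a, 0) p‖ ≤ B ∧ ‖(C.kf (a, 0) p)⁻¹‖ ≤ B := by
  have hK := C.isCompact_cl (a, 0) (r := 3) (by norm_num)
  obtain ⟨B1, h1⟩ := hK.exists_bound_of_continuousOn (f := fun q => ‖C.kf (a, 0) q‖)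
    fun q hq => (C.sa4_cont hq.1).continuousWithinAt
  obtain ⟨B2, h2⟩ := hK.exists_bound_of_continuousOn (f := fun q => ‖C.kf (a, 0) q‖⁻¹)
    fun q hq => ((C.sa4_cont hq.1).inv₀ (norm_ne_zero_iff.2 (C.kf_ne hq.1))).continuousWithinAt
  refine ⟨max B1 B2, fun p hp => ⟨?_, ?_⟩⟩
  · exact ((le_abs_self _).trans (h1 p ⟨hp.1, hp.2.le⟩)).trans (le_max_left _ _)
  · rw [norm_inv]
    exact ((le_abs_self _).trans (h2 p ⟨hp.1, hp.2.le⟩)).trans (le_max_right _ _)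

theorem sa_kf_bd : ∃ B : ℝ, 0 < B ∧ ∀ i, ∀ p ∈ C.U i 3, ‖C.kf i p‖ ≤ B ∧ ‖(C.kf i p)⁻¹‖ ≤ B := by
  choose B hB using C.sa4_bd
  obtain ⟨D, hD⟩ := (Set.finite_range B).bddAbove
  refine ⟨max D 1, lt_max_of_lt_right one_pos, fun i p hp => ?_⟩
  have h1 : (C.g ^ i.2) p ∈ C.U (i.1, 0) 3 := by
    have := (C.U_shift i i.2 3 p).2 hp
    rwa [sub_self] at this
  have h2 := hB i.1 _ h1
  have e : C.kf (i.1, 0) ((C.g ^ i.2) p) = C.kf i p := by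
    simp only [kf, zpow_zero]
    rfl
  rw [e] at h2
  have h3 : B i.1 ≤ max D 1 := (hD (mem_range_self i.1)).trans (le_max_left _ _)
  exact ⟨h2.1.trans h3, h2.2.trans h3⟩

theorem sa_kf_cont {i : C.I} {p : M} (hp : p ∈ (C.ch i).source) :
    ContinuousAt (fun q => ‖C.kf i q‖) p := C.sa4_cont hp

theorem sa4_tr {i j : C.I} {p : M} (hi : p ∈ (C.ch i).source) (hj : p ∈ (C.ch j).source)
    (h : HolAt (C.kf j * s) p) : HolAt (C.kf i * s) p := by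
  refine ((C.kf_hol hi hj).mul h).congr ?_
  filter_upwards [(C.ch j).open_source.mem_nhds hj] with q hq
  simp only [Pi.mul_apply, Pi.div_apply]
  rw [← mul_assoc, div_mul_cancel₀ _ (C.kf_ne hq)]

theorem sa_kap_iff {i : C.I} {p : M} (hp : p ∈ (C.ch i).source) (s : M → ℂ) :
    HolAt (C.κ p * s) p ↔ HolAt (C.kf i * s) p :=
  ⟨C.sa4_tr hp (C.mem_U_idx p).1, C.sa4_tr (C.mem_U_idx p).1 hp⟩

theorem sa_kap : Sec C.κ s ↔ C.SecF C.kf s :=
  ⟨fun h _ p hp => (C.sa_kap_iff hp.1 s).1 (h p),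
    fun h p => (C.sa_kap_iff (C.mem_U_idx p).1 s).2 (h _ p (C.mem_U_idx p))⟩

theorem sa_mono (hF : C.Fr F r B) {r' : ℝ} (h : r' ≤ r) : C.Fr F r' B :=
  ⟨fun i p hp => hF.ne i p (C.U_mono i h hp),
    fun i j p hp => hF.hol i j p ⟨C.U_mono i h hp.1, C.U_mono j h hp.2⟩,
    fun i p hp => hF.bd i p (C.U_mono i h hp)⟩

theorem sa_one (r : ℝ) : C.Fr 1 r 1 ∧ C.Tl 1 r := by
  refine ⟨⟨fun i p _ => by simp, fun i j p _ => ?_, fun i p _ => by simp⟩,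
    1, 0, one_pos, fun i p _ => by simp⟩
  simpa using (holAt_one : HolAt (1 : M → ℂ) p)

theorem sa_dual (hF : C.Fr F r B) (hr : r ≤ 3) : ∃ B', C.Fr (C.kf / F) r B' := by
  obtain ⟨D, hD0, hD⟩ := C.sa_kf_bd
  refine ⟨D * B, fun i p hp => div_ne_zero (C.kf_ne hp.1) (hF.ne i p hp), fun i j p hp => ?_,
    fun i p hp => ?_⟩
  · refine ((C.kf_hol hp.1.1 hp.2.1).mul (hF.hol j i p ⟨hp.2, hp.1⟩)).congr
      (Eventually.of_forall fun q => ?_)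
    simp only [Pi.mul_apply, Pi.inv_apply, div_eq_mul_inv, mul_inv, inv_inv]
    ring
  · have h1 := hD i p (C.U_mono i hr hp)
    have h2 := hF.bd i p hp
    simp only [Pi.div_apply, div_eq_mul_inv, mul_inv, inv_inv, norm_mul]
    exact ⟨mul_le_mul h1.1 h2.2 (norm_nonneg _) hD0.le,
      mul_le_mul h1.2 h2.1 (norm_nonneg _) hD0.le⟩

theorem sa_ext (hF : C.Fr F r B) (hr : 1 ≤ r) (hs : C.SecF F s) (i : C.I) :
    ∀ p ∈ C.U i r, HolAt (F i * s) p := fun p hp => by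
  have hj := C.mem_U_idx p
  have hj' := C.U_mono _ hr hj
  refine ((hF.hol i _ p ⟨hp, hj'⟩).mul (hs _ p hj)).congr ?_
  filter_upwards [(C.isOpen_U _ r).mem_nhds hj'] with q hq
  simp only [Pi.mul_apply, Pi.div_apply]
  rw [← mul_assoc, div_mul_cancel₀ _ (hF.ne _ q hq)]

theorem sa4_dist {i : C.I} {p q : M} (hp : p ∈ (C.ch i).source) (hq : q ∈ (C.ch i).source) :
    |C.t q - C.t p| ≤ 2 * C.R + 1 := by
  have h1 := abs_le.1 (C.t_ch hp)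
  have h2 := abs_le.1 (C.t_ch hq)
  exact abs_le.2 ⟨by linarith [h1.1, h1.2, h2.1, h2.2], by linarith [h1.1, h1.2, h2.1, h2.2]⟩

theorem sa_sub_one : ∃ θ : ℝ, 0 < θ ∧ ∀ f : M → ℂ, (∀ p, HolAt f p) → C.Sub f θ fun _ => 0 := by
  obtain ⟨θ, hθ, h⟩ := C.sa_disc (r := 2) one_lt_two
  refine ⟨θ, hθ, fun f hf p l hl => ?_⟩
  obtain ⟨q, hq, h1⟩ := h _ p (C.mem_U_idx p) l f hl fun q _ => hf q
  exact ⟨q, C.sa4_dist (C.mem_U_idx p).1 hq.1, by simpa using h1⟩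

theorem sa4_sub (hF : C.Fr F r B) (hr : 1 < r) : ∃ θ : ℝ, 0 < θ ∧ ∀ b : M → ℝ,
    (∀ p, ∀ q ∈ C.U (C.idx p) r, ‖(F (C.idx p) p)⁻¹‖ * ‖F (C.idx p) q‖ ≤ Real.exp (b p)) →
    ∀ s, C.SecF F s → C.Sub s θ b := by
  obtain ⟨θ, hθ, h⟩ := C.sa_disc hr
  refine ⟨θ, hθ, fun b hb s hs p l hl => ?_⟩
  have hp := C.mem_U_idx p
  obtain ⟨q, hq, h1⟩ := h _ p hp l _ hl (C.sa_ext hF hr.le hs (C.idx p))
  refine ⟨q, C.sa4_dist hp.1 hq.1, ?_⟩
  have h0 := hF.ne _ p (C.U_mono _ hr.le hp)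
  have e : ‖s p‖ = ‖(F (C.idx p) p)⁻¹‖ * ‖(F (C.idx p) * s) p‖ := by
    rw [← norm_mul, Pi.mul_apply, ← mul_assoc, inv_mul_cancel₀ h0, one_mul]
  rw [e, mul_assoc]
  refine (mul_le_mul_of_nonneg_left h1 (norm_nonneg _)).trans ?_
  rw [Pi.mul_apply, norm_mul, mul_assoc, ← mul_assoc]
  exact mul_le_mul_of_nonneg_right (hb p q hq) (by positivity)

theorem sa_sub_fr (hF : C.Fr F r B) (hr : 1 < r) : ∃ θ b : ℝ, 0 < θ ∧ ∀ s, C.SecF F s →
    C.Sub s θ fun _ => b := by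
  obtain ⟨θ, hθ, h⟩ := C.sa4_sub hF hr
  refine ⟨θ, B * B, hθ, h _ fun p q hq => ?_⟩
  have h1 := (hF.bd _ p (C.U_mono _ hr.le (C.mem_U_idx p))).2
  refine (mul_le_mul h1 (hF.bd _ q hq).1 (norm_nonneg _) ((norm_nonneg _).trans h1)).trans ?_
  linarith [Real.add_one_le_exp (B * B)]

theorem sa_sub_tl (hF : C.Fr F r B) (hr : 1 < r) (hT : C.Tl F r) :
    ∃ θ δ b : ℝ, 0 < θ ∧ 0 < δ ∧ 0 ≤ b ∧ ∀ s, C.SecF F s →
      C.Sub s θ fun p => b * Real.exp (-δ * |C.t p|) := by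
  obtain ⟨θ, hθ, h⟩ := C.sa4_sub hF hr
  obtain ⟨δ, D, hδ, hD⟩ := hT
  refine ⟨θ, δ, (|B| + 1) * (|D| * Real.exp (δ * C.R)), hθ, hδ, by positivity,
    h _ fun p q hq => ?_⟩
  have hp := C.mem_U_idx p
  have hp' := C.U_mono _ hr.le hp
  set i := C.idx p
  set e : ℝ := |D| * Real.exp (δ * C.R) * Real.exp (-δ * |C.t p|) with he
  have he0 : 0 ≤ e := by positivity
  have hw : D * C.wt δ 0 i ≤ e := by
    have h1 := C.t_ch hp.1
    have h2 : |C.t p| ≤ |(i.2 : ℝ)| + C.R := by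
      have := abs_sub (C.t p + i.2) (i.2 : ℝ)
      rw [add_sub_cancel_right] at this
      linarith
    have h3 : C.wt δ 0 i ≤ Real.exp (δ * C.R) * Real.exp (-δ * |C.t p|) := by
      rw [← Real.exp_add, wt, Int.cast_zero, sub_zero]
      exact Real.exp_le_exp.2 (by nlinarith)
    rw [he, mul_assoc]
    exact (mul_le_mul_of_nonneg_right (le_abs_self D) (Real.exp_pos _).le).trans
      (mul_le_mul_of_nonneg_left h3 (abs_nonneg D))
  have k1 : ‖F i q‖ ≤ Real.exp e := by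
    have h1 := norm_add_le (F i q - 1) 1
    rw [sub_add_cancel, norm_one] at h1
    linarith [hD i q hq, Real.add_one_le_exp e]
  have k2 : ‖(F i p)⁻¹‖ ≤ Real.exp (|B| * e) := by
    have h0 := hF.ne i p hp'
    have e1 : (F i p)⁻¹ = 1 - (F i p)⁻¹ * (F i p - 1) := by
      rw [mul_sub, inv_mul_cancel₀ h0]
      ring
    have h1 := norm_sub_le 1 ((F i p)⁻¹ * (F i p - 1))
    rw [← e1, norm_one, norm_mul] at h1
    have h2 : ‖(F i p)⁻¹‖ * ‖F i p - 1‖ ≤ |B| * e :=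
      mul_le_mul ((hF.bd i p hp').2.trans (le_abs_self B)) ((hD i p hp').trans hw)
        (norm_nonneg _) (abs_nonneg B)
    linarith [Real.add_one_le_exp (|B| * e)]
  refine (mul_le_mul k2 k1 (norm_nonneg _) (Real.exp_pos _).le).trans (le_of_eq ?_)
  rw [← Real.exp_add, he]
  congr 1
  ring

end Cov

end Vale.Agent.P267
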