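import Vale.Agent.P267S.SC1

/-! P267, solver part C: sums and limits. -/

open scoped Topology
open Filter Metric Set

noncomputable section

namespace Vale.Agent.P267

set_option linter.unusedSectionVars false

variable {M : Type} [TopologicalSpace M] [ChartedSpace C2 M] [T2Space M]

namespace Cov
variable {C : Cov M} {φ P : C.I → M → ℂ} {Φ : ℕ → C.I → M → ℂ} {Ψ : C.I → M → ℂ} {δ B : ℝ}
  {N : ℕ}

/-- Periodic functions that are locally bounded are bounded. -/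
theorem bdd_per (hN : 0 < N) {w : M → ℂ} (h : ∀ p, w ((C.g ^ (N : ℤ)) p) = w p)
    (hl : ∀ p, ∃ D, ∀ᶠ q in 𝓝 p, ‖w q‖ ≤ D) : Bdd w := by
  obtain ⟨D, hD⟩ : ∃ D, ∀ p ∈ C.t ⁻¹' Icc 0 N, ‖w p‖ ≤ D :=
    (C.isCompact_t 0 N).induction_on (p := fun S => ∃ D, ∀ p ∈ S, ‖w p‖ ≤ D)
      ⟨0, fun _ h => h.elim⟩ (fun _ _ hst ⟨D, hD⟩ => ⟨D, fun p hp => hD p (hst hp)⟩)
      (fun _ _ ⟨D, hD⟩ ⟨D', hD'⟩ => ⟨max D D', fun p hp => hp.elim
        (fun h => (hD p h).trans (le_max_left _ _)) fun h => (hD' p h).trans (le_max_right _ _)⟩)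
      fun p _ => (hl p).elim fun D hD => ⟨_, mem_nhdsWithin_of_mem_nhds hD, D, fun _ h => h⟩
  refine ⟨D, fun p => ?_⟩
  rw [← per_fun h (-⌊C.t p / N⌋) p]
  refine hD _ ?_
  have hN' : (0 : ℝ) < N := Nat.cast_pos.2 hN
  have h1 := (le_div_iff₀ hN').1 (Int.floor_le (C.t p / N))
  have h2 := (div_lt_iff₀ hN').1 (Int.lt_floor_add_one (C.t p / N))
  rw [mem_preimage, C.t_gz]
  push_cast
  constructor <;> linarith

theorem sc2_sum (hδ : 0 < δ) : Summable fun m : ℤ => Real.exp (-δ * |(m : ℝ)|) := by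
  have h := Real.summable_exp_nat_mul_iff.2 (neg_lt_zero.2 hδ)
  refine Summable.of_nat_of_neg (h.congr fun n => ?_) (h.congr fun n => ?_) <;>
    simp [mul_comm]

/-- The sum of the weights over a lattice. -/
theorem wt_tsum (hδ : 0 < δ) : ∃ S : ℝ, 0 < S ∧ ∀ N : ℕ, 0 < N → ∀ x : ℤ,
    (Summable fun k : ℤ => Real.exp (-δ * |(x : ℝ) - k * N|)) ∧
    ∑' k : ℤ, Real.exp (-δ * |(x : ℝ) - k * N|) ≤ S ∧
    (|x| ≤ N → ∑' k : ℤ, (if k = 0 then 0 else Real.exp (-δ * |(x : ℝ) - k * N|)) ≤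
      S * Real.exp (-δ * (N - |(x : ℝ)|))) := by
  have hs := sc2_sum hδ
  have hT : 0 < ∑' m : ℤ, Real.exp (-δ * |(m : ℝ)|) :=
    hs.tsum_pos (fun _ => (Real.exp_pos _).le) 0 (Real.exp_pos _)
  refine ⟨Real.exp δ * ∑' m : ℤ, Real.exp (-δ * |(m : ℝ)|), mul_pos (Real.exp_pos _) hT,
    fun N hN x => ?_⟩
  have hi : Function.Injective fun k : ℤ => x - k * N := fun k m e =>
    mul_right_cancel₀ (Int.natCast_pos.2 hN).ne' (sub_right_injective e)
  have h1 : Summable fun k : ℤ => Real.exp (-δ * |(x : ℝ) - k * N|) :=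
    (hs.comp_injective hi).congr fun k => by simp
  refine ⟨h1, ?_, fun _ => ?_⟩
  · refine (h1.tsum_le_tsum_of_inj _ hi (fun _ _ => (Real.exp_pos _).le) (fun k => ?_) hs).trans
      (le_mul_of_one_le_left hT.le (Real.one_le_exp hδ.le))
    simp
  · have h2 : ∀ k : ℤ, (if k = 0 then 0 else Real.exp (-δ * |(x : ℝ) - k * N|)) ≤
        Real.exp δ * Real.exp (-δ * (N - |(x : ℝ)|)) * Real.exp (-δ * |(k : ℝ)|) := fun k => by
      split_ifs with hk
      · positivity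
      · rw [← Real.exp_add, ← Real.exp_add]
        refine Real.exp_le_exp.2 ?_
        have h3 : (1 : ℝ) ≤ |(k : ℝ)| := by exact_mod_cast Int.one_le_abs hk
        have h4 : (1 : ℝ) ≤ N := Nat.one_le_cast.2 hN
        have h5 := abs_sub_abs_le_abs_sub ((k : ℝ) * N) x
        rw [abs_mul, Nat.abs_cast, abs_sub_comm] at h5
        have h6 : (N : ℝ) - |(x : ℝ)| + |(k : ℝ)| - 1 ≤ |(x : ℝ) - k * N| := by
          nlinarith [mul_nonneg (sub_nonneg.2 h3) (sub_nonneg.2 h4)]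
        nlinarith [mul_le_mul_of_nonneg_left h6 hδ.le]
    refine (Summable.tsum_le_tsum h2 (Summable.of_nonneg_of_le (fun k => ?_) h2 (hs.mul_left _))
      (hs.mul_left _)).trans_eq ?_
    · split_ifs
      · exact le_rfl
      · positivity
    · rw [tsum_mul_left]
      ring

/-- Uniform limits of holomorphic functions on an open set. -/
theorem hol_unif (C : Cov M) {ι : Type} {l : Filter ι} [l.NeBot] {W : Set M} (hW : IsOpen W)
    {f : ι → M → ℂ} {F : M → ℂ} (hf : ∀ k, ∀ p ∈ W, HolAt (f k) p)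
    (h : TendstoUniformlyOn f F l W) : ∀ p ∈ W, HolAt F p := by
  intro p hp
  have h1 := Metric.tendstoUniformlyOn_iff.1 h 1 one_pos
  obtain ⟨k₀, h0⟩ := h1.exists
  have hs := (C.mem_U_idx p).1
  obtain ⟨O, hO, hOo, hpO⟩ := mem_nhds_iff.1 (inter_mem (hW.mem_nhds hp)
    ((hf k₀ p hp).continuousAt.norm.eventually (gt_mem_nhds (lt_add_one _))))
  have hU := (C.ch (C.idx p)).isOpen_inter_preimage_symm hOo
  obtain ⟨u, hu, hlim⟩ := cb_montel (Ultrafilter.of l)
    (f := fun k => f k ∘ (C.ch (C.idx p)).symm) (C := ‖f k₀ p‖ + 3) hU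
    ((h1.filter_mono (Ultrafilter.of_le l)).mono fun k hk => ⟨fun z hz => by
      have h2 := (C.cb_hol ((C.ch _).map_target hz.1)).1 (hf k _ (hO hz.2).1)
      rw [(C.ch _).right_inv hz.1] at h2
      exact h2.differentiableAt.differentiableWithinAt, fun z hz => by
      have h2 := hk _ (hO hz.2).1
      have h3 := h0 _ (hO hz.2).1
      have h4 : ‖f k₀ _‖ < ‖f k₀ p‖ + 1 := (hO hz.2).2
      have h5 := dist_triangle_left (f k ((C.ch (C.idx p)).symm z))
        (f k₀ ((C.ch (C.idx p)).symm z)) (F ((C.ch (C.idx p)).symm z))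
      have h6 := norm_le_norm_add_norm_sub' (f k ((C.ch (C.idx p)).symm z))
        (f k₀ ((C.ch (C.idx p)).symm z))
      rw [← dist_eq_norm] at h6
      simp only [Function.comp_apply]
      linarith⟩)
  have hz : C.ch (C.idx p) p ∈ (C.ch (C.idx p)).target ∩ (C.ch (C.idx p)).symm ⁻¹' O :=
    ⟨(C.ch _).map_source hs, by rwa [mem_preimage, (C.ch _).left_inv hs]⟩
  refine (C.cb_hol hs).2 ((hu _ hz).congr ?_)
  filter_upwards [hU.mem_nhds hz] with z hz
  exact tendsto_nhds_unique (hlim z hz _ tendsto_const_nhds)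
    ((h.tendsto_at (hO hz.2).1).mono_left (Ultrafilter.of_le l))

end Cov

end Vale.Agent.P267
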