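import Vale.Agent.P267S.SV2

/-! P267, solver part: solving modulo a section, the main step. -/

open scoped Manifold ContDiff Topology
open Filter Metric Set

noncomputable section

namespace Vale.Agent.P267

set_option linter.unusedSectionVars false

variable {M : Type} [TopologicalSpace M] [ChartedSpace C2 M] [T2Space M]

namespace Cov
variable {C : Cov M} {p : M} {α : M → C2 →L[ℝ] ℂ} {F : C.I → M → ℂ} {r B : ℝ}
  {u : M → M → ℂ} {s : M → ℂ}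

theorem sv_ne (hF : C.Fr F r B) {i : C.I} (hp : p ∈ C.U i r) : ∀ᶠ q in 𝓝 p, F i q ≠ 0 :=
  mem_of_superset ((C.isOpen_U i r).mem_nhds hp) fun q hq => hF.ne i q hq

theorem sv_sec (hu : IsBundle HolAt u) (hR : C.Rep u F r) (hs : Sec u s) {i : C.I}
    (hp : p ∈ C.U i r) : HolAt (F i * s) p :=
  ((hR i p hp).1.mul (hs p)).congr ((hu.ne p).mono fun q hq => by
    simp only [Pi.mul_apply, Pi.div_apply]
    field_simp)

theorem sv_germ [ConnectedSpace M] (hu : IsBundle HolAt u) (hF : C.Fr F r B) (hs : Sec u s)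
    (h0 : s ≠ 0) {i : C.I} (hp : p ∈ C.U i r) : ¬ F i * s =ᶠ[𝓝 p] 0 := fun h =>
  hs.ne_germ C hu h0 p (by
    filter_upwards [h, sv_ne hF hp] with q k1 k2
    simp only [Pi.mul_apply, Pi.zero_apply, mul_eq_zero, k2, false_or] at k1
    simp [k1])

theorem sv_df (hF : C.Fr F r B) (α : M → C2 →L[ℝ] ℂ) (β : C.I → M → C2 →L[ℝ] ℂ) {i j : C.I}
    (hp : p ∈ C.U i r ∩ C.U j r) :
    (α - fun q => (F j * s) q • β j q) - (α - fun q => (F i * s) q • β i q) =ᶠ[𝓝 p]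
      fun q => (F i * s) q • C.df F⁻¹ β i j q := by
  filter_upwards [sv_ne hF hp.1, sv_ne hF hp.2] with q k1 k2
  refine ContinuousLinearMap.ext fun v => ?_
  change α q v - F j q * s q * β j q v - (α q v - F i q * s q * β i q v) =
    F i q * s q * (β i q v - (F i q)⁻¹ / (F j q)⁻¹ * β j q v)
  field_simp
  ring

/-- The local data. -/
theorem sv_data [ConnectedSpace M] (hu : IsBundle HolAt u) (hF : C.Fr F 2 B) (hR : C.Rep u F 2)
    (hs : Sec u s) (hb : Bdd s) (h0 : s ≠ 0)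
    (h2 : ∀ δ, 0 < δ → ∃ K, 0 ≤ K ∧ C.S2 F⁻¹ (7 / 4) (3 / 2) δ K)
    (hd : ∃ K : ℝ, 0 ≤ K ∧ ∀ (i : C.I) (α : M → C2 →L[ℝ] ℂ) (D : ℝ),
      (∀ p ∈ C.U i (7 / 4), ‖α p‖ ≤ D ∧ ∃ a, C.Prim α a p) →
      ∃ g : M → ℂ, ∀ p ∈ C.U i (3 / 2), C.Prim α g p ∧ ‖g p‖ ≤ K * D)
    {K : Set M} (hK : IsCompact K) (hK0 : ∀ p ∈ K, s p ≠ 0) (hα : ∀ p, C.SmF α p)
    (hc : ∀ p ∉ K, ∃ a, C.Prim α a p) {ε A : ℝ} (hε : 0 < ε)
    (hA : ∀ p, ‖α p‖ ≤ A * Real.exp (-ε * |C.t p|)) :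
    ∃ (β : C.I → M → C2 →L[ℝ] ℂ) (b f : C.I → M → ℂ) (T : ℤ) (D : ℝ),
      (∀ i : C.I, T ≤ |i.2| → β i = 0) ∧
      (∀ i, ∀ p ∈ C.U i (3 / 2), C.SmF (β i) p ∧
        C.Prim (α - fun q => (F i * s) q • β i q) (b i) p ∧ SmAt (F⁻¹ i * f i) p ∧
        ‖f i p‖ ≤ D * C.wt ε 0 i ∧ ‖(b i + s * f i) p‖ ≤ D * C.wt ε 0 i) ∧
      ∀ i j, ∀ p ∈ C.U i (3 / 2) ∩ C.U j (3 / 2),
        HolAt ((b i + s * f i) - (b j + s * f j)) p := by
  obtain ⟨K₂, hK₂, h2⟩ := h2 ε hε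
  obtain ⟨K₁, hK₁, hd⟩ := hd
  obtain ⟨B₁, hB₁⟩ := hb
  have m1 : ∀ i, C.U i (7 / 4) ⊆ C.U i 2 := fun i => C.U_mono i (by norm_num)
  have m2 : ∀ i, C.U i (3 / 2) ⊆ C.U i (7 / 4) := fun i => C.U_mono i (by norm_num)
  have hσ : ∀ i, ∀ p ∈ C.U i 2, HolAt (F i * s) p := fun i p hp => sv_sec hu hR hs hp
  obtain ⟨β, D, T, hD, hT, hβ⟩ := sv_forms hK hσ
    (fun i p hp hp' => mul_ne_zero (hF.ne i p hp) (hK0 p hp')) hα hc (2 * ε)
  obtain ⟨f, f1, f2⟩ := h2 0 D β ⟨hD, fun i p hp => (hβ i p hp).1, fun i p hp => (hβ i p hp).2.1,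
    fun i j p hp => by
      have hp' : p ∈ C.U i 2 ∩ C.U j 2 := ⟨m1 i hp.1, m1 j hp.2⟩
      obtain ⟨k1, -, a, ha⟩ := hβ i p hp.1
      obtain ⟨k2, -, a', ha'⟩ := hβ j p hp.2
      exact sv_cancel (hσ i p hp'.1) (sv_germ hu hF hs h0 hp'.1)
        (k1.sub (k2.smul ((sv_inv hF).hol i j p hp').smAt))
        ((ha'.sub ha).congr (sv_df hF α β hp') (EventuallyEq.refl _ _))⟩
  obtain ⟨f', A', e1, e2⟩ := sv_smooth (F := F⁻¹) (by norm_num) hε.le (mul_nonneg hK₂ hD) f1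
    fun i j p hp => (f2 i j p hp).1
  have h3 : ∀ i, ∀ p ∈ C.U i (7 / 4), ‖(α - fun q => (F i * s) q • β i q) p‖ ≤
      (|A| * Real.exp (ε * C.R) + B * B₁ * D) * C.wt ε 0 i := fun i p hp => by
    have k1 := (hA p).trans (mul_le_mul (le_abs_self A) (sv_wt hε.le hp.1) (Real.exp_pos _).le
      (abs_nonneg A))
    have k2 := (hF.bd i p (m1 i hp)).1
    have k3 := (hβ i p hp).2.1.trans (mul_le_mul_of_nonneg_left
      (C.wt_mono (by linarith : ε ≤ 2 * ε) 0 i) hD)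
    have k4 : ‖(F i * s) p • β i p‖ ≤ B * B₁ * (D * C.wt ε 0 i) := by
      rw [norm_smul, Pi.mul_apply, norm_mul]
      have k5 := (norm_nonneg _).trans k2
      exact mul_le_mul (mul_le_mul k2 (hB₁ p) (norm_nonneg _) k5) k3 (norm_nonneg _)
        (mul_nonneg k5 ((norm_nonneg _).trans (hB₁ p)))
    exact (norm_sub_le _ _).trans ((add_le_add k1 k4).trans_eq (by ring))
  choose b hb using fun i => hd i _ _ fun p hp => ⟨h3 i p hp, (hβ i p hp).2.2⟩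
  set E := |A| * Real.exp (ε * C.R) + B * B₁ * D
  refine ⟨β, b, f', T, |A'| + (|K₁ * E| + |B₁ * A'|), hT, fun i p hp => ?_, fun i j p hp => ?_⟩
  · have w := C.wt_pos ε 0 i
    have k1 := (e2 i p hp).2
    have k2 := (hb i p hp).2
    have k3 : ‖s p * f' i p‖ ≤ B₁ * (A' * C.wt ε 0 i) := by
      rw [norm_mul]
      exact mul_le_mul (hB₁ p) k1 (norm_nonneg _) ((norm_nonneg _).trans (hB₁ p))
    have k4 := mul_le_mul_of_nonneg_right (le_abs_self A') w.le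
    have k5 := mul_le_mul_of_nonneg_right (le_abs_self (K₁ * E)) w.le
    have k6 := mul_le_mul_of_nonneg_right (le_abs_self (B₁ * A')) w.le
    have k7 := mul_nonneg (abs_nonneg A') w.le
    have k8 := mul_nonneg (abs_nonneg (K₁ * E)) w.le
    have k9 := mul_nonneg (abs_nonneg (B₁ * A')) w.le
    refine ⟨(hβ i p (m2 i hp)).1, (hb i p hp).1, (e2 i p hp).1, by linarith,
      (norm_add_le (b i p) (s p * f' i p)).trans (by linarith)⟩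
  · have hp' : p ∈ C.U i 2 ∩ C.U j 2 := ⟨m1 i (m2 i hp.1), m1 j (m2 j hp.2)⟩
    have k1 := (sv_mul (hσ i p hp'.1) (f2 i j p hp)).hol_sub
      (((hb j p hp.2).1.sub (hb i p hp.1).1).congr (sv_df hF α β hp') (EventuallyEq.refl _ _))
    refine k1.congr ((sv_ne hF hp'.1).mono fun q hq => ?_)
    have k2 := congrFun (e1 i j) q
    simp only [Pi.sub_apply, Pi.mul_apply, Pi.add_apply, Pi.inv_apply] at k2 ⊢
    rw [← k2]
    field_simp
    ring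

theorem sv_core [ConnectedSpace M] (hu : IsBundle HolAt u) (hF : C.Fr F 2 B) (hR : C.Rep u F 2)
    (hs : Sec u s) (hb : Bdd s) (h0 : s ≠ 0)
    (h2 : ∀ δ, 0 < δ → ∃ K, 0 ≤ K ∧ C.S2 F⁻¹ (7 / 4) (3 / 2) δ K)
    (hd : ∃ K : ℝ, 0 ≤ K ∧ ∀ (i : C.I) (α : M → C2 →L[ℝ] ℂ) (D : ℝ),
      (∀ p ∈ C.U i (7 / 4), ‖α p‖ ≤ D ∧ ∃ a, C.Prim α a p) →
      ∃ g : M → ℂ, ∀ p ∈ C.U i (3 / 2), C.Prim α g p ∧ ‖g p‖ ≤ K * D)
    (h1 : C.S1F 1 (5 / 4))
    (hl : ∀ (w : M → ℂ) (ε A : ℝ), Bdd w → 0 < ε →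
      (∀ i : C.I, C.Near w i (9 / 8) (A * C.wt ε 0 i)) → ∃ c, C.LimA w c) :
    C.Solve u s := by
  intro α K hK hK0 hα hc ⟨ε, A, hε, hA⟩
  obtain ⟨β, b, f, T, D, hT, h3, h4⟩ := sv_data hu hF hR hs hb h0 h2 hd hK hK0 hα hc hε hA
  have m1 : ∀ i, C.U i (3 / 2) ⊆ C.U i 2 := fun i => C.U_mono i (by norm_num)
  have m2 : ∀ i, C.U i (5 / 4) ⊆ C.U i (3 / 2) := fun i => C.U_mono i (by norm_num)
  have m3 : ∀ p, p ∈ C.U (C.idx p) (3 / 2) := fun p =>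
    C.U_mono _ (by norm_num) (C.mem_U_idx p)
  obtain ⟨w, w1, w2⟩ := h1 (fun i => b i + s * f i) ε D hε
    (fun i j p hp => by simpa using h4 i j p ⟨m2 i hp.1, m2 j hp.2⟩)
    fun i p hp => (h3 i p (m2 i hp)).2.2.2.2
  have w3 : ∀ i, ∀ p ∈ C.U i (3 / 2), HolAt (w - (b i + s * f i)) p := fun i p hp => by
    have k := w2 _ p (C.mem_U_idx p)
    simp only [Pi.one_apply, one_mul] at k
    exact ((h4 i _ p ⟨hp, m3 p⟩).add k).neg.congr (.of_forall fun q => by simp)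
  have hσ : ∀ i, ∀ p ∈ C.U i (3 / 2), HolAt (F i * s) p := fun i p hp =>
    sv_sec hu hR hs (m1 i hp)
  have key : ∀ i, ∀ p ∈ C.U i (3 / 2), ∀ a, C.Prim (β i) a p →
      SmAt ((u p)⁻¹ * (F i * a - f i)) p ∧ C.Prim α (w + s * (F i * a - f i)) p := by
    intro i p hp a ha
    obtain ⟨-, k1, k2, -⟩ := h3 i p hp
    refine ⟨((hR i p (m1 i hp)).1.smAt.mul (ha.1.sub k2)).congr
      ((sv_ne hF (m1 i hp)).mono fun q hq => ?_),
      ((k1.add (sv_mul (hσ i p hp) ha)).add_hol (w3 i p hp)).congr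
        (.of_forall fun q => by simp) (.of_forall fun q => ?_)⟩
    · simp only [Pi.sub_apply, Pi.mul_apply, Pi.div_apply, Pi.inv_apply]
      field_simp
    · simp only [Pi.sub_apply, Pi.mul_apply, Pi.add_apply]
      ring
  refine ⟨w, w1, fun p => ?_, hl w ε D w1 hε fun i => ⟨w - (b i + s * f i), fun p hp => ?_⟩,
    fun p hp => ?_, ε, D, T, hε, fun i hi => ⟨F i * 0 - f i, fun p hp => ?_⟩⟩
  · obtain ⟨-, k1, k2, -⟩ := h3 _ p (m3 p)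
    refine ((w3 _ p (m3 p)).smAt.add (k1.1.add ((hσ _ p (m3 p)).smAt.mul k2))).congr
      ((sv_ne hF (m1 _ (m3 p))).mono fun q hq => ?_)
    simp only [Pi.sub_apply, Pi.mul_apply, Pi.add_apply, Pi.inv_apply]
    field_simp
    ring
  · have hp' := C.U_mono i (by norm_num : (9 / 8 : ℝ) ≤ 3 / 2) hp
    exact ⟨w3 i p hp', by simpa using (h3 i p hp').2.2.2.2⟩
  · obtain ⟨a, ha⟩ := hc p hp
    obtain ⟨k0, k1, -⟩ := h3 _ p (m3 p)
    obtain ⟨a', ha'⟩ := sv_cancel (hσ _ p (m3 p)) (sv_germ hu hF hs h0 (m1 _ (m3 p))) k0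
      ((ha.sub k1).congr (.of_forall fun q => by simp) (EventuallyEq.refl _ _))
    exact ⟨_, key _ p (m3 p) a' ha'⟩
  · obtain ⟨k1, k2⟩ := key i p hp 0 (Prim.of_hol holAt_zero (by rw [hT i hi]))
    refine ⟨k1, k2, ?_⟩
    simpa [wt] using (h3 i p hp).2.2.2.1

end Cov

end Vale.Agent.P267
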