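import Vale.Agent.P267S.SCMont

/-! P267, solver part C: the second cohomology. -/

open scoped Topology
open Filter Metric Set

noncomputable section

namespace Vale.Agent.P267

set_option linter.unusedSectionVars false

variable {M : Type} [TopologicalSpace M] [ChartedSpace C2 M] [T2Space M]

namespace Cov
variable {C : Cov M} {φ P : C.I → M → ℂ} {Φ : ℕ → C.I → M → ℂ} {Ψ : C.I → M → ℂ} {δ B : ℝ}
  {N : ℕ}

/-- A periodic section that does not vanish can be normalised. -/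
theorem sch2_norm {D : ℝ} (hN : 0 < N) (hF : C.Fr Ψ 2 D) {s : M → ℂ}
    (hp : ∀ p, s ((C.g ^ (N : ℤ)) p) = s p) (hs : ∀ p, HolAt (Ψ (C.idx p) * s) p) (h0 : s ≠ 0) :
    ∃ (w : M → ℂ) (x : M), (∀ i, ∀ p ∈ C.U i 1, HolAt (Ψ i * w) p) ∧ (∀ p, ‖w p‖ ≤ 1) ∧
      1 / 2 ≤ ‖w x‖ := by
  have h1 : ∀ i, ∀ p ∈ C.U i 1, HolAt (Ψ i * s) p := fun i p hi =>
    hF.hol_to (C.U_mono i one_le_two hi) (C.U_mono _ one_le_two (C.mem_U_idx p)) (hs p)
  obtain ⟨K, hK⟩ := bdd_per hN hp fun p => by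
    refine ⟨D * (‖(Ψ (C.idx p) * s) p‖ + 1), ?_⟩
    filter_upwards [(C.isOpen_U _ 2).mem_nhds (C.U_mono _ one_le_two (C.mem_U_idx p)),
      (hs p).continuousAt.norm.eventually (gt_mem_nhds (lt_add_one _))] with q h2 h3
    have h4 : s q = (Ψ (C.idx p) q)⁻¹ * (Ψ (C.idx p) * s) q := by
      rw [Pi.mul_apply, inv_mul_cancel_left₀ (hF.ne _ q h2)]
    rw [h4, norm_mul]
    exact mul_le_mul (hF.bd _ q h2).2 h3.le (norm_nonneg _)
      ((norm_nonneg _).trans (hF.bd _ q h2).2)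
  obtain ⟨p₀, hp₀⟩ := Function.ne_iff.1 h0
  have : Nonempty M := ⟨p₀⟩
  have hb : BddAbove (range fun p => ‖s p‖) := ⟨K, by rintro _ ⟨p, rfl⟩; exact hK p⟩
  have hle : ∀ p, ‖s p‖ ≤ ⨆ p, ‖s p‖ := le_ciSup hb
  have hL : 0 < ⨆ p, ‖s p‖ := (norm_pos_iff.2 hp₀).trans_le (hle p₀)
  obtain ⟨x, hx⟩ := exists_lt_of_lt_ciSup (half_lt_self hL)
  generalize ⨆ p, ‖s p‖ = L at hle hL hx
  have hn : ∀ p, ‖((L : ℂ)⁻¹ • s) p‖ = ‖s p‖ / L := fun p => by
    rw [Pi.smul_apply, norm_smul, norm_inv, Complex.norm_of_nonneg hL.le, inv_mul_eq_div]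
  refine ⟨(L : ℂ)⁻¹ • s, x, fun i p hi => ?_, fun p => ?_, ?_⟩
  · rw [mul_smul_comm]
    exact (h1 i p hi).smul _
  · rw [hn, div_le_one hL]
    exact hle p
  · rw [hn, le_div_iff₀ hL]
    linarith

theorem sch2_kf (i : C.I) (k : ℤ) (p : M) : C.kf (C.sh i k) ((C.g ^ k) p) = C.kf i p := by
  simp only [kf, sh, ← C.gz_add, sub_add_cancel]

/-- No periodic section of the dual bundle for large periods. -/
theorem noH2 (h : C.Sys φ δ B Φ) (hl : C.NoLim Φ (5 / 4)) :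
    ∀ᶠ N in atTop, C.NoH2 (Φ N) N := by
  by_contra hc
  obtain ⟨n, hn, h1⟩ := extraction_of_frequently_atTop
    ((not_eventually.1 hc).and_eventually (eventually_gt_atTop 0))
  obtain ⟨K, hK⟩ := kf_fr (C := C)
  have hD := fun m => hK.div (h.fr m)
  have h2 : ∀ m, ∃ (w : M → ℂ) (x : M), (∀ i, ∀ p ∈ C.U i 1,
      HolAt ((C.kf / Φ (n m)) i * w) p) ∧ (∀ p, ‖w p‖ ≤ 1) ∧ 1 / 2 ≤ ‖w x‖ := fun m => by
    obtain ⟨h3, h4⟩ := h1 m
    simp only [NoH2, not_forall] at h3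
    obtain ⟨s, hp, hs, h0⟩ := h3
    exact sch2_norm h4 (hD _) hp hs h0
  choose w x hw hb hx using h2
  obtain ⟨k, hk⟩ : ∃ k : ℕ → ℤ, ∀ m, |C.t ((C.g ^ (-k m)) (x m))| ≤ 1 :=
    ⟨fun m => ⌊C.t (x m)⌋, fun m => by
      rw [C.t_gz, Int.cast_neg, abs_le]
      constructor <;> linarith [Int.floor_le (C.t (x m)), Int.lt_floor_add_one (C.t (x m))]⟩
  have hS := fun m => (h.fr (n m)).shift (k m)
  have hT := fun m => (hD (n m)).shift (k m)
  have h54 : ∀ i, C.U i (5 / 4) ⊆ C.U i 2 := fun i => C.U_mono i (by norm_num)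
  have h3 : ∀ i p, ∃ y, p ∈ C.U i (5 / 4) → Tendsto
      (fun m => Φ (n m) (C.sh i (k m)) ((C.g ^ k m) p)) (hyperfilter ℕ) (𝓝 y) := fun i p => by
    by_cases hp : p ∈ C.U i (5 / 4)
    · obtain ⟨y, hy⟩ := cb_lim (hyperfilter ℕ)
        (Eventually.of_forall fun m => ((hS m).bd i p (h54 i hp)).1)
      exact ⟨y, fun _ => hy⟩
    · exact ⟨0, fun h => absurd h hp⟩
  choose F hF using h3
  have hne : ∀ i, ∀ p ∈ C.U i (5 / 4), F i p ≠ 0 := fun i p hp h0 => by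
    have h4 : (1 : ℝ) ≤ ‖F i p‖ * B := ge_of_tendsto' ((hF i p hp).norm.mul_const B) fun m => by
      have h5 := mul_le_mul_of_nonneg_left ((hS m).bd i p (h54 i hp)).2
        (norm_nonneg (Φ (n m) (C.sh i (k m)) ((C.g ^ k m) p)))
      rwa [← norm_mul, mul_inv_cancel₀ ((hS m).ne i p (h54 i hp)), norm_one] at h5
    rw [h0, norm_zero, zero_mul] at h4
    exact absurd h4 (by norm_num)
  have h14 : ∀ i, C.U i 1 ⊆ C.U i (5 / 4) := fun i => C.U_mono i (by norm_num)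
  obtain ⟨W, hW1, hW2, hW3⟩ := mont (C := C) (hyperfilter ℕ)
    (Φ := fun m i p => (C.kf / Φ (n m)) (C.sh i (k m)) ((C.g ^ k m) p)) (φ := C.kf / F)
    (G := 0) (P := 0) (w := fun m => w m ∘ (C.g ^ k m : M ≃ₜ M))
    (fun i p hp => by
      simp only [Pi.div_apply, sch2_kf]
      exact tendsto_const_nhds.div (hF i p (h14 i hp)) (hne i p (h14 i hp)))
    (fun i p _ => tendsto_const_nhds)
    (fun i => ⟨max (K * B) 1, Eventually.of_forall fun m p hp => by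
      have h4 := (hT m).bd i p (C.U_mono i one_le_two hp)
      refine ⟨?_, (hT m).ne i p (C.U_mono i one_le_two hp), h4.1.trans (le_max_left _ _),
        h4.2.trans (le_max_left _ _), by simp, (hb m _).trans (le_max_right _ _)⟩
      simp only [Pi.zero_apply, zero_sub, mul_neg]
      exact ((C.hol_gz (k m)).2 (hw m _ _ ((sh_mem i (k m) 1 p).2 hp))).neg⟩)
  have hW : -W = 0 := hl n k F hn.tendsto_atTop hF (-W) 0
    (fun i p hp => by simpa only [Pi.zero_apply, zero_sub] using hW2 i p hp)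
    ⟨1, fun p => by
      rw [zero_mul, Real.exp_zero, mul_one, Pi.neg_apply, norm_neg]
      exact le_of_tendsto' (hW1 p).norm fun m => hb m _⟩
  obtain ⟨p, hp⟩ := C.cb_pt (hyperfilter ℕ) (Eventually.of_forall hk)
  have h4 := (hW3 _ p (C.mem_U_idx p) (by rw [neg_eq_zero.1 hW]; rfl) _ hp).norm
  simp only [Pi.zero_apply, zero_sub, norm_neg, Function.comp_apply, C.cb_zpow_neg', norm_zero]
    at h4
  exact absurd (ge_of_tendsto' h4 hx) (by norm_num)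

end Cov

end Vale.Agent.P267
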