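import Vale.Agent.P267S.SC2

/-! P267, solver part C: linear algebra. -/

open scoped Topology
open Filter Metric Set

noncomputable section

namespace Vale.Agent.P267

set_option linter.unusedSectionVars false

section
variable {M : Type} [TopologicalSpace M] [ChartedSpace C2 M] {G : M → M} {v k : M → M → ℂ}
  {f₁ f₂ : M → M → ℂ}

theorem scla_B {f : Z1 G v} (h : (Submodule.Quotient.mk f : H1 G v) = 0) :
    ∃ s : M → ℂ, s ∘ G = s ∧ ∀ p, HolAt (v p * (f.1 p - s)) p := by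
  have h' : f.1 ∈ B1 G v := (Submodule.Quotient.mk_eq_zero ((B1 G v).submoduleOf (Z1 G v))).1 h
  generalize f.1 = f at h'
  induction h' using Submodule.span_induction with
  | mem f hf => exact hf
  | zero => exact ⟨0, rfl, fun p => by simpa using holAt_zero⟩
  | add f f' _ _ h h' =>
    obtain ⟨s, h1, h2⟩ := h
    obtain ⟨s', h3, h4⟩ := h'
    refine ⟨s + s', funext fun x => congrArg₂ (· + ·) (congrFun h1 x) (congrFun h3 x), fun p => ?_⟩
    rw [Pi.add_apply, add_sub_add_comm, mul_add]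
    exact (h2 p).add (h4 p)
  | smul c f _ h =>
    obtain ⟨s, h1, h2⟩ := h
    refine ⟨c • s, funext fun x => congrArg (c • ·) (congrFun h1 x), fun p => ?_⟩
    rw [Pi.smul_apply, ← smul_sub, mul_smul_comm]
    exact (h2 p).smul c

theorem scla_two {c : ℤ} (he : Euler G v k c)
    (h2 : ∀ s : M → ℂ, s ∘ G = s → (∀ p, HolAt ((k / v) p * s) p) → s = 0) :
    (Module.finrank ℂ (H0 G v) : ℤ) - Module.finrank ℂ (H1 G v) = c := by
  have e : H0 G (k / v) = ⊥ := Submodule.span_eq_bot.2 fun s hs => h2 s hs.1 hs.2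
  have := he.2
  rwa [e, finrank_bot, Nat.cast_zero, add_zero] at this

theorem scla_dep [FiniteDimensional ℂ (H1 G v)] (h : Module.finrank ℂ (H1 G v) ≤ 1)
    (h₁ : f₁ ∈ Z1 G v) (h₂ : f₂ ∈ Z1 G v) : ∃ (α β : ℂ) (w : M → ℂ), w ∘ G = w ∧
      (∀ p, HolAt (v p * (α • f₁ p + β • f₂ p - w)) p) ∧ (α ≠ 0 ∨ β ≠ 0) := by
  have n : ¬ LinearIndependent ℂ ![(Submodule.Quotient.mk ⟨f₁, h₁⟩ : H1 G v),
      Submodule.Quotient.mk ⟨f₂, h₂⟩] := fun k => by
    have := k.fintype_card_le_finrank.trans h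
    rw [Fintype.card_fin] at this
    omega
  rw [LinearIndependent.pair_iff] at n
  obtain ⟨α, n⟩ := not_forall.1 n
  obtain ⟨β, n⟩ := not_forall.1 n
  obtain ⟨e, n⟩ := Classical.not_imp.1 n
  rw [← Submodule.Quotient.mk_smul, ← Submodule.Quotient.mk_smul, ← Submodule.Quotient.mk_add] at e
  obtain ⟨w, h3, h4⟩ := scla_B e
  exact ⟨α, β, w, h3, h4, not_and_or.1 n⟩

theorem scla_ne (h : H0 G v ≠ ⊥) : ∃ w : M → ℂ, w ∘ G = w ∧ (∀ p, HolAt (v p * -w) p) ∧ w ≠ 0 := by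
  by_contra! H
  exact h (Submodule.span_eq_bot.2 fun s hs => H s hs.1 fun p => mul_neg (v p) s ▸ (hs.2 p).neg)

theorem la_neg (he : Euler G v k (-1))
    (h2 : ∀ s : M → ℂ, s ∘ G = s → (∀ p, HolAt ((k / v) p * s) p) → s = 0)
    (h₁ : f₁ ∈ Z1 G v) (h₂ : f₂ ∈ Z1 G v) : ∃ (α β : ℂ) (w : M → ℂ), w ∘ G = w ∧
      (∀ p, HolAt (v p * (α • f₁ p + β • f₂ p - w)) p) ∧ (α ≠ 0 ∨ β ≠ 0 ∨ w ≠ 0) := by
  by_cases h : H0 G v = ⊥
  · have := he.1
    have e := scla_two he h2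
    rw [h, finrank_bot] at e
    obtain ⟨α, β, w, h3, h4, h5⟩ := scla_dep (by omega) h₁ h₂
    exact ⟨α, β, w, h3, h4, h5.imp_right Or.inl⟩
  · obtain ⟨w, h3, h4, h5⟩ := scla_ne h
    exact ⟨0, 0, w, h3, by simpa only [zero_smul, add_zero, zero_sub] using h4, .inr (.inr h5)⟩

theorem la_pos (he : Euler G v k 0)
    (h2 : ∀ s : M → ℂ, s ∘ G = s → (∀ p, HolAt ((k / v) p * s) p) → s = 0)
    (h₂ : f₂ ∈ Z1 G v) : ∃ (β : ℂ) (w : M → ℂ), w ∘ G = w ∧
      (∀ p, HolAt (v p * (β • f₂ p - w)) p) ∧ (β ≠ 0 ∨ w ≠ 0) := by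
  by_cases h : H0 G v = ⊥
  · have := he.1
    have e := scla_two he h2
    rw [h, finrank_bot] at e
    have : Subsingleton (H1 G v) := (Module.finrank_zero_iff (R := ℂ)).1 (by omega)
    obtain ⟨w, h3, h4⟩ := scla_B (f := ⟨f₂, h₂⟩) (Subsingleton.elim _ _)
    exact ⟨1, w, h3, by simpa only [one_smul] using h4, .inl one_ne_zero⟩
  · obtain ⟨w, h3, h4, h5⟩ := scla_ne h
    exact ⟨0, w, h3, by simpa only [zero_smul, zero_sub] using h4, .inr h5⟩

theorem la_one (he : Euler G v k 0)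
    (h2 : ∀ s : M → ℂ, s ∘ G = s → (∀ p, HolAt ((k / v) p * s) p) → s = 0) (s₀ : M → ℂ)
    (h0 : ∀ s : M → ℂ, s ∘ G = s → (∀ p, HolAt (v p * s) p) → ∃ c : ℂ, s = c • s₀)
    (h₁ : f₁ ∈ Z1 G v) (h₂ : f₂ ∈ Z1 G v) : ∃ (α β : ℂ) (w : M → ℂ), w ∘ G = w ∧
      (∀ p, HolAt (v p * (α • f₁ p + β • f₂ p - w)) p) ∧ (α ≠ 0 ∨ β ≠ 0) := by
  have := he.1
  have e := scla_two he h2
  have l : H0 G v ≤ Submodule.span ℂ {s₀} := Submodule.span_le.2 fun s hs =>
    Submodule.mem_span_singleton.2 ((h0 s hs.1 hs.2).imp fun _ => Eq.symm)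
  have l2 := (Submodule.finrank_mono l).trans (finrank_span_le_card _)
  rw [toFinset_singleton, Finset.card_singleton] at l2
  exact scla_dep (by omega) h₁ h₂

end

end Vale.Agent.P267
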