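import Vale.Agent.P267S.SV3

/-! P267, solver part: translation between bundles and frames. -/

open scoped Manifold ContDiff Topology
open Filter Metric Set

noncomputable section

namespace Vale.Agent.P267

set_option linter.unusedSectionVars false

variable {M : Type} [TopologicalSpace M] [ChartedSpace C2 M] [T2Space M]

theorem st_exp {x : ℂ} {B w : ℝ} (h : ‖x‖ ≤ B * w) (hB : 0 ≤ B) (hw : w ≤ 1) :
    ‖Complex.exp x - 1‖ ≤ B * Real.exp B * w ∧ ‖(Complex.exp x)⁻¹‖ ≤ Real.exp B := by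
  have h1 : ‖x‖ ≤ B := h.trans (mul_le_of_le_one_right hB hw)
  have h2 := Complex.norm_exp_sub_sum_le_norm_mul_exp x 1
  simp only [Finset.range_one, Finset.sum_singleton, pow_zero, Nat.factorial_zero, Nat.cast_one,
    div_one, pow_one] at h2
  refine ⟨h2.trans ((mul_le_mul h (Real.exp_le_exp.2 h1) (Real.exp_pos _).le
    ((norm_nonneg _).trans h)).trans_eq (by ring)), ?_⟩
  rw [← Complex.exp_neg]
  exact (Complex.norm_exp_le_exp_norm _).trans (Real.exp_le_exp.2 (by rwa [norm_neg]))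

namespace Cov
variable {C : Cov M} {p : M} {F : C.I → M → ℂ} {r B : ℝ} {u : M → M → ℂ} {s : M → ℂ}

theorem st_wt (δ : ℝ) (i : C.I) : C.wt δ 0 i = Real.exp (-δ * |(i.2 : ℝ)|) := by
  rw [wt, Int.cast_zero, sub_zero]

/-- A bundle with a tail has good frames. -/
theorem Tail.rep (h : C.Tail u) : ∃ F B, C.Fr F 2 B ∧ C.Tl F 2 ∧ C.Rep u F 2 := by
  obtain ⟨a, δ, B, T, hδ, hB, ha⟩ := h.tail'
  have h1 : ∀ i : C.I, ∃ (F : M → ℂ) (D : ℝ), ∀ p ∈ C.U i 2, F p ≠ 0 ∧ HolAt (F / u p) p ∧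
      ‖F p - 1‖ ≤ D ∧ ‖(F p)⁻¹‖ ≤ D ∧ (T ≤ |i.2| →
        ‖F p - 1‖ ≤ B * Real.exp B * C.wt δ 0 i ∧ ‖(F p)⁻¹‖ ≤ Real.exp B) := fun i => by
    by_cases hi : T ≤ |i.2|
    · refine ⟨fun q => Complex.exp (a i q), max (B * Real.exp B * C.wt δ 0 i) (Real.exp B),
        fun p hp => ?_⟩
      have k := st_exp (w := C.wt δ 0 i) (by rw [st_wt]; exact ha.norm hi hp) hB
        (C.wt_le_one hδ.le 0 i)
      exact ⟨Complex.exp_ne_zero _, ha.frame i hi p hp, k.1.trans (le_max_left _ _),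
        k.2.trans (le_max_right _ _), fun _ => k⟩
    · obtain ⟨F, D, hF⟩ := h.framed i
      refine ⟨F, D + 1, fun p hp => ?_⟩
      obtain ⟨k1, k2, k3, k4⟩ := hF p hp
      exact ⟨k1, k2, (norm_sub_le _ _).trans (by rw [norm_one]; linarith), by linarith,
        fun h => absurd h hi⟩
  choose F D hF using h1
  have w := fun i => C.wt_pos δ 0 i
  obtain ⟨D₁, k1, k2⟩ := C.bd_wt (x := fun i p => ‖F i p - 1‖ - B * Real.exp B * C.wt δ 0 i)
    (r := 2) (T := T) (fun i => ⟨D i, fun p hp => by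
      have := mul_nonneg (mul_nonneg hB (Real.exp_pos B).le) (w i).le
      linarith [(hF i p hp).2.2.1]⟩) (fun i hi p hp => sub_nonpos.2 ((hF i p hp).2.2.2.2 hi).1) δ
  obtain ⟨D₂, k3, k4⟩ := C.bd_wt (x := fun i p => ‖(F i p)⁻¹‖ - Real.exp B)
    (r := 2) (T := T) (fun i => ⟨D i, fun p hp => by
      linarith [(hF i p hp).2.2.2.1, Real.exp_pos B]⟩)
    (fun i hi p hp => sub_nonpos.2 ((hF i p hp).2.2.2.2 hi).2) δ
  have k5 : ∀ i, ∀ p ∈ C.U i 2, ‖F i p - 1‖ ≤ (B * Real.exp B + D₁) * C.wt δ 0 i :=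
    fun i p hp => by linarith [k2 i p hp]
  have k6 : ∀ i, ∀ p ∈ C.U i 2, (F i / u p) p ≠ 0 := fun i p hp =>
    div_ne_zero (hF i p hp).1 (h.hol.ne p).self_of_nhds
  have k7 : 0 ≤ B * Real.exp B + D₁ := by positivity
  refine ⟨F, B * Real.exp B + D₁ + 1 + (Real.exp B + D₂), ⟨fun i p hp => (hF i p hp).1,
    fun i j p hp => ?_, fun i p hp => ⟨?_, ?_⟩⟩, ⟨δ, _, hδ, k5⟩,
    fun i p hp => ⟨(hF i p hp).2.1, ?_⟩⟩
  · refine ((hF i p hp.1).2.1.div (hF j p hp.2).2.1 (k6 j p hp.2)).congr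
      ((h.hol.ne p).mono fun q hq => ?_)
    simp only [Pi.div_apply]
    exact div_div_div_cancel_right₀ hq _ _
  · have k8 := (k5 i p hp).trans (mul_le_of_le_one_right k7 (C.wt_le_one hδ.le 0 i))
    have k9 := norm_add_le (F i p - 1) 1
    rw [sub_add_cancel, norm_one] at k9
    linarith [Real.exp_pos B]
  · linarith [k4 i p hp, mul_le_of_le_one_right k3 (C.wt_le_one hδ.le 0 i)]
  · exact ((hF i p hp).2.1.inv (k6 i p hp)).congr (.of_forall fun q => by simp)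

theorem st_idx (hr : 1 ≤ r) (p : M) : p ∈ C.U (C.idx p) r := C.U_mono _ hr (C.mem_U_idx p)

theorem st_bun (h : C.Fr F r B) (hr : 1 ≤ r) : IsBundle HolAt (C.bun F) := fun p =>
  mem_of_superset ((C.isOpen_U _ r).mem_nhds (st_idx hr p)) fun q hq =>
    ⟨h.ne _ q hq, h.hol _ _ q ⟨hq, st_idx hr q⟩⟩

theorem st_rep (h : C.Fr F r B) (hr : 1 ≤ r) : C.Rep (C.bun F) F r := fun _ p hp =>
  ⟨h.hol _ _ p ⟨hp, st_idx hr p⟩, h.hol _ _ p ⟨st_idx hr p, hp⟩⟩

theorem st_rep_inv (h : C.Rep u F r) : C.Rep u⁻¹ F⁻¹ r := fun i p hp =>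
  ⟨(h i p hp).2.congr (.of_forall fun q => by
      simp only [Pi.div_apply, Pi.inv_apply, inv_div_inv]),
    (h i p hp).1.congr (.of_forall fun q => by
      simp only [Pi.div_apply, Pi.inv_apply, inv_div_inv])⟩

theorem st_rep_mono (h : C.Rep u F r) {r' : ℝ} (hr : r' ≤ r) : C.Rep u F r' :=
  fun i p hp => h i p (C.U_mono i hr hp)

theorem st_secF (hu : IsBundle HolAt u) (hR : C.Rep u F r) (hr : 1 ≤ r) (hs : Sec u s) :
    C.SecF F s := fun i _ hp => sv_sec hu hR hs (C.U_mono i hr hp)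

theorem st_sec (hs : C.SecF F s) : Sec (C.bun F) s := fun p => hs _ p (C.mem_U_idx p)

theorem st_log (C : Cov M) {a : M → ℂ} (ha : SmAt a p) (h : HolAt (fun q => Complex.exp (a q)) p) :
    HolAt a p := by
  refine C.hol_of_db ha ?_
  filter_upwards [C.sm_ev ha, C.hol_ev h] with q k1 k2
  have k3 := C.db_comp k1 (Complex.hasDerivAt_exp (a q))
  rw [C.db_hol k2] at k3
  refine ContinuousLinearMap.ext fun v => ?_
  have k4 : (0 : ℂ) = Complex.exp (a q) * C.db a q v := congrArg (fun L => L v) k3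
  exact (mul_eq_zero.1 k4.symm).resolve_left (Complex.exp_ne_zero _)

variable {E : M → M → ℂ} {Φ a : C.I → M → ℂ} {δ : ℝ} {T : ℤ}

theorem Str.iso (h : C.Str E Φ a δ B T) (p : M) :
    SmAt (C.bun (fun i q => Φ i q * Complex.exp (a i q)) p / E p) p :=
  ((h.ne _ p (C.ac_src p)).2.mul (h.sm _ p (st_idx (by norm_num) p)).exp).congr
    (.of_forall fun q => by
      simp only [bun, Pi.mul_apply, Pi.div_apply]
      ring)

/-- The bundle of a structure with a tail. -/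
theorem Str.tail (h : C.Str E Φ a δ B T) (hE : IsBundle SmAt E)
    (hm : ∀ p, SmAt (fun q => (‖E p q‖ : ℂ)) p) :
    C.Tail (C.bun fun i q => Φ i q * Complex.exp (a i q)) := by
  have m : ∀ i, C.U i 2 ⊆ C.U i (5 / 2) := fun i => C.U_mono i (by norm_num)
  have hR := st_rep h.fr (by norm_num)
  have e : ∀ i : C.I, T ≤ |i.2| → ∀ p ∈ C.U i 2, ∀ᶠ q in 𝓝 p, Φ i q = 1 := fun i hi p hp =>
    mem_of_superset ((C.ch i).open_source.mem_nhds hp.1) fun q hq => (h.one i hi q hq).1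
  refine ⟨st_bun h.fr (by norm_num), fun p => ?_, ⟨a, δ, B, T, h.pos,
    fun i _ p hp => h.sm i p (m i hp), fun i hi p hp => ?_, fun i hi j hj p hp => ?_,
    fun i _ p hp => ?_⟩, fun c => ⟨_, B, fun q hq => ⟨h.fr.ne c q (m c hq), (hR c q (m c hq)).1,
      h.fr.bd c q (m c hq)⟩⟩⟩
  · refine (((h.iso p).norm (div_ne_zero (h.fr.ne _ p (st_idx (by norm_num) p))
      (hE.ne p).self_of_nhds)).mul (hm p)).congr ((hE.ne p).mono fun q hq => ?_)
    simp only [Pi.mul_apply, Pi.div_apply, norm_div]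
    rw [← Complex.ofReal_mul, div_mul_cancel₀ _ (norm_ne_zero_iff.2 hq)]
  · refine (hR i p (m i hp)).1.congr ((e i hi p hp).mono fun q hq => ?_)
    simp only [Pi.div_apply, hq, one_mul]
  · refine C.st_log ((h.sm i p (m i hp.1)).sub (h.sm j p (m j hp.2)))
      ((h.fr.hol i j p ⟨m i hp.1, m j hp.2⟩).congr ?_)
    filter_upwards [e i hi p hp.1, e j hj p hp.2] with q k1 k2
    simp only [Pi.div_apply, Pi.sub_apply, k1, k2, one_mul, Complex.exp_sub]
  · rw [← st_wt]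
    exact h.bd i p (m i hp)

end Cov

end Vale.Agent.P267
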