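import Vale.Agent.P267S.SA4

/-! P267, solver part A: the theorem of Montel. -/

open scoped Manifold ContDiff Topology
open Filter Metric Set

noncomputable section

namespace Vale.Agent.P267

set_option linter.unusedSectionVars false

variable {M : Type} [TopologicalSpace M] [ChartedSpace C2 M] [T2Space M]

variable {ι : Type} (𝒰 : Ultrafilter ι)

theorem ulim_tendsto {s : ι → M → ℂ} {q : M} {D : ℝ} (h : ∀ᶠ k in (𝒰 : Filter ι), ‖s k q‖ ≤ D) :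
    Tendsto (fun k => s k q) 𝒰 (𝓝 (ulim 𝒰 s q)) :=
  tendsto_nhds_limUnder (cb_lim 𝒰 h)

namespace Cov
variable (C : Cov M)

include C in
theorem sa_montel {s F : ι → M → ℂ} {φ : M → ℂ} {p : M} {W : Set M} (hW : W ∈ 𝓝 p) {D : ℝ}
    (hφ : ∀ q ∈ W, ‖φ q‖ ≤ D) (hb : ∀ᶠ k in (𝒰 : Filter ι), ∀ q ∈ W, ‖s k q‖ ≤ D)
    (hh : ∀ᶠ k in (𝒰 : Filter ι), ∀ q ∈ W, HolAt (φ * (s k - F k)) q)
    (hF : ∀ ε : ℝ, 0 < ε → ∀ᶠ k in (𝒰 : Filter ι), ∀ q ∈ W, ‖F k q‖ ≤ ε) :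
    HolAt (φ * ulim 𝒰 s) p ∧ ∀ w : ι → M, Tendsto w 𝒰 (𝓝 p) →
      Tendsto (fun k => φ (w k) * s k (w k)) 𝒰 (𝓝 (φ p * ulim 𝒰 s p)) := by
  have hp := (C.cb_mem_idx p).1
  obtain ⟨P, hP⟩ : ∃ P, P = C.ch (C.idx p) := ⟨_, rfl⟩
  have hol : ∀ q ∈ P.source, ∀ f : M → ℂ, HolAt f q ↔ AnalyticAt ℂ (f ∘ P.symm) (P q) := by
    subst hP
    exact fun q hq f => C.cb_hol hq
  rw [← hP] at hp
  have hD : 0 ≤ D := (norm_nonneg _).trans (hφ p (mem_of_mem_nhds hW))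
  obtain ⟨V, hV, hVo, hpV⟩ := _root_.mem_nhds_iff.1 (inter_mem
    (P.open_target.mem_nhds (P.map_source hp)) (P.tendsto_symm hp hW))
  have h0 : ∀ w : ι → M, (∀ᶠ k in (𝒰 : Filter ι), w k ∈ W) →
      Tendsto (fun k => φ (w k) * F k (w k)) 𝒰 (𝓝 0) := fun w hw => by
    have h1 : Tendsto (fun k => F k (w k)) 𝒰 (𝓝 0) := by
      refine Metric.tendsto_nhds.2 fun ε hε => ?_
      filter_upwards [hw, hF (ε / 2) (half_pos hε)] with k k1 k2
      rw [dist_zero_right]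
      exact (k2 _ k1).trans_lt (half_lt_self hε)
    refine squeeze_zero_norm' (a := fun k => D * ‖F k (w k)‖) (hw.mono fun k hk => ?_) ?_
    · rw [norm_mul]
      exact mul_le_mul_of_nonneg_right (hφ _ hk) (norm_nonneg _)
    · simpa using h1.norm.const_mul D
  obtain ⟨u, u1, u2⟩ := cb_montel 𝒰 (f := fun k => (φ * (s k - F k)) ∘ P.symm) (C := D * (D + 1))
    hVo (by
      filter_upwards [hb, hh, hF 1 one_pos] with k k1 k2 k3
      refine ⟨fun z hz => ?_, fun z hz => ?_⟩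
      · have := (hol _ (P.map_target (hV hz).1) _).1 (k2 _ (hV hz).2)
        rw [P.right_inv (hV hz).1] at this
        exact this.differentiableAt.differentiableWithinAt
      · have hq : P.symm z ∈ W := (hV hz).2
        show ‖φ (P.symm z) * (s k (P.symm z) - F k (P.symm z))‖ ≤ _
        rw [norm_mul]
        exact mul_le_mul (hφ _ hq) ((norm_sub_le _ _).trans (add_le_add (k1 _ hq) (k3 _ hq)))
          (norm_nonneg _) hD)
  have e : ∀ z ∈ V, u z = (φ * ulim 𝒰 s) (P.symm z) := fun z hz => by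
    have hq : P.symm z ∈ W := (hV hz).2
    have h1 := ((ulim_tendsto 𝒰 (hb.mono fun k hk => hk _ hq)).const_mul (φ (P.symm z))).sub
      (h0 (fun _ => P.symm z) (Eventually.of_forall fun _ => hq))
    rw [sub_zero] at h1
    refine tendsto_nhds_unique (u2 z hz (fun _ => z) tendsto_const_nhds) (h1.congr fun k => ?_)
    exact (mul_sub _ _ _).symm
  refine ⟨(hol p hp _).2 ((u1 _ hpV).congr (eventually_of_mem (hVo.mem_nhds hpV) e)),
    fun w hw => ?_⟩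
  have h1 := (u2 _ hpV _ ((P.continuousAt hp).tendsto.comp hw)).add (h0 w (hw hW))
  rw [add_zero, e _ hpV, P.left_inv hp] at h1
  refine h1.congr' ?_
  filter_upwards [hw (P.open_source.mem_nhds hp)] with k hk
  simp only [Function.comp_apply, P.left_inv hk, Pi.mul_apply, Pi.sub_apply]
  ring

theorem Lb.tendsto {C : Cov M} {𝒰 : Ultrafilter ι} {s : ι → M → ℂ} (hb : C.Lb 𝒰 s) (p : M) :
    Tendsto (fun k => s k p) 𝒰 (𝓝 (ulim 𝒰 s p)) :=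
  let ⟨_, hD⟩ := hb |C.t p|
  ulim_tendsto 𝒰 (hD.mono fun _ hk => hk p le_rfl)

theorem sa6_ch {s : ι → M → ℂ} {F : ι → C.I → M → ℂ} (hb : C.Lb 𝒰 s) (hF : C.Sml 𝒰 F) {i : C.I}
    {φ : M → ℂ} {B : ℝ} (hφ : ∀ q ∈ C.U i 1, ‖φ q‖ ≤ B)
    (hh : ∀ᶠ k in (𝒰 : Filter ι), ∀ p ∈ C.U i 1, HolAt (φ * (s k - F k i)) p) {p : M}
    (hp : p ∈ C.U i 1) : HolAt (φ * ulim 𝒰 s) p ∧ ∀ w : ι → M, Tendsto w 𝒰 (𝓝 p) →
      Tendsto (fun k => φ (w k) * s k (w k)) 𝒰 (𝓝 (φ p * ulim 𝒰 s p)) := by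
  obtain ⟨D, hD⟩ := hb (C.R + |(i.2 : ℝ)|)
  refine C.sa_montel 𝒰 (F := fun k => F k i) (D := max B D) ((C.cb_open i 1).mem_nhds hp)
    (fun q hq => (hφ q hq).trans (le_max_left _ _))
    (hD.mono fun k hk q hq => (hk q ?_).trans (le_max_right _ _)) hh (hF i)
  have h1 := abs_le.1 (C.cb_lev hq)
  have h2 := le_abs_self (i.2 : ℝ)
  have h3 := neg_abs_le (i.2 : ℝ)
  exact abs_le.2 ⟨by linarith, by linarith⟩

/-- Limits of almost holomorphic functions. -/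
theorem montelF {s : ι → M → ℂ} {F : ι → C.I → M → ℂ} (hb : C.Lb 𝒰 s) (hF : C.Sml 𝒰 F)
    (hh : ∀ i, ∀ᶠ k in (𝒰 : Filter ι), ∀ p ∈ C.U i 1, HolAt (s k - F k i) p) (p : M) :
    HolAt (ulim 𝒰 s) p ∧ ∀ w : ι → M, Tendsto w 𝒰 (𝓝 p) →
      Tendsto (fun k => s k (w k)) 𝒰 (𝓝 (ulim 𝒰 s p)) := by
  have := C.sa6_ch 𝒰 hb hF (φ := 1) (B := 1) (fun _ _ => by simp)
    ((hh (C.idx p)).mono fun k hk q hq => by rw [one_mul]; exact hk q hq) (C.cb_mem_idx p)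
  simpa only [one_mul, Pi.one_apply] using this

/-- Limits of almost holomorphic two-forms. -/
theorem montelK {s : ι → M → ℂ} {F : ι → C.I → M → ℂ} (hb : C.Lb 𝒰 s) (hF : C.Sml 𝒰 F)
    (hh : ∀ i, ∀ᶠ k in (𝒰 : Filter ι), ∀ p ∈ C.U i 1, HolAt (C.kf i * (s k - F k i)) p) :
    C.SecF C.kf (ulim 𝒰 s) ∧ ∀ p, ∀ w : ι → M, Tendsto w 𝒰 (𝓝 p) →
      Tendsto (fun k => ‖s k (w k)‖) 𝒰 (𝓝 ‖ulim 𝒰 s p‖) := by
  obtain ⟨B, -, hB⟩ := C.sa_kf_bd
  have key := fun i p (hp : p ∈ C.U i 1) => C.sa6_ch 𝒰 hb hF (φ := C.kf i) (B := B)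
    (fun q hq => (hB i q (C.cb_mono i (by norm_num) hq)).1) (hh i) hp
  refine ⟨fun i p hp => (key i p hp).1, fun p w hw => ?_⟩
  have hp := C.cb_mem_idx p
  have h0 : ‖C.kf (C.idx p) p‖ ≠ 0 := norm_ne_zero_iff.2 (C.kf_ne hp.1)
  have h1 := ((key _ p hp).2 w hw).norm.div ((C.sa_kf_cont hp.1).tendsto.comp hw) h0
  rw [norm_mul, mul_div_cancel_left₀ _ h0] at h1
  refine h1.congr' ?_
  filter_upwards [hw ((C.ch _).open_source.mem_nhds hp.1)] with k hk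
  simp only [Pi.div_apply, Function.comp_apply, norm_mul]
  exact mul_div_cancel_left₀ _ (norm_ne_zero_iff.2 (C.kf_ne hk))

theorem sa_slab {w : ι → M} {T : ℝ} (h : ∀ᶠ k in (𝒰 : Filter ι), |C.t (w k)| ≤ T) :
    ∃ p, Tendsto w 𝒰 (𝓝 p) :=
  C.cb_pt 𝒰 h

/-- A bound of the oscillation gives a bound of the function. -/
theorem sa_osc_bd (p₀ : M) (T : ℝ) : ∃ D : ℝ, ∀ (f : M → ℂ) (A : ℝ), f p₀ = 0 →
    (∀ p q, |C.t p| ≤ T + |C.t p₀| + 2 → |C.t p - C.t q| ≤ 2 → ‖f p - f q‖ ≤ A) →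
    ∀ p, |C.t p| ≤ T → ‖f p‖ ≤ D * A := by
  refine ⟨T + |C.t p₀| + 2, fun f A h0 h p hp => ?_⟩
  have hT : 0 ≤ T := (abs_nonneg _).trans hp
  have a1 := le_abs_self (C.t p₀)
  have a2 := neg_abs_le (C.t p₀)
  have hA : 0 ≤ A := (norm_nonneg _).trans (h p₀ p₀ (by linarith) (by simp))
  have step : ∀ j m : ℤ, |C.t p₀ + j| ≤ T + |C.t p₀| + 2 → |(j : ℝ) - m| ≤ 2 →
      ‖f ((C.g ^ j) p₀)‖ ≤ A + ‖f ((C.g ^ m) p₀)‖ := fun j m h1 h2 => by
    have := h ((C.g ^ j) p₀) ((C.g ^ m) p₀) (by rwa [C.cb_t])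
      (by rwa [C.cb_t, C.cb_t, add_sub_add_left_eq_sub])
    linarith [norm_sub_norm_le (f ((C.g ^ j) p₀)) (f ((C.g ^ m) p₀))]
  have key : ∀ j : ℤ, |C.t p₀ + j| ≤ T + |C.t p₀| + 2 → ‖f ((C.g ^ j) p₀)‖ ≤ |(j : ℝ)| * A := by
    intro j
    induction j using Int.induction_on with
    | zero => intro _; simp [h0]
    | succ k ih =>
      intro h1
      have k0 : (0 : ℝ) ≤ k := Nat.cast_nonneg k
      have h2 := step _ k h1 (by push_cast; norm_num)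
      have h3 := abs_le.1 h1
      push_cast at h3 ih ⊢
      have h4 := ih (abs_le.2 ⟨by linarith, by linarith⟩)
      rw [abs_of_nonneg k0] at h4
      rw [abs_of_nonneg (by linarith)]
      linarith
    | pred k ih =>
      intro h1
      have k0 : (0 : ℝ) ≤ k := Nat.cast_nonneg k
      have h2 := step _ (-k) h1 (by push_cast; exact abs_le.2 ⟨by linarith, by linarith⟩)
      have h3 := abs_le.1 h1
      push_cast at h3 ih ⊢
      have h4 := ih (abs_le.2 ⟨by linarith, by linarith⟩)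
      rw [abs_neg, abs_of_nonneg k0] at h4
      rw [abs_of_nonpos (by linarith)]
      linarith
  obtain ⟨n, hn⟩ : ∃ n : ℤ, n = ⌊C.t p - C.t p₀⌋ := ⟨_, rfl⟩
  have n1 : (n : ℝ) ≤ C.t p - C.t p₀ := hn ▸ Int.floor_le _
  have n2 : C.t p - C.t p₀ < n + 1 := hn ▸ Int.lt_floor_add_one _
  have p1 := abs_le.1 hp
  have b1 := key n (abs_le.2 ⟨by linarith, by linarith⟩)
  have b2 := h p ((C.g ^ n) p₀) (by linarith) (by
    rw [C.cb_t]
    exact abs_le.2 ⟨by linarith, by linarith⟩)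
  have b3 : |(n : ℝ)| ≤ T + |C.t p₀| + 1 := abs_le.2 ⟨by linarith, by linarith⟩
  have b4 := mul_le_mul_of_nonneg_right b3 hA
  linarith [norm_sub_norm_le (f p) (f ((C.g ^ n) p₀))]

theorem sa_osc_const [Nonempty M] {f : M → ℂ} (h : ∀ p q, |C.t p - C.t q| ≤ 2 → f p = f q) :
    ∃ c, ∀ p, f p = c := by
  obtain ⟨p₀⟩ := ‹Nonempty M›
  refine ⟨f p₀, fun p => ?_⟩
  obtain ⟨D, hD⟩ := C.sa_osc_bd p₀ |C.t p|
  have := hD (fun q => f q - f p₀) 0 (sub_self _) (fun a b _ hab => by simp [h a b hab]) p le_rfl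
  rw [mul_zero] at this
  exact sub_eq_zero.1 (norm_le_zero_iff.1 this)

end Cov

end Vale.Agent.P267
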