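import Vale.Agent.P267S.SA5
import Vale.Agent.P267S.SA6

/-! P267, solver part A: eigenfunctions of the deck transformation. -/

open scoped Manifold ContDiff Topology
open Filter Metric Set

noncomputable section

namespace Vale.Agent.P267

set_option linter.unusedSectionVars false

variable {M : Type} [TopologicalSpace M] [ChartedSpace C2 M] [T2Space M]

namespace Cov
variable (C : Cov M) [ConnectedSpace M] {f : M → ℂ} {μ : ℂ}

theorem sa8_inv {β : Type} {φ : M → β} (h : ∀ p, φ (C.g p) = φ p) (k : ℤ) (p : M) :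
    φ ((C.g ^ k) p) = φ p := by
  refine cb_ind (P := fun k => φ ((C.g ^ k) p) = φ p) rfl (fun k => ?_) k
  rw [C.cb_zpow_add, zpow_one, h]

theorem sa8_slab (p : M) : ∃ k : ℤ, C.t ((C.g ^ k) p) ∈ Icc (0 : ℝ) 1 := by
  refine ⟨-⌊C.t p⌋, ?_⟩
  rw [C.t_gz]
  push_cast
  exact ⟨by linarith [Int.floor_le (C.t p)], by linarith [Int.lt_floor_add_one (C.t p)]⟩

theorem sa8_cont (hf : ∀ p, HolAt f p) : Continuous f :=
  continuous_iff_continuousAt.2 fun p => (hf p).continuousAt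

theorem eig_gr (hf : ∀ p, HolAt f p) (h : ∀ p, f (C.g p) = μ * f p) (h0 : μ ≠ 0) :
    ∃ p₀, |C.t p₀| ≤ 1 ∧ ∀ p, ‖f p‖ * Real.exp (-Real.log ‖μ‖ * C.t p) ≤
      ‖f p₀‖ * Real.exp (-Real.log ‖μ‖ * C.t p₀) := by
  have hφ : ∀ p, ‖f (C.g p)‖ * Real.exp (-Real.log ‖μ‖ * C.t (C.g p)) =
      ‖f p‖ * Real.exp (-Real.log ‖μ‖ * C.t p) := fun p => by
    have h1 := norm_pos_iff.2 h0
    rw [h, C.shift, norm_mul, mul_add, Real.exp_add, mul_one, Real.exp_neg (Real.log ‖μ‖),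
      Real.exp_log h1]
    field_simp
  have hc : Continuous fun p => ‖f p‖ * Real.exp (-Real.log ‖μ‖ * C.t p) :=
    (sa8_cont hf).norm.mul (Real.continuous_exp.comp (continuous_const.mul C.continuous_t))
  obtain ⟨q⟩ : Nonempty M := inferInstance
  obtain ⟨k, hk⟩ := C.sa8_slab q
  obtain ⟨p₀, h1, h2⟩ := (C.isCompact_t 0 1).exists_isMaxOn ⟨_, hk⟩ hc.continuousOn
  refine ⟨p₀, abs_le.2 ⟨by linarith [h1.1], h1.2⟩, fun p => ?_⟩
  obtain ⟨m, hm⟩ := C.sa8_slab p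
  rw [← C.sa8_inv (φ := fun p => ‖f p‖ * Real.exp (-Real.log ‖μ‖ * C.t p)) hφ m p]
  exact h2 hm

theorem eig_lt (hf : ∀ p, HolAt f p) (h : ∀ p, f (C.g p) = μ * f p) (hμ : ‖μ‖ < 1) :
    f = 0 := by
  by_cases h0 : μ = 0
  · funext p
    have := h (C.g.symm p)
    rwa [Homeomorph.apply_symm_apply, h0, zero_mul] at this
  · obtain ⟨θ, hθ, hs⟩ := C.sa_sub_one
    obtain ⟨p₀, -, hp⟩ := C.eig_gr hf h h0
    have hl : 0 < -Real.log ‖μ‖ := neg_pos.2 (Real.log_neg (norm_pos_iff.2 h0) hμ)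
    exact Sub.lin (hs f hf) hl.le (mul_pos hl hθ) hp

include C in
theorem sa_max (hf : ∀ p, HolAt f p) {p₀ : M} (h : ∀ p, ‖f p‖ ≤ ‖f p₀‖) (p : M) :
    f p = f p₀ := by
  have h1 : IsClosed {q | f q = f p₀} := isClosed_eq (sa8_cont hf) continuous_const
  have h2 : IsOpen {q | f q = f p₀} := isOpen_iff_mem_nhds.2 fun q hq => by
    have e : (f ∘ (chartAt C2 q).symm) (chartAt C2 q q) = f p₀ := by
      rw [Function.comp_apply, (chartAt C2 q).left_inv (mem_chart_source C2 q)]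
      exact hq
    have h3 := Complex.eventually_eq_of_isLocalMax_norm (f := f ∘ (chartAt C2 q).symm)
      (c := chartAt C2 q q)
      ((AnalyticAt.eventually_analyticAt (hf q)).mono fun z hz => hz.differentiableAt)
      (Eventually.of_forall fun z => by
        show ‖f _‖ ≤ ‖(f ∘ (chartAt C2 q).symm) (chartAt C2 q q)‖
        rw [e]; exact h _)
    rw [e] at h3
    exact (ae_ev (P := fun y => f y = f p₀)).2 h3
  have h3 := IsClopen.eq_univ ⟨h1, h2⟩ ⟨p₀, rfl⟩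
  exact (h3 ▸ mem_univ p : p ∈ {q | f q = f p₀})

theorem eig_one (hf : ∀ p, HolAt f p) (h : ∀ p, f (C.g p) = μ * f p) (hμ : ‖μ‖ ≤ 1) :
    ∃ c, ∀ p, f p = c := by
  rcases hμ.lt_or_eq with h1 | h1
  · exact ⟨0, congrFun (C.eig_lt hf h h1)⟩
  · obtain ⟨p₀, -, hp⟩ := C.eig_gr hf h (norm_pos_iff.1 (by rw [h1]; exact one_pos))
    refine ⟨f p₀, C.sa_max hf fun p => ?_⟩
    simpa [h1] using hp p

theorem sa8_zero (hf : ∀ p, HolAt f p) (h : ∀ p, f (C.g p) = μ * f p) (hμ : 1 < ‖μ‖) :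
    ∃ p, |C.t p| ≤ 1 ∧ f p = 0 := by
  by_contra hc
  push Not at hc
  have h0 : μ ≠ 0 := norm_pos_iff.1 (by linarith)
  have h1 : ∀ p, f p ≠ 0 := fun p hp => by
    obtain ⟨k, hk⟩ := C.sa8_slab p
    have h2 := C.sa8_inv (φ := fun q => f q = 0) (fun q => by simp [h, h0]) k p
    exact hc _ (abs_le.2 ⟨by linarith [hk.1], hk.2⟩) (h2.mpr hp)
  have h2 := C.eig_lt (f := f⁻¹) (μ := μ⁻¹) (fun p => (hf p).inv (h1 p))
    (fun p => by simp only [Pi.inv_apply, h, mul_inv])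
    (by rw [norm_inv]; exact inv_lt_one_of_one_lt₀ hμ)
  obtain ⟨p⟩ : Nonempty M := inferInstance
  exact inv_ne_zero (h1 p) (congrFun h2 p)

theorem sa8_norm (hf : ∀ p, HolAt f p) (h : ∀ p, f (C.g p) = μ * f p) (hμ : ‖μ‖ ≤ Real.exp 1)
    (hc : ¬ ∃ c, ∀ p, f p = c) : 1 < ‖μ‖ ∧ ∃ (s : M → ℂ) (y : M), (∀ p, HolAt s p) ∧
      (∀ p, s (C.g p) = μ * s p) ∧ |C.t y| ≤ 1 ∧ s y = 1 ∧
      ∀ p, ‖s p‖ ≤ Real.exp (|C.t p| + 1) := by
  have h1 : 1 < ‖μ‖ := not_le.1 fun h' => hc (C.eig_one hf h h')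
  refine ⟨h1, ?_⟩
  obtain ⟨y, hy, hm⟩ := C.eig_gr hf h (norm_pos_iff.1 (by linarith))
  have h2 : f y ≠ 0 := fun h0 => hc ⟨0, fun p => by
    have := hm p
    rw [h0, norm_zero, zero_mul] at this
    exact norm_le_zero_iff.1 (nonpos_of_mul_nonpos_left this (Real.exp_pos _))⟩
  refine ⟨(f y)⁻¹ • f, y, fun p => (hf p).smul _, fun p => ?_, hy, ?_, fun p => ?_⟩
  · simp only [Pi.smul_apply, smul_eq_mul, h]; ring
  · simp only [Pi.smul_apply, smul_eq_mul, inv_mul_cancel₀ h2]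
  · have l0 : 0 ≤ Real.log ‖μ‖ := Real.log_nonneg h1.le
    have l1 : Real.log ‖μ‖ ≤ 1 := (Real.log_le_iff_le_exp (by linarith)).2 hμ
    have a1 := mul_le_mul_of_nonneg_right (hm p) (Real.exp_pos (Real.log ‖μ‖ * C.t p)).le
    rw [mul_assoc, mul_assoc, ← Real.exp_add, ← Real.exp_add, neg_mul, neg_add_cancel,
      Real.exp_zero, mul_one] at a1
    rw [Pi.smul_apply, smul_eq_mul, norm_mul, norm_inv, inv_mul_le_iff₀ (norm_pos_iff.2 h2)]
    refine a1.trans (mul_le_mul_of_nonneg_left (Real.exp_le_exp.2 ?_) (norm_nonneg _))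
    have a2 : Real.log ‖μ‖ * (C.t p - C.t y) ≤ Real.log ‖μ‖ * (|C.t p| + 1) :=
      mul_le_mul_of_nonneg_left (by linarith [le_abs_self (C.t p), (abs_le.1 hy).1]) l0
    have a3 : Real.log ‖μ‖ * (|C.t p| + 1) ≤ |C.t p| + 1 :=
      mul_le_of_le_one_left (by positivity) l1
    linarith

theorem eig_gap : ∃ η : ℝ, 0 < η ∧ ∀ (f : M → ℂ) (μ : ℂ), (∀ p, HolAt f p) →
    (∀ p, f (C.g p) = μ * f p) → ‖μ‖ ≤ Real.exp η → ∃ c, ∀ p, f p = c := by
  by_contra hc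
  have h1 : ∀ n : ℕ, ∃ μ : ℂ, ‖μ‖ ≤ Real.exp (1 / ((n : ℝ) + 1)) ∧ 1 < ‖μ‖ ∧
      ∃ (s : M → ℂ) (y : M), (∀ p, HolAt s p) ∧ (∀ p, s (C.g p) = μ * s p) ∧ |C.t y| ≤ 1 ∧
        s y = 1 ∧ ∀ p, ‖s p‖ ≤ Real.exp (|C.t p| + 1) := fun n => by
    by_contra h2
    refine hc ⟨1 / ((n : ℝ) + 1), Nat.one_div_pos_of_nat, fun f μ hf h hμ => ?_⟩
    by_contra h3
    refine h2 ⟨μ, hμ, C.sa8_norm hf h (hμ.trans (Real.exp_le_exp.2 ?_)) h3⟩
    rw [div_le_one (by positivity)]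
    linarith [n.cast_nonneg (α := ℝ)]
  choose μ hμ hμ1 s y hs hg hy hy1 hb using h1
  choose w hw hw0 using fun n => C.sa8_zero (hs n) (hg n) (hμ1 n)
  have hL : C.Lb (hyperfilter ℕ) s := fun T => ⟨Real.exp (T + 1),
    Eventually.of_forall fun n p hp => (hb n p).trans (Real.exp_le_exp.2 (by linarith))⟩
  have hM := C.montelF (hyperfilter ℕ) (F := 0) hL
    (fun i ε hε => Eventually.of_forall fun n p _ => by simpa using hε.le)
    (fun i => Eventually.of_forall fun n p _ => by simpa using hs n p)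
  have he : Tendsto (fun n : ℕ => Real.exp (1 / ((n : ℝ) + 1))) (hyperfilter ℕ) (𝓝 1) := by
    have := (Real.continuous_exp.tendsto 0).comp tendsto_one_div_add_atTop_nhds_zero_nat
    rw [Real.exp_zero] at this
    exact this.mono_left Nat.hyperfilter_le_atTop
  obtain ⟨ν, hν⟩ := cb_lim (hyperfilter ℕ) (a := μ) (C := 2)
    ((he.eventually (gt_mem_nhds one_lt_two)).mono fun n hn => (hμ n).trans hn.le)
  obtain ⟨c, hG⟩ := C.eig_one (μ := ν) (fun p => (hM p).1) (fun p => tendsto_nhds_unique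
    (hL.tendsto (C.g p)) ((hν.mul (hL.tendsto p)).congr fun n => (hg n p).symm))
    (le_of_tendsto_of_tendsto' hν.norm he hμ)
  obtain ⟨y₀, hy₀⟩ := C.sa_slab (hyperfilter ℕ) (Eventually.of_forall hy)
  obtain ⟨w₀, hw₀⟩ := C.sa_slab (hyperfilter ℕ) (Eventually.of_forall hw)
  have a1 := (hM y₀).2 y hy₀
  have a2 := (hM w₀).2 w hw₀
  simp only [hy1, hw0, hG] at a1 a2
  exact one_ne_zero ((tendsto_nhds_unique tendsto_const_nhds a1).trans
    (tendsto_nhds_unique tendsto_const_nhds a2).symm)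

theorem aff_gap : ∃ η : ℝ, 0 < η ∧ ∀ (f : M → ℂ) (μ a : ℂ), (∀ p, HolAt f p) →
    (∀ p, f (C.g p) = μ * f p + a) → ‖μ‖ ≤ Real.exp η → ∃ c, ∀ p, f p = c := by
  obtain ⟨η, hη, H⟩ := C.eig_gap
  refine ⟨η, hη, fun f μ a hf h hμ => ?_⟩
  by_cases h1 : μ = 1
  · by_cases h2 : a = 0
    · exact H f μ hf (fun p => by rw [h, h2, add_zero]) hμ
    · have h3 := C.eig_lt (f := fun q => Complex.exp (((-a⁻¹) • f) q)) (μ := Complex.exp (-1))
        (fun p => ((hf p).smul _).exp)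
        (fun p => by
          rw [← Complex.exp_add, Pi.smul_apply, Pi.smul_apply, h, h1, smul_eq_mul, smul_eq_mul]
          congr 1
          field_simp
          ring)
        (by rw [Complex.norm_exp]; simp)
      obtain ⟨p⟩ : Nonempty M := inferInstance
      exact absurd (congrFun h3 p) (Complex.exp_ne_zero _)
  · have h2 := sub_ne_zero.2 h1
    obtain ⟨c, hc⟩ := H (f + fun _ => a / (μ - 1)) μ (fun p => (hf p).add (holAt_const _))
      (fun p => by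
        simp only [Pi.add_apply, h]
        field_simp
        ring) hμ
    exact ⟨c - a / (μ - 1), fun p => eq_sub_of_add_eq (hc p)⟩

end Cov

end Vale.Agent.P267
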