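import Vale.Agent.P267S.SA1
import Vale.Agent.P267S.SA8

/-! P267, solver part A: the theorem of Liouville. -/

open scoped Manifold ContDiff Topology
open Filter Metric Set

noncomputable section

namespace Vale.Agent.P267

set_option linter.unusedSectionVars false

variable {M : Type} [TopologicalSpace M] [ChartedSpace C2 M] [T2Space M]

namespace Cov
variable (C : Cov M) [ConnectedSpace M]

theorem sa9_lim (f : ℕ → M → ℂ) (hf : ∀ n p, HolAt (f n) p) {A η : ℝ} (hA : 0 ≤ A) (hη : 0 ≤ η)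
    (hb : ∀ n p q, |C.t p - C.t q| ≤ 2 → ‖f n p - f n q‖ ≤ A * Real.exp (η * |C.t p|)) :
    ∃ G : M → ℂ, (∀ p, HolAt G p) ∧ ∀ (p q : M) (w w' : ℕ → M),
      Tendsto w (hyperfilter ℕ) (𝓝 p) → Tendsto w' (hyperfilter ℕ) (𝓝 q) →
      Tendsto (fun k => f k (w k) - f k (w' k)) (hyperfilter ℕ) (𝓝 (G p - G q)) := by
  obtain ⟨p₀⟩ : Nonempty M := inferInstance
  have hL : C.Lb (hyperfilter ℕ) fun k p => f k p - f k p₀ := fun T => by
    obtain ⟨D, hD⟩ := C.sa_osc_bd p₀ T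
    refine ⟨D * (A * Real.exp (η * (T + |C.t p₀| + 2))), Eventually.of_forall fun k => ?_⟩
    refine hD _ _ (sub_self _) fun p q h1 h2 => ?_
    rw [sub_sub_sub_cancel_right]
    exact (hb k p q h2).trans (by gcongr)
  have hM := C.montelF (hyperfilter ℕ) (F := fun _ _ _ => 0) hL
    (fun _ _ hε => Eventually.of_forall fun _ _ _ => by simpa using hε.le)
    fun _ => Eventually.of_forall fun k p _ =>
      ((hf k p).sub (holAt_const (f k p₀))).sub (holAt_const 0)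
  refine ⟨_, fun p => (hM p).1, fun p q w w' hw hw' => ?_⟩
  have h1 := ((hM p).2 w hw).sub ((hM q).2 w' hw')
  simpa only [sub_sub_sub_cancel_right] using h1

/-- Pairs of points at bounded distance in the direction of the cover. -/
abbrev sa9X : Type := {x : M × M // |C.t x.1 - C.t x.2| ≤ 2}

/-- The shift on pairs. -/
def sa9g (x : C.sa9X) : C.sa9X :=
  ⟨(C.g x.1.1, C.g x.1.2), by simpa only [C.shift, add_sub_add_right_eq_sub] using x.2⟩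

/-- Differences of holomorphic functions. -/
def sa9P : Submodule ℂ (C.sa9X → ℂ) where
  carrier := {d | ∃ f : M → ℂ, (∀ p, HolAt f p) ∧ ∀ x, d x = f x.1.1 - f x.1.2}
  add_mem' := by
    rintro d d' ⟨f, hf, h⟩ ⟨f', hf', h'⟩
    refine ⟨f + f', fun p => (hf p).add (hf' p), fun x => ?_⟩
    simp only [Pi.add_apply, h, h']
    ring
  zero_mem' := ⟨0, fun _ => holAt_zero, fun _ => by simp⟩
  smul_mem' := by
    rintro c d ⟨f, hf, h⟩
    refine ⟨c • f, fun p => (hf p).smul c, fun x => ?_⟩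
    simp only [Pi.smul_apply, h, smul_sub]

theorem sa9_eig {f : M → ℂ} (hf : ∀ p, HolAt f p) {η : ℝ} (hη : 0 ≤ η) (ho : C.Og f η)
    (hn : ¬ ∃ c, ∀ p, f p = c) : ∃ μ : ℂ, ‖μ‖ ≤ Real.exp η ∧ ∀ ε : ℝ, 0 < ε → ∃ h : M → ℂ,
      (∀ p, HolAt h p) ∧
      (∀ p q, |C.t p - C.t q| ≤ 2 → ‖h p - h q‖ ≤ Real.exp (η * |C.t p|)) ∧
      (∃ p q, |C.t p - C.t q| ≤ 2 ∧ Real.exp (η * |C.t p|) / 2 ≤ ‖h p - h q‖) ∧
      ∀ p q, |C.t p - C.t q| ≤ 2 →
        ‖h (C.g p) - h (C.g q) - μ * (h p - h q)‖ ≤ ε * Real.exp (η * |C.t p|) := by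
  obtain ⟨B, hB⟩ := ho
  obtain ⟨μ, h1, h2⟩ := sa_eig C.sa9g (fun x => Real.exp (η * |C.t x.1.1|))
    (fun _ => Real.exp_pos _) (K := Real.exp η) (fun x => by
      show Real.exp (η * |C.t (C.g x.1.1)|) ≤ _
      rw [← Real.exp_add, C.shift, ← mul_one_add]
      gcongr
      linarith [abs_add_le (C.t x.1.1) 1, abs_one (α := ℝ)]) C.sa9P
    (by
      rintro d ⟨h, hh, e⟩
      exact ⟨h ∘ C.g, fun p => (C.hol_g h p).2 (hh _), fun x => e _⟩)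
    (by
      intro s s₀ B hs hb hl
      choose h hh e using hs
      obtain ⟨G, hG, hG'⟩ := C.sa9_lim h hh (abs_nonneg B) hη fun n p q hpq => by
        have h3 := hb n ⟨(p, q), hpq⟩
        rw [e] at h3
        exact h3.trans (mul_le_mul_of_nonneg_right (le_abs_self B) (Real.exp_pos _).le)
      refine ⟨G, hG, fun x => tendsto_nhds_unique ((hl x).mono_left Nat.hyperfilter_le_atTop) ?_⟩
      simp only [e]
      exact hG' _ _ _ _ tendsto_const_nhds tendsto_const_nhds)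
    (s := fun x => f x.1.1 - f x.1.2) ⟨f, hf, fun _ => rfl⟩
    (fun h0 => hn (C.sa_osc_const fun p q hpq => sub_eq_zero.1 (congrFun h0 ⟨(p, q), hpq⟩)))
    (B := B) fun x => hB _ _ x.2
  refine ⟨μ, h1, fun ε hε => ?_⟩
  obtain ⟨r, ⟨h, hh, e⟩, h3, ⟨x, h4⟩, h5⟩ := h2 ε hε
  simp only [e] at h3 h4 h5
  exact ⟨h, hh, fun p q hpq => h3 ⟨(p, q), hpq⟩, ⟨_, _, x.2, h4⟩, fun p q hpq => h5 ⟨(p, q), hpq⟩⟩

theorem sa9_step {h : M → ℂ} {η ε : ℝ} {μ : ℂ} (hη : 0 ≤ η) (hε : 0 ≤ ε) (hh : ∀ p, HolAt h p)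
    (h1 : ∀ p q, |C.t p - C.t q| ≤ 2 → ‖h p - h q‖ ≤ Real.exp (η * |C.t p|))
    (h2 : ∃ p q, |C.t p - C.t q| ≤ 2 ∧ Real.exp (η * |C.t p|) / 2 ≤ ‖h p - h q‖)
    (h3 : ∀ p q, |C.t p - C.t q| ≤ 2 →
      ‖h (C.g p) - h (C.g q) - μ * (h p - h q)‖ ≤ ε * Real.exp (η * |C.t p|)) :
    ∃ (H : M → ℂ) (y y' : M), (∀ p, HolAt H p) ∧
      (∀ p q, |C.t p - C.t q| ≤ 2 → ‖H p - H q‖ ≤ Real.exp η * Real.exp (η * |C.t p|)) ∧
      |C.t y| ≤ 3 ∧ |C.t y'| ≤ 3 ∧ 1 / 2 ≤ ‖H y - H y'‖ ∧ ∀ p q, |C.t p - C.t q| ≤ 2 →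
        ‖H (C.g p) - H (C.g q) - μ * (H p - H q)‖ ≤ ε * (Real.exp η * Real.exp (η * |C.t p|)) := by
  obtain ⟨x, x', hx, h2⟩ := h2
  obtain ⟨m, hm⟩ : ∃ m : ℤ, m = ⌊C.t x⌋ := ⟨_, rfl⟩
  have m1 : (m : ℝ) ≤ C.t x := hm ▸ Int.floor_le _
  have m2 : C.t x < m + 1 := hm ▸ Int.lt_floor_add_one _
  obtain ⟨a, ha⟩ : ∃ a : ℝ, a = Real.exp (-(η * |C.t x|)) := ⟨_, rfl⟩
  have a0 : 0 < a := ha ▸ Real.exp_pos _
  have an : ‖(a : ℂ)‖ = a := by rw [Complex.norm_real, Real.norm_of_nonneg a0.le]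
  have k1 : ∀ p q, |C.t p - C.t q| ≤ 2 → |C.t ((C.g ^ m) p) - C.t ((C.g ^ m) q)| ≤ 2 :=
    fun p q hpq => by rwa [C.t_gz, C.t_gz, add_sub_add_right_eq_sub]
  have k2 : ∀ p, a * Real.exp (η * |C.t ((C.g ^ m) p)|) ≤ Real.exp η * Real.exp (η * |C.t p|) := by
    intro p
    have h4 : |C.t p + m| ≤ 1 + |C.t p| + |C.t x| :=
      abs_le.2 ⟨by linarith [neg_abs_le (C.t p), neg_abs_le (C.t x)],
        by linarith [le_abs_self (C.t p), le_abs_self (C.t x)]⟩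
    rw [ha, ← Real.exp_add, ← Real.exp_add, C.t_gz, Real.exp_le_exp]
    linarith [mul_le_mul_of_nonneg_left h4 hη]
  have k3 : ∀ p, (C.g ^ m) (C.g p) = C.g ((C.g ^ m) p) := fun p => by
    rw [← C.AB_succ, C.gz_add, zpow_one]
  have k4 : ∀ p, (C.g ^ m) ((C.g ^ (-m)) p) = p := fun p => by
    rw [← C.gz_add, add_neg_cancel, zpow_zero]
    rfl
  have hx' := abs_le.1 hx
  refine ⟨fun p => a * h ((C.g ^ m) p), (C.g ^ (-m)) x, (C.g ^ (-m)) x',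
    fun p => (holAt_const (a : ℂ)).mul ((C.hol_gz m).2 (hh _)), fun p q hpq => ?_, ?_, ?_, ?_,
    fun p q hpq => ?_⟩
  · rw [← mul_sub, norm_mul, an]
    exact (mul_le_mul_of_nonneg_left (h1 _ _ (k1 p q hpq)) a0.le).trans (k2 p)
  · rw [C.t_gz, Int.cast_neg]
    exact abs_le.2 ⟨by linarith, by linarith⟩
  · rw [C.t_gz, Int.cast_neg]
    exact abs_le.2 ⟨by linarith [hx'.2], by linarith [hx'.1]⟩
  · simp only [k4]
    rw [← mul_sub, norm_mul, an]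
    refine le_trans (le_of_eq ?_) (mul_le_mul_of_nonneg_left h2 a0.le)
    rw [ha, ← mul_div_assoc, ← Real.exp_add, neg_add_cancel, Real.exp_zero]
  · simp only [k3]
    have e : a * h (C.g ((C.g ^ m) p)) - a * h (C.g ((C.g ^ m) q)) -
        μ * (a * h ((C.g ^ m) p) - a * h ((C.g ^ m) q)) =
        a * (h (C.g ((C.g ^ m) p)) - h (C.g ((C.g ^ m) q)) -
          μ * (h ((C.g ^ m) p) - h ((C.g ^ m) q))) := by ring
    rw [e, norm_mul, an]
    refine (mul_le_mul_of_nonneg_left (h3 _ _ (k1 p q hpq)) a0.le).trans ?_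
    rw [mul_left_comm]
    exact mul_le_mul_of_nonneg_left (k2 p) hε

theorem liou_og : ∃ η : ℝ, 0 < η ∧ ∀ f : M → ℂ, (∀ p, HolAt f p) → C.Og f η →
    ∃ c, ∀ p, f p = c := by
  obtain ⟨η, hη, hg⟩ := C.aff_gap
  refine ⟨η, hη, fun f hf ho => ?_⟩
  by_contra hn
  obtain ⟨μ, h1, h2⟩ := C.sa9_eig hf hη.le ho hn
  have h3 := fun n : ℕ => (h2 _ (Nat.one_div_pos_of_nat (n := n))).elim fun h hh =>
    C.sa9_step hη.le (Nat.one_div_pos_of_nat (n := n)).le hh.1 hh.2.1 hh.2.2.1 hh.2.2.2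
  choose H y y' k1 k2 k3 k4 k5 k6 using h3
  obtain ⟨G, hG, hG'⟩ := C.sa9_lim H k1 (Real.exp_pos η).le hη.le k2
  obtain ⟨z, hz⟩ := C.sa_slab (hyperfilter ℕ) (Eventually.of_forall k3)
  obtain ⟨z', hz'⟩ := C.sa_slab (hyperfilter ℕ) (Eventually.of_forall k4)
  have l1 : 1 / 2 ≤ ‖G z - G z'‖ := ge_of_tendsto' (hG' z z' y y' hz hz').norm k5
  obtain ⟨a, ha⟩ := C.sa_osc_const (f := fun p => G (C.g p) - μ * G p) fun p q hpq => by
    have l2 := ((hG' (C.g p) (C.g q) _ _ tendsto_const_nhds tendsto_const_nhds).sub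
      ((hG' p q _ _ tendsto_const_nhds tendsto_const_nhds).const_mul μ)).norm
    have l3 := (tendsto_one_div_add_atTop_nhds_zero_nat (𝕜 := ℝ)).mul_const
      (Real.exp η * Real.exp (η * |C.t p|))
    have l4 := le_of_tendsto_of_tendsto' l2 (l3.mono_left Nat.hyperfilter_le_atTop)
      fun n => k6 n p q hpq
    rw [zero_mul, norm_le_zero_iff] at l4
    linear_combination l4
  obtain ⟨c, hc⟩ := hg G μ a hG (fun p => by linear_combination ha p) h1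
  rw [hc, hc, sub_self, norm_zero] at l1
  norm_num at l1

theorem Gr.og {C : Cov M} {c : ℝ} {f : M → ℂ} (hc : 0 ≤ c) (h : C.Gr f c) : C.Og f c := by
  obtain ⟨B, hB⟩ := h
  refine ⟨|B| + |B| * Real.exp (c * 2), fun p q hpq => (norm_sub_le _ _).trans ?_⟩
  have h1 : |C.t q| ≤ 2 + |C.t p| := by
    have h2 := abs_le.1 hpq
    exact abs_le.2 ⟨by linarith [neg_abs_le (C.t p)], by linarith [le_abs_self (C.t p)]⟩
  rw [add_mul, mul_assoc, ← Real.exp_add, ← mul_add c]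
  refine add_le_add ((hB p).trans ?_) ((hB q).trans ?_)
  · exact mul_le_mul_of_nonneg_right (le_abs_self B) (Real.exp_pos _).le
  · refine (mul_le_mul_of_nonneg_right (le_abs_self B) (Real.exp_pos _).le).trans ?_
    gcongr

theorem sa_gr {f : M → ℂ} (h : Bdd f) {c : ℝ} (hc : 0 ≤ c) : C.Gr f c := by
  obtain ⟨B, hB⟩ := h
  exact ⟨B, fun p => (hB p).trans (le_mul_of_one_le_right ((norm_nonneg _).trans (hB p))
    (Real.one_le_exp (by positivity)))⟩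

theorem liou_gr : ∃ η : ℝ, 0 < η ∧ ∀ f : M → ℂ, (∀ p, HolAt f p) → C.Gr f η →
    ∃ c, ∀ p, f p = c := by
  obtain ⟨η, hη, h⟩ := C.liou_og
  exact ⟨η, hη, fun f hf hg => h f hf (hg.og hη.le)⟩

theorem liou {f : M → ℂ} (hf : ∀ p, HolAt f p) {o : ℝ}
    (h : ∀ p q, |C.t p - C.t q| ≤ 2 → ‖f p - f q‖ ≤ o) : ∃ c, ∀ p, f p = c := by
  obtain ⟨η, hη, h1⟩ := C.liou_og
  exact h1 f hf ⟨o, fun p q hpq => (h p q hpq).trans (le_mul_of_one_le_right
    ((norm_nonneg _).trans (h p q hpq)) (Real.one_le_exp (by positivity)))⟩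

include C in
theorem hol_const {f : M → ℂ} (hf : ∀ p, HolAt f p) (h : Bdd f) : ∃ c, ∀ p, f p = c := by
  obtain ⟨η, hη, h1⟩ := C.liou_gr
  exact h1 f hf (C.sa_gr h hη.le)

end Cov

end Vale.Agent.P267
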