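import Vale.Agent.P267S.Dol

/-! P267, solver part: primitives of weakly closed forms. -/

open scoped Manifold ContDiff Topology ENNReal Real
open Filter Metric Set MeasureTheory

noncomputable section

namespace Vale.Agent.P267

set_option linter.unusedSectionVars false

theorem lp_le {E : Type} [NormedAddCommGroup E] {W : Set C2} {f : C2 → E} {a : ℝ≥0∞} :
    n2 W f ≤ a ^ 2 ↔ eLpNorm f 2 (volume.restrict W) ≤ a := by
  rw [n2_eLp, ENNReal.pow_le_pow_left_iff two_ne_zero]

theorem lp_test {τ : C2 → ℂ} (hτ : ContDiff ℝ ∞ τ) (hc : HasCompactSupport τ) (v : C2)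
    (μ : Measure C2) [IsFiniteMeasureOnCompacts μ] : MemLp (fun z => dbar τ z v) 2 μ := by
  refine Continuous.memLp_of_hasCompactSupport (continuous_iff_continuousAt.2 fun z =>
    (dbar_sm_apply hτ.contDiffAt v).continuousAt) (HasCompactSupport.intro hc fun z hz => ?_)
  rw [dbar_congr' (notMem_tsupport_iff_eventuallyEq.1 hz), dbar_hol' (F := 0) (differentiableAt_const 0)]
  rfl

/-- Approximation by smooth closed forms. -/
theorem lp_moll {r r' : ℝ} (h : r' < r) {ϖ : C2 → C2 →L[ℝ] ℂ}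
    (ha : ∀ z ∈ ball (0 : C2) r, Anti (ϖ z))
    (hm : ∀ a, MemLp (fun z => ϖ z (ee a)) 2 (volume.restrict (ball 0 r)))
    (hw : ∀ τ : C2 → ℂ, ContDiff ℝ ∞ τ → HasCompactSupport τ → tsupport τ ⊆ ball 0 r →
      ∫ z in ball (0 : C2) r, w2 (ϖ z) (dbar τ z) = 0) {ε : ℝ≥0∞} (hε : 0 < ε) :
    ∃ w : C2 → C2 →L[ℝ] ℂ, (∀ z, Anti (w z)) ∧ (∀ j, ContDiff ℝ ∞ fun z => w z (ee j)) ∧
      (∀ z ∈ ball (0 : C2) r',
        dbar (fun y => w y (ee 1)) z (ee 0) = dbar (fun y => w y (ee 0)) z (ee 1)) ∧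
      eLpNorm (w - ϖ) 2 (volume.restrict (ball 0 r')) ≤ ε := by
  let u : Fin 2 → C2 → ℂ := fun j => (ball 0 r).indicator fun z => ϖ z (ee j)
  have hu : ∀ j, MemLp (u j) 2 volume := fun j =>
    (memLp_indicator_iff_restrict measurableSet_ball).2 (hm j)
  have hε2 : 0 < ε / 2 := ENNReal.half_pos hε.ne'
  obtain ⟨δ0, p0, h0⟩ := P271A.cv_tendsto (hu 0) hε2
  obtain ⟨δ1, p1, h1⟩ := P271A.cv_tendsto (hu 1) hε2
  have hρ : 0 < min (min δ0 δ1) (r - r') := lt_min (lt_min p0 p1) (sub_pos.2 h)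
  let β : ContDiffBump (0 : C2) := ⟨_, _, half_pos hρ, half_lt_self hρ⟩
  have hk := P271A.ker_smooth β
  have hc := P271A.ker_compact β
  choose w hw1 hw2 using fun z => exists_anti fun j => P271A.cv (u j) (P271A.ker β) z
  have hs : ∀ j, ContDiff ℝ ∞ (P271A.cv (u j) (P271A.ker β)) := fun j =>
    P271A.cv_smooth (hu j) hk hc
  refine ⟨w, hw1, fun j => by simpa only [hw2] using hs j, fun z hz => ?_, ?_⟩
  · obtain ⟨t1, t2, t3⟩ := P271A.refl_test hk hc z
    have h2 := hw _ t1 t2 fun t ht => by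
      have h3 : ‖z - t‖ ≤ r - r' :=
        (mem_closedBall_zero_iff.1 (P271A.ker_tsupport β (t3 t ht))).trans (min_le_right _ _)
      have h4 := norm_sub_norm_le t z
      rw [norm_sub_rev] at h4
      rw [mem_ball_zero_iff] at hz ⊢
      linarith
    have e : ∀ i j, dbar (fun y => w y (ee i)) z (ee j) = -∫ t in ball (0 : C2) r,
        ϖ t (ee i) * dbar (fun s => P271A.ker β (z - s)) t (ee j) := fun i j => by
      simp only [hw2, dbar_eX]
      rw [P271A.eX_cv (hu i) hk hc, ← integral_indicator measurableSet_ball]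
      simp only [u, indicator_mul_left]
    rw [e, e, neg_inj, eq_comm, ← sub_eq_zero]
    exact (integral_sub ((hm 0).integrable_mul (lp_test t1 t2 _ _))
      ((hm 1).integrable_mul (lp_test t1 t2 _ _))).symm.trans h2
  · have m : ∀ j, AEStronglyMeasurable (fun z => ‖P271A.cv (u j) (P271A.ker β) z - u j z‖) volume :=
      fun j => ((hs j).continuous.aestronglyMeasurable.sub (hu j).1).norm
    refine (eLpNorm_mono_ae_real (g := (fun z => ‖P271A.cv (u 0) (P271A.ker β) z - u 0 z‖) +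
      fun z => ‖P271A.cv (u 1) (P271A.ker β) z - u 1 z‖) ?_).trans
      ((eLpNorm_mono_measure _ Measure.restrict_le_self).trans
        ((eLpNorm_add_le (m 0) (m 1) one_le_two).trans ?_))
    · filter_upwards [ae_restrict_mem measurableSet_ball] with z hz
      have hz' := ball_subset_ball h.le hz
      refine ((hw1 z).sub (ha z hz')).norm_le.trans_eq ?_
      simp only [u, indicator_of_mem hz', Pi.add_apply, sub_apply, hw2]
    · rw [eLpNorm_norm, eLpNorm_norm, ← ENNReal.add_halves ε]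
      exact add_le_add (h0 β ((min_le_left _ _).trans (min_le_left _ _)))
        (h1 β ((min_le_left _ _).trans (min_le_right _ _)))

/-- Geometric sums. -/
theorem lp_geo {W : Set C2} {g : ℕ → C2 → ℂ} (hg : ∀ n, Continuous (g n)) {c : ℝ} (hc : 0 ≤ c)
    (h : ∀ n, eLpNorm (g n) 2 (volume.restrict W) ≤ ENNReal.ofReal (c * (1 / 2) ^ n)) (m n : ℕ) :
    eLpNorm (∑ i ∈ Finset.Ico m n, g i) 2 (volume.restrict W) ≤
      ENNReal.ofReal (2 * c * (1 / 2) ^ m) := by
  refine (eLpNorm_sum_le (fun i _ => (hg i).aestronglyMeasurable) one_le_two).trans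
    ((Finset.sum_le_sum fun i _ => h i).trans ?_)
  rw [← ENNReal.ofReal_sum_of_nonneg fun i _ => by positivity, ← Finset.mul_sum]
  refine ENNReal.ofReal_le_ofReal ?_
  have := mul_le_mul_of_nonneg_left (geom_sum_Ico_le_of_lt_one (m := m) (n := n)
    (x := (1 / 2 : ℝ)) (by norm_num) (by norm_num)) hc
  refine this.trans_eq ?_
  ring

theorem lp_zero (c : ℝ) {ι : Type} {l : Filter ι} {k : ι → ℕ} (hk : Tendsto k l atTop) :
    Tendsto (fun i => ENNReal.ofReal (c * (1 / 2) ^ k i) ^ 2) l (𝓝 0) := by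
  have h1 := ((tendsto_pow_atTop_nhds_zero_of_lt_one (r := (1 / 2 : ℝ)) (by norm_num)
    (by norm_num)).comp hk).const_mul c
  simpa using ENNReal.Tendsto.pow (m := fun i => ENNReal.ofReal (c * (1 / 2) ^ k i)) (n := 2)
    (ENNReal.tendsto_ofReal h1)

theorem lp {r r' : ℝ} (h0 : 0 < r') (h : r' < r) : ∃ K : ℝ, 0 ≤ K ∧
    ∀ (ϖ : C2 → C2 →L[ℝ] ℂ) (A : ℝ), 0 ≤ A → (∀ z ∈ ball (0 : C2) r, Anti (ϖ z)) →
      (∀ a, MemLp (fun z => ϖ z (ee a)) 2 (volume.restrict (ball 0 r))) →
      n2 (ball 0 r) ϖ ≤ ENNReal.ofReal A ^ 2 →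
      (∀ τ : C2 → ℂ, ContDiff ℝ ∞ τ → HasCompactSupport τ → tsupport τ ⊆ ball 0 r →
        ∫ z in ball (0 : C2) r, w2 (ϖ z) (dbar τ z) = 0) →
      ∃ f : ℕ → C2 → ℂ, (∀ n, ContDiff ℝ ∞ (f n)) ∧
        (∀ n, n2 (ball 0 r') (f n) ≤ ENNReal.ofReal (K * A) ^ 2) ∧ Cau (ball 0 r') f ∧
        Tendsto (fun n => n2 (ball 0 r') (dbar (f n) - ϖ)) atTop (𝓝 0) := by
  have hr : r' < (r' + r) / 2 := by linarith
  have hr' : (r' + r) / 2 < r := by linarith
  obtain ⟨K, hK, hd⟩ := dol h0 hr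
  refine ⟨4 * K, by positivity, fun ϖ A hA ha hm hn hw => ?_⟩
  rcases hA.eq_or_lt with rfl | hA
  · refine ⟨fun _ => 0, fun _ => contDiff_const, fun _ => by simp [n2], by simp [Cau, n2], ?_⟩
    have h1 : n2 (ball 0 r') (dbar (fun _ => 0) - ϖ) = 0 := by
      refine le_antisymm ((n2_le (g := ϖ) (c := 1) measurableSet_ball fun z _ => ?_).trans ?_)
        zero_le
      · rw [Pi.sub_apply, dbar_hol' (differentiableAt_const 0), zero_sub, norm_neg, one_mul]
      · simpa using (n2_mono_set (ball_subset_ball h.le)).trans hn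
    exact tendsto_const_nhds.congr fun _ => h1.symm
  have hex : ∀ n : ℕ, ∃ w : C2 → C2 →L[ℝ] ℂ, ((∀ z, Anti (w z)) ∧
      (∀ j, ContDiff ℝ ∞ fun z => w z (ee j)) ∧ (∀ z ∈ ball (0 : C2) ((r' + r) / 2),
        dbar (fun y => w y (ee 1)) z (ee 0) = dbar (fun y => w y (ee 0)) z (ee 1)) ∧
      eLpNorm (w - ϖ) 2 (volume.restrict (ball 0 ((r' + r) / 2))) ≤
        ENNReal.ofReal (A * (1 / 2) ^ n)) ∧ (n = 0 → w = 0) := fun n => by
    rcases n with _ | n
    · refine ⟨0, ⟨fun _ => anti_zero, fun _ => contDiff_const, fun z _ => ?_, ?_⟩, fun _ => rfl⟩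
      · simp only [Pi.zero_apply, zero_apply, dbar_hol' (differentiableAt_const (0 : ℂ))]
      · rw [zero_sub, eLpNorm_neg, pow_zero, mul_one]
        exact lp_le.1 ((n2_mono_set (ball_subset_ball hr'.le)).trans hn)
    · obtain ⟨w, hw⟩ := lp_moll hr' ha hm hw (ε := ENNReal.ofReal (A * (1 / 2) ^ (n + 1)))
        (ENNReal.ofReal_pos.2 (by positivity))
      exact ⟨w, hw, fun h => absurd h n.succ_ne_zero⟩
  choose w hw hw0 using hex
  have mϖ : AEStronglyMeasurable ϖ (volume.restrict (ball 0 ((r' + r) / 2))) :=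
    aesm_anti measurableSet_ball (fun z hz => ha z (ball_subset_ball hr'.le hz)) fun j =>
      (hm j).1.mono_set (ball_subset_ball hr'.le)
  have mw : ∀ n, AEStronglyMeasurable (w n - ϖ) (volume.restrict (ball 0 ((r' + r) / 2))) :=
    fun n => (aesm_anti measurableSet_ball (fun z _ => (hw n).1 z) fun j =>
      ((hw n).2.1 j).continuous.aestronglyMeasurable).sub mϖ
  have hg := fun n => hd 0 (w (n + 1) - w n) (fun z _ => ((hw _).1 z).sub ((hw _).1 z))
    (fun j z _ => (((hw (n + 1)).2.1 j).sub ((hw n).2.1 j)).contDiffAt) fun z hz => by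
      have e : ∀ i j, dbar (fun y => (w (n + 1) - w n) y (ee i)) z (ee j) =
          dbar (fun y => w (n + 1) y (ee i)) z (ee j) - dbar (fun y => w n y (ee i)) z (ee j) :=
        fun i j => congrArg (fun a : C2 →L[ℝ] ℂ => a (ee j))
          (dbar_sub' (((hw (n + 1)).2.1 i).differentiable (by simp) z)
            (((hw n).2.1 i).differentiable (by simp) z))
      rw [e, e, (hw _).2.2.1 z hz, (hw _).2.2.1 z hz]
  choose g g1 g2 g3 g4 using hg
  have g5 : ∀ n, eLpNorm (g n) 2 (volume.restrict (ball 0 r')) ≤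
      ENNReal.ofReal (2 * K * A * (1 / 2) ^ n) := fun n => by
    have h1 : eLpNorm (w (n + 1) - w n) 2 (volume.restrict (ball 0 ((r' + r) / 2))) ≤
        ENNReal.ofReal (2 * A * (1 / 2) ^ n) := by
      rw [← sub_sub_sub_cancel_right _ _ ϖ]
      refine (eLpNorm_sub_le (mw _) (mw _) one_le_two).trans
        ((add_le_add (hw _).2.2.2 (hw _).2.2.2).trans ?_)
      rw [← ENNReal.ofReal_add (by positivity) (by positivity), pow_succ]
      have : 0 ≤ A * (1 / 2) ^ n := by positivity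
      exact ENNReal.ofReal_le_ofReal (by linarith)
    refine lp_le.1 ((g4 n).trans ((mul_le_mul_right (lp_le.2 h1) _).trans_eq ?_))
    rw [← mul_pow, ← ENNReal.ofReal_mul hK]
    congr 2
    ring
  have g6 := lp_geo (fun n => (g1 n).continuous) (by positivity) g5
  refine ⟨fun n => ∑ i ∈ Finset.range n, g i, fun n => ?_, fun n => ?_, ?_, ?_⟩
  · simp only [Finset.sum_fn]
    exact ContDiff.sum fun i _ => g1 i
  · simp only [Finset.range_eq_Ico]
    refine lp_le.2 ((g6 0 n).trans_eq ?_)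
    congr 1
    ring
  · refine tendsto_of_tendsto_of_tendsto_of_le_of_le tendsto_const_nhds
      (lp_zero (2 * (2 * K * A)) (k := fun x : ℕ × ℕ => min x.1 x.2) ?_) (fun _ => zero_le)
      fun x => lp_le.2 ?_
    · rw [← prod_atTop_atTop_eq]
      exact tendsto_atTop.2 fun b => (tendsto_fst.eventually (eventually_ge_atTop b)).and
        (tendsto_snd.eventually (eventually_ge_atTop b)) |>.mono fun x hx => le_min hx.1 hx.2
    · rcases le_total x.1 x.2 with h1 | h1
      · rw [eLpNorm_sub_comm, ← Finset.sum_Ico_eq_sub _ h1, min_eq_left h1]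
        exact g6 _ _
      · rw [← Finset.sum_Ico_eq_sub _ h1, min_eq_right h1]
        exact g6 _ _
  · refine tendsto_of_tendsto_of_tendsto_of_le_of_le tendsto_const_nhds
      (lp_zero A (k := id) tendsto_id) (fun _ => zero_le) fun n => ?_
    refine le_trans ?_ ((n2_mono_set (ball_subset_ball hr.le)).trans (lp_le.2 (hw n).2.2.2))
    refine (n2_congr measurableSet_ball fun z hz => ?_).le
    rw [Pi.sub_apply, Pi.sub_apply, dbar_sum' fun i _ => (g1 i).differentiable (by simp) z,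
      Finset.sum_congr rfl fun i _ => g2 i z hz]
    simp only [Pi.sub_apply]
    rw [Finset.sum_range_sub fun i => w i z, hw0 0 rfl, Pi.zero_apply, sub_zero]

end Vale.Agent.P267
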