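import Vale.Agent.P267S.Cal

/-! P267, solver part: limits of approximate primitives. -/

open scoped Manifold ContDiff Topology ENNReal Real
open Filter Metric Set MeasureTheory

noncomputable section

namespace Vale.Agent.P267

set_option linter.unusedSectionVars false

theorem ov_sq {ι : Type} {l : Filter ι} {x : ι → ℝ≥0∞} :
    Tendsto (fun i => x i ^ 2) l (𝓝 0) ↔ Tendsto x l (𝓝 0) := by
  refine ⟨fun h => ?_, fun h => ?_⟩
  · have h1 := ((ENNReal.continuous_rpow_const (y := ((2 : ℕ) : ℝ)⁻¹)).tendsto 0).comp h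
    rw [ENNReal.zero_rpow_of_pos (by norm_num)] at h1
    exact h1.congr fun i => ENNReal.pow_rpow_inv_natCast two_ne_zero _
  · have h1 := ((ENNReal.continuous_pow 2).tendsto 0).comp h
    rwa [zero_pow two_ne_zero] at h1

theorem ov_lim {W : Set C2} {D : ℕ → C2 → ℂ} (hD : ∀ n, MemLp (D n) 2 (volume.restrict W))
    (hc : Cau W D) : ∃ g : C2 → ℂ, MemLp g 2 (volume.restrict W) ∧
      Tendsto (fun n => n2 W (D n - g)) atTop (𝓝 0) := by
  have h1 : CauchySeq fun n => (hD n).toLp (D n) := by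
    rw [Lp.cauchySeq_Lp_iff_cauchySeq_eLpNorm]
    have h2 := hc
    simp only [Cau, n2_eLp] at h2
    exact (ov_sq.1 h2).congr fun x =>
      (eLpNorm_congr_ae ((hD x.1).coeFn_toLp.sub (hD x.2).coeFn_toLp)).symm
  obtain ⟨g, hg⟩ := cauchySeq_tendsto_of_complete h1
  refine ⟨g, Lp.memLp g, ?_⟩
  simp only [n2_eLp]
  exact ov_sq.2 (((Lp.tendsto_Lp_iff_tendsto_eLpNorm' _ _).1 hg).congr fun n =>
    eLpNorm_congr_ae ((hD n).coeFn_toLp.sub EventuallyEq.rfl))

theorem ov_pair {W : Set C2} {F : ℕ → C2 → ℂ} {t : C2 → ℂ}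
    (hF : ∀ n, MemLp (F n) 2 (volume.restrict W)) (ht : MemLp t 2 (volume.restrict W))
    (h : Tendsto (fun n => n2 W (F n)) atTop (𝓝 0)) :
    Tendsto (fun n => ∫ z in W, F n z * t z) atTop (𝓝 0) := by
  have key : ∀ {f : C2 → ℂ}, MemLp f 2 (volume.restrict W) →
      n2 W f ≤ ENNReal.ofReal (eLpNorm f 2 (volume.restrict W)).toReal ^ 2 := fun hf => by
    rw [ENNReal.ofReal_toReal hf.2.ne, n2_eLp]
  simp only [n2_eLp] at h
  have h1 := ((ENNReal.tendsto_toReal ENNReal.zero_ne_top).comp (ov_sq.1 h)).mul_const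
    (eLpNorm t 2 (volume.restrict W)).toReal
  rw [ENNReal.toReal_zero, zero_mul] at h1
  exact squeeze_zero_norm (fun n => (n2_cs (hF n).1 ht.1 ENNReal.toReal_nonneg
    ENNReal.toReal_nonneg (key (hF n)) (key ht)).2) h1

theorem ov_mem {F : C2 → ℂ} {z : C2} {ρ : ℝ} (h : ∀ w ∈ closedBall z ρ, ContinuousAt F w) :
    MemLp F 2 (volume.restrict (ball z ρ)) := by
  have hc : ContinuousOn F (closedBall z ρ) := fun w hw => (h w hw).continuousWithinAt
  obtain ⟨B, hB⟩ := (isCompact_closedBall z ρ).exists_bound_of_continuousOn hc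
  have : IsFiniteMeasure ((volume : Measure C2).restrict (ball z ρ)) :=
    isFiniteMeasure_restrict.2 measure_ball_lt_top.ne
  exact MemLp.of_bound ((hc.mono ball_subset_closedBall).aestronglyMeasurable measurableSet_ball) B
    ((ae_restrict_iff' measurableSet_ball).2
      (Eventually.of_forall fun w hw => hB w (ball_subset_closedBall hw)))

theorem ov_loc {W : Set C2} (hW : IsOpen W) {D : ℕ → C2 → ℂ}
    (hD : ∀ n, ∀ z ∈ W, ContDiffAt ℝ ∞ (D n) z) {g : C2 → ℂ} (hg : MemLp g 2 (volume.restrict W))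
    (hgl : Tendsto (fun n => n2 W (D n - g)) atTop (𝓝 0)) {ϖ : C2 → C2 →L[ℝ] ℂ}
    (hl : Tendsto (fun n => n2 W (dbar (D n) - ϖ)) atTop (𝓝 0)) {z : C2} (hz : z ∈ W)
    {a : C2 → ℂ} (ha : ∀ᶠ w in 𝓝 z, ContDiffAt ℝ ∞ a w ∧ dbar a w = ϖ w) :
    ∃ (V : Set C2) (G : C2 → ℂ), IsOpen V ∧ z ∈ V ∧ V ⊆ W ∧
      (∀ w ∈ V, ContDiffAt ℝ ∞ G w ∧ dbar G w = ϖ w) ∧ ∀ᵐ w, w ∈ V → g w = G w := by
  obtain ⟨ρ, hρ, hb⟩ := nhds_basis_closedBall.mem_iff.1 (inter_mem (hW.mem_nhds hz) ha)
  have hs : ball z ρ ⊆ W := fun w hw => (hb (ball_subset_closedBall hw)).1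
  have g1 : MemLp g 2 (volume.restrict (ball z ρ)) :=
    hg.mono_measure (Measure.restrict_mono hs le_rfl)
  have a1 : MemLp a 2 (volume.restrict (ball z ρ)) := ov_mem fun w hw => (hb hw).2.1.continuousAt
  have d0 : ∀ n, ∀ w ∈ closedBall z ρ, ContDiffAt ℝ ∞ (D n - a) w := fun n w hw =>
    (hD n w (hb hw).1).sub (hb hw).2.1
  have d1 : ∀ n, MemLp (D n) 2 (volume.restrict (ball z ρ)) := fun n =>
    ov_mem fun w hw => (hD n w (hb hw).1).continuousAt
  have dd : ∀ {F : C2 → ℂ} {w : C2}, ContDiffAt ℝ ∞ F w → DifferentiableAt ℝ F w := fun h =>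
    h.differentiableAt (by simp)
  obtain ⟨H, hH, hae⟩ := P271A.weyl_loc (u := (ball z ρ).indicator (g - a))
    ((memLp_indicator_iff_restrict measurableSet_ball).2 (g1.sub a1)) (c := z) hρ
    fun j t ht hc hst => by
      have t1 : MemLp t 2 (volume.restrict (ball z ρ)) :=
        ov_mem fun w _ => ht.continuous.continuousAt
      have t2 : MemLp (fun w => dbar t w (ee j)) 2 (volume.restrict (ball z ρ)) :=
        ov_mem fun w _ => (dbar_sm_apply ht.contDiffAt _).continuousAt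
      have l1 := ov_pair (F := fun n w => dbar (D n - a) w (ee j))
        (fun n => ov_mem fun w hw => (dbar_sm_apply (d0 n w hw) _).continuousAt) t1
        (tendsto_of_tendsto_of_tendsto_of_le_of_le tendsto_const_nhds hl (fun _ => zero_le)
          fun n => by
            refine le_trans ?_ (n2_mono_set hs)
            refine (n2_le (c := 1) (g := dbar (D n) - ϖ) measurableSet_ball fun w hw => ?_).trans
              (by simp)
            have hw' := hb (ball_subset_closedBall hw)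
            rw [dbar_sub' (dd (hD n w hw'.1)) (dd hw'.2.1), hw'.2.2, one_mul]
            exact norm_ee_le _ j)
      have l2 := ov_pair (F := fun n => D n - g) (fun n => (d1 n).sub g1) t2
        (tendsto_of_tendsto_of_tendsto_of_le_of_le tendsto_const_nhds hgl (fun _ => zero_le)
          fun n => n2_mono_set hs)
      have l3 := l1.neg.sub l2
      rw [neg_zero, sub_zero] at l3
      have e : ∀ n, -(∫ w in ball z ρ, dbar (D n - a) w (ee j) * t w) -
          ∫ w in ball z ρ, (D n - g) w * dbar t w (ee j) =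
          ∫ w in ball z ρ, (g - a) w * dbar t w (ee j) := fun n => by
        rw [← ibp isOpen_ball (fun w hw => d0 n w (ball_subset_closedBall hw)) ht hc hst]
        refine (integral_sub (((d1 n).sub a1).integrable_mul t2)
          (((d1 n).sub g1).integrable_mul t2)).symm.trans
          (integral_congr_ae (Eventually.of_forall fun w => ?_))
        simp only [Pi.sub_apply, Pi.mul_apply]
        ring
      rw [← tendsto_nhds_unique tendsto_const_nhds (l3.congr e),
        ← integral_indicator measurableSet_ball]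
      refine integral_congr_ae (Eventually.of_forall fun w => ?_)
      simp only [← dbar_eX]
      by_cases hw : w ∈ ball z ρ
      · rw [indicator_of_mem hw, indicator_of_mem hw]
      · rw [indicator_of_notMem hw, indicator_of_notMem hw, zero_mul]
  have hq : ball z (ρ / 4) ⊆ ball z ρ := ball_subset_ball (by linarith)
  refine ⟨ball z (ρ / 4), a + H, isOpen_ball, mem_ball_self (by positivity), hq.trans hs,
    fun w hw => ?_, hae.mono fun w h1 hw => ?_⟩
  · have hw' := hb (ball_subset_closedBall (hq hw))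
    have h1 : AnalyticAt ℂ H w := P278F.analyticAt_of_eventually
      (hH.eventually_differentiableAt (isOpen_ball.mem_nhds hw))
    have h2 : ContDiffAt ℝ ∞ H w := (h1.contDiffAt (n := ∞)).restrict_scalars ℝ
    refine ⟨hw'.2.1.add h2, ?_⟩
    rw [dbar_add' (dd hw'.2.1) (dd h2), dbar_hol' h1.differentiableAt, add_zero, hw'.2.2]
  · have h2 := h1 hw
    rw [indicator_of_mem (hq hw), Pi.sub_apply] at h2
    rw [Pi.add_apply, ← h2, add_sub_cancel]

theorem ov {W : Set C2} (hW : IsOpen W) {D : ℕ → C2 → ℂ}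
    (hD : ∀ n, ∀ z ∈ W, ContDiffAt ℝ ∞ (D n) z) (hb : ∀ n, n2 W (D n) < ⊤) (hc : Cau W D)
    {ϖ : C2 → C2 →L[ℝ] ℂ}
    (hϖ : ∀ z ∈ W, ∃ a : C2 → ℂ, ∀ᶠ w in 𝓝 z, ContDiffAt ℝ ∞ a w ∧ dbar a w = ϖ w)
    (hl : Tendsto (fun n => n2 W (dbar (D n) - ϖ)) atTop (𝓝 0)) :
    ∃ v : C2 → ℂ, (∀ z ∈ W, ContDiffAt ℝ ∞ v z ∧ dbar v z = ϖ z) ∧
      Tendsto (fun n => n2 W (D n - v)) atTop (𝓝 0) := by
  obtain ⟨g, hg, hgl⟩ := ov_lim (fun n => memLp_of_n2 (ContinuousOn.aestronglyMeasurable
    (fun z hz => (hD n z hz).continuousAt.continuousWithinAt) hW.measurableSet) (hb n)) hc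
  have h1 : ∀ z ∈ W, ∃ (V : Set C2) (G : C2 → ℂ), IsOpen V ∧ z ∈ V ∧ V ⊆ W ∧
      (∀ w ∈ V, ContDiffAt ℝ ∞ G w ∧ dbar G w = ϖ w) ∧ ∀ᵐ w, w ∈ V → g w = G w := fun z hz =>
    (hϖ z hz).elim fun a ha => ov_loc hW hD hg hgl hl hz ha
  choose! V G hV hy hs hG hae using h1
  have hc' : ∀ y ∈ W, ContinuousOn (G y) (V y) := fun y h p hp =>
    (hG y h p hp).1.continuousAt.continuousWithinAt
  have key : ∀ y ∈ W, ∀ p ∈ V y, G p p = G y p := fun y h p hp => by
    have h' := hs y h hp
    have ho := (hV y h).inter (hV p h')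
    refine Measure.eqOn_open_of_ae_eq (μ := volume) (U := V y ∩ V p) ?_ ho
      ((hc' p h').mono inter_subset_right) ((hc' y h).mono inter_subset_left) ⟨hp, hy p h'⟩
    rw [EventuallyEq, ae_restrict_iff' ho.measurableSet]
    filter_upwards [hae y h, hae p h'] with q h1 h2 hq
    rw [← h1 hq.1, ← h2 hq.2]
  refine ⟨fun p => G p p, fun y h => ?_, hgl.congr fun n => lintegral_congr_ae ?_⟩
  · have e : (fun p => G p p) =ᶠ[𝓝 y] G y :=
      mem_of_superset ((hV y h).mem_nhds (hy y h)) (key y h)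
    exact ⟨(hG y h y (hy y h)).1.congr_of_eventuallyEq e,
      (dbar_congr' e).trans (hG y h y (hy y h)).2⟩
  · have e : ∀ᵐ p, p ∈ W → g p = G p p := by
      refine measure_null_of_locally_null _ fun y hy' => ?_
      have h : y ∈ W := by_contra fun h => hy' fun h' => absurd h' h
      refine ⟨{p | ¬(p ∈ V y → g p = G y p)}, ?_, hae y h⟩
      filter_upwards [mem_nhdsWithin_of_mem_nhds ((hV y h).mem_nhds (hy y h)), self_mem_nhdsWithin]
        with p hp hp' hq
      exact hp' fun _ => (hq hp).trans (key y h p hp).symm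
    filter_upwards [(ae_restrict_iff' hW.measurableSet).2 e] with p hp
    simp only [Pi.sub_apply, hp]

end Vale.Agent.P267
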