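import Vale.Agent.P267S.Frm
import Vale.Agent.P271A.Hil
import Vale.Agent.P267S.RszX

/-! P267, solver part: the Riesz step. -/

open scoped Manifold ContDiff Topology ENNReal Real
open Filter Metric Set MeasureTheory

noncomputable section

namespace Vale.Agent.P267

set_option linter.unusedSectionVars false

theorem rsz_mem {E : Type} [NormedAddCommGroup E] [SecondCountableTopology E] {f : C2 → E}
    {r r₀ : ℝ} (h2 : r₀ < r) (h : ∀ z ∈ ball (0 : C2) r, ContinuousAt f z) (p : ℝ≥0∞) :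
    MemLp f p (volume.restrict (ball 0 r₀)) := by
  have hc : ContinuousOn f (closedBall 0 r₀) := fun z hz =>
    (h z (closedBall_subset_ball h2 hz)).continuousWithinAt
  obtain ⟨A, hA⟩ := (isCompact_closedBall (0 : C2) r₀).exists_bound_of_continuousOn hc
  have : IsFiniteMeasure (volume.restrict (ball (0 : C2) r₀)) :=
    isFiniteMeasure_restrict.2 measure_ball_lt_top.ne
  exact MemLp.of_bound ((hc.mono ball_subset_closedBall).aestronglyMeasurable measurableSet_ball) A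
    ((ae_restrict_mem measurableSet_ball).mono fun z hz => hA z (ball_subset_closedBall hz))

theorem rsz_smul {G : C2 → ℂ} {z : C2} (hG : DifferentiableAt ℝ G z) (c : ℂ) :
    dbar (c • G) z = c • dbar G z := by
  have h := dbar_mul' (differentiableAt_const c) hG
  rw [dbar_hol' (differentiableAt_const c)] at h
  refine h.trans (ContinuousLinearMap.ext fun v => ?_)
  simp

theorem rsz_sq {x y : ℝ≥0∞} {a A : ℝ} (ha : 0 ≤ a) (h : x ≤ ENNReal.ofReal a ^ 2 * y)
    (h' : y ≤ ENNReal.ofReal A ^ 2) : x ≤ ENNReal.ofReal (a * A) ^ 2 := by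
  rw [ENNReal.ofReal_mul ha, mul_pow]
  exact h.trans (mul_le_mul_right h' _)

theorem rsz_w2 {W : Set C2} (hW : MeasurableSet W) {a b : C2 → C2 →L[ℝ] ℂ} {A B : ℝ}
    (ha : ∀ j, AEStronglyMeasurable (fun z => a z (ee j)) (volume.restrict W))
    (hb : ∀ j, AEStronglyMeasurable (fun z => b z (ee j)) (volume.restrict W)) (hA : 0 ≤ A)
    (hB : 0 ≤ B) (h1 : n2 W a ≤ ENNReal.ofReal A ^ 2) (h2 : n2 W b ≤ ENNReal.ofReal B ^ 2) :
    ‖∫ z in W, w2 (a z) (b z)‖ ≤ 2 * (A * B) := by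
  have k : ∀ {a : C2 → C2 →L[ℝ] ℂ} {A : ℝ}, n2 W a ≤ ENNReal.ofReal A ^ 2 → ∀ j,
      n2 W (fun z => a z (ee j)) ≤ ENNReal.ofReal A ^ 2 := fun {a A} h j => by
    have := rsz_sq zero_le_one (n2_le (f := fun z => a z (ee j)) (g := a) hW fun z _ =>
      (norm_ee_le (a z) j).trans_eq (one_mul _).symm) h
    rwa [one_mul] at this
  obtain ⟨i1, b1⟩ := n2_cs (ha 0) (hb 1) hA hB (k h1 0) (k h2 1)
  obtain ⟨i2, b2⟩ := n2_cs (ha 1) (hb 0) hA hB (k h1 1) (k h2 0)
  unfold w2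
  rw [integral_sub i1 i2]
  linarith [norm_sub_le (∫ z in W, a z (ee 0) * b z (ee 1)) (∫ z in W, a z (ee 1) * b z (ee 0))]

theorem rsz_anti {W : Set C2} (hW : MeasurableSet W) {a : C2 → C2 →L[ℝ] ℂ} {A : ℝ} (hA : 0 ≤ A)
    (h : ∀ z, Anti (a z)) (hm : AEStronglyMeasurable (fun z => a z (ee 0)) (volume.restrict W))
    (hb : ∀ j, n2 W (fun z => a z (ee j)) ≤ ENNReal.ofReal A ^ 2) :
    n2 W a ≤ ENNReal.ofReal (2 * (A + A)) ^ 2 :=
  (n2_le_add hW hm fun z _ => (h z).norm_le).trans (sq_add_le hA hA (hb 0) (hb 1))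

variable {M : Type} [TopologicalSpace M] [ChartedSpace C2 M] [T2Space M]

namespace Cov
variable (C : Cov M)

/-- The space of test sections. -/
def rszV (F : C.I → M → ℂ) (r : ℝ) : Submodule ℂ (M → ℂ) where
  carrier := {η | C.Tst F r η}
  add_mem' {η η'} h h' := by
    obtain ⟨T, hT⟩ := h.supp
    obtain ⟨T', hT'⟩ := h'.supp
    refine ⟨fun i p hp => ?_, max T T', fun p hp => ?_⟩
    · rw [mul_add]
      exact (h.sm i p hp).add (h'.sm i p hp)
    · rw [Pi.add_apply, hT p ((le_max_left _ _).trans hp), hT' p ((le_max_right _ _).trans hp),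
        add_zero]
  zero_mem' := ⟨fun i p _ => by rw [mul_zero]; exact smAt_zero, 0, fun _ _ => rfl⟩
  smul_mem' c η h := by
    obtain ⟨T, hT⟩ := h.supp
    refine ⟨fun i p hp => ?_, T, fun p hp => ?_⟩
    · rw [mul_smul_comm]
      exact (h.sm i p hp).smul c
    · rw [Pi.smul_apply, hT p hp, smul_zero]

variable {C} {F : C.I → M → ℂ} {r r₀ δ K D : ℝ} {η η' : M → ℂ} {i : C.I} {z : C2} {c : ℤ}
  {α : C.I → M → C2 →L[ℝ] ℂ}

theorem rsz_mul (f η : M → ℂ) (i : C.I) :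
    C.du F (f * η) i = (f ∘ (C.ch i).symm) * C.du F η i := by
  funext z
  simp only [du, Function.comp_apply, Pi.mul_apply]
  ring

theorem rsz_rho (h : C.Tst F r η) (l : C.I) : C.Tst F r ((fun q => (C.rho l q : ℂ)) * η) := by
  obtain ⟨T, hT⟩ := h.supp
  refine ⟨fun i p hp => ?_, T, fun p hp => ?_⟩
  · rw [mul_left_comm]
    exact (C.rho_sm l p).mul (h.sm i p hp)
  · rw [Pi.mul_apply, hT p hp, mul_zero]

theorem rsz_sm (h3 : r ≤ 3) (h : C.Tst F r η) (i : C.I) (hz : z ∈ ball (0 : C2) r) :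
    ContDiffAt ℝ ∞ (C.du F η i) z := C.sm_ball (by linarith) (h.sm i) z hz

theorem rsz_df (h3 : r ≤ 3) (h : C.Tst F r η) (i : C.I) (hz : z ∈ ball (0 : C2) r) :
    DifferentiableAt ℝ (C.du F η i) z := (rsz_sm h3 h i hz).differentiableAt (by simp)

theorem rsz_add (h3 : r ≤ 3) (h : C.Tst F r η) (h' : C.Tst F r η') (i : C.I)
    (hz : z ∈ ball (0 : C2) r) :
    dbar (C.du F (η + η') i) z = dbar (C.du F η i) z + dbar (C.du F η' i) z := by
  rw [← dbar_add' (rsz_df h3 h i hz) (rsz_df h3 h' i hz), du, mul_add]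
  rfl

theorem rsz_smul' (h3 : r ≤ 3) (h : C.Tst F r η) (a : ℂ) (i : C.I) (hz : z ∈ ball (0 : C2) r) :
    dbar (C.du F (a • η) i) z = a • dbar (C.du F η i) z := by
  rw [← rsz_smul (rsz_df h3 h i hz), du, mul_smul_comm]
  rfl

theorem rsz_van (h3 : r ≤ 3) (h : ∀ p ∈ C.U i r, η p = 0) (hz : z ∈ ball (0 : C2) r) :
    dbar (C.du F η i) z = 0 := by
  have e : C.du F η i =ᶠ[𝓝 z] fun _ => 0 := by
    filter_upwards [isOpen_ball.mem_nhds hz] with w hw
    simp only [du, Function.comp_apply, Pi.mul_apply,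
      h _ (C.symm_mem_U i (by linarith) (mem_ball_zero_iff.1 hw)).1, mul_zero]
  rw [dbar_congr' e, dbar_hol' (differentiableAt_const _)]

theorem rsz_c1 (h3 : r ≤ 3) (h : C.Tst F r η) (i : C.I) (j : Fin 2) :
    ∀ z ∈ ball (0 : C2) r, ContinuousAt (fun w => dbar (C.du F η i) w (ee j)) z := fun _ hz =>
  (dbar_sm_apply (rsz_sm h3 h i hz) _).continuousAt

theorem rsz_c2 (h3 : r ≤ 3) (h : C.Dat F r δ c D α) (i : C.I) (j : Fin 2) :
    ∀ z ∈ ball (0 : C2) r, ContinuousAt (fun w => C.cmp (C.ch i) (α i) w (ee j)) z := by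
  intro z hz
  obtain ⟨h1, h2⟩ := C.symm_mem_U i (by linarith) (mem_ball_zero_iff.1 hz)
  have := ((h.sm i _ h1).cmp_sm (C.isCh i) h1.1 (ee j)).self_of_nhds.continuousAt
  rwa [h2] at this

theorem rsz_int (h2 : r₀ < r) (h3 : r ≤ 3) (hd : C.Dat F r δ c D α) (h : C.Tst F r η) (i : C.I) :
    Integrable (fun z => w2 (C.cmp (C.ch i) (α i) z) (dbar (C.du F η i) z))
      (volume.restrict (ball 0 r₀)) :=
  memLp_one_iff_integrable.1 (rsz_mem h2 (fun z hz =>
    ((rsz_c2 h3 hd i 0 z hz).mul (rsz_c1 h3 h i 1 z hz)).sub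
      ((rsz_c2 h3 hd i 1 z hz).mul (rsz_c1 h3 h i 0 z hz))) 1)

variable (C)

theorem rsz_bd (h2 : r₀ < r) (h3 : r ≤ 3) (hK : 0 ≤ K) : ∃ K' : ℝ, 0 ≤ K' ∧
    ∀ (F : C.I → M → ℂ) (δ : ℝ), C.AP F r r₀ δ K → ∀ c D α, C.Dat F r δ c D α → ∀ η,
      C.Tst F r η → ∀ X : ℝ, 0 ≤ X → (∀ i a, n2 (ball 0 r₀) (fun z => (C.wt δ c i : ℂ) *
        dbar (C.du F η i) z (ee a)) ≤ ENNReal.ofReal X ^ 2) → ∀ l,
      ‖∫ z in ball (0 : C2) r₀, w2 (C.cmp (C.ch l) (α l) z)
        (dbar (C.du F ((fun q => (C.rho l q : ℂ)) * η) l) z)‖ ≤ K' * D * X * C.wt δ c l := by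
  obtain ⟨L, hL, H1⟩ := C.cmp_norm
  obtain ⟨L', hL', H2⟩ := C.geo_rho
  obtain ⟨K₁, hK₁, H3⟩ := n2_const r₀
  refine ⟨16 * K₁ * L * (1 + L * L' * K), by positivity, fun F δ hAP c D α hd η hη X hX hT l => ?_⟩
  have hs : ball (0 : C2) r₀ ⊆ ball 0 r := ball_subset_ball h2.le
  have hD := hd.pos
  have a1 : ∀ i, n2 (ball 0 r₀) (dbar (C.du F η i)) ≤ ENNReal.ofReal (4 * X / C.wt δ c i) ^ 2 := by
    intro i
    have hw := C.wt_pos δ c i
    have := rsz_anti measurableSet_ball (A := (C.wt δ c i)⁻¹ * X) (by positivity)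
      (anti_dbar (C.du F η i)) (rsz_mem h2 (rsz_c1 h3 hη i 0) 1).1 fun a =>
        rsz_sq (by positivity) (n2_le measurableSet_ball fun z _ => by
          rw [norm_mul, Complex.norm_real, Real.norm_of_nonneg hw.le,
            inv_mul_cancel_left₀ hw.ne']) (hT i a)
    rwa [show 2 * ((C.wt δ c i)⁻¹ * X + (C.wt δ c i)⁻¹ * X) = 4 * X / C.wt δ c i by ring] at this
  have a2 := hAP c (4 * X) η (by positivity) hη a1 l
  have hw := C.wt_pos δ c l
  have hU : ∀ z ∈ ball (0 : C2) r₀, (C.ch l).symm z ∈ C.U l r ∧ C.ch l ((C.ch l).symm z) = z :=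
    fun z hz => C.symm_mem_U l (by linarith) (mem_ball_zero_iff.1 (hs hz))
  have a3 : n2 (ball 0 r₀) (dbar (C.du F ((fun q => (C.rho l q : ℂ)) * η) l)) ≤ ENNReal.ofReal
      (2 * (4 * X / C.wt δ c l + L * L' * (K * (4 * X) / C.wt δ c l))) ^ 2 := by
    refine (n2_le_add (g := dbar (C.du F η l))
      (h := fun z => ((L * L' : ℝ) : ℂ) * C.du F η l z) measurableSet_ball
      (rsz_mem h2 (fun z hz => (dbar_sm (rsz_sm h3 hη l hz)).continuousAt) 1).1
      fun z hz => ?_).trans (sq_add_le (by positivity) (by positivity) (a1 l)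
        (rsz_sq (by positivity) (n2_le measurableSet_ball fun z _ => by
          rw [norm_mul, Complex.norm_real, Real.norm_of_nonneg (by positivity)]) a2))
    obtain ⟨b1, b2⟩ := hU z hz
    have b3 := C.cmp_db (C.isCh l) b1.1 (C.rho_sm l ((C.ch l).symm z))
    have b4 := (H1 l (C.db fun q => (C.rho l q : ℂ)) _ (C.U_mono l h3 b1)).1.trans
      (mul_le_mul_of_nonneg_left (H2 l _) hL.le)
    rw [b3, b2] at b4
    have b5 := C.sm_ball (i := l) (r := r) (by linarith) (fun p _ => C.rho_sm l p) z (hs hz)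
    rw [rsz_mul, dbar_mul' (b5.differentiableAt (by simp)) (rsz_df h3 hη l (hs hz))]
    refine (norm_add_le _ _).trans (add_le_add ?_ ?_)
    · rw [norm_smul, Function.comp_apply, Complex.norm_real, Real.norm_of_nonneg (C.rho_nonneg _ _)]
      exact mul_le_of_le_one_left (norm_nonneg _) (C.rho_le_one _ _)
    · rw [norm_smul, norm_mul, Complex.norm_real, Real.norm_of_nonneg (by positivity), mul_comm]
      exact mul_le_mul_of_nonneg_right b4 (norm_nonneg _)
  have a4 := H3 0 (C.cmp (C.ch l) (α l)) (L * (D * C.wt (2 * δ) c l)) fun z hz => by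
    have := (H1 l (α l) _ (C.U_mono l h3 (hU z hz).1)).1.trans
      (mul_le_mul_of_nonneg_left (hd.bd l _ (hU z hz).1) hL.le)
    rwa [(hU z hz).2] at this
  rw [wt_two] at a4
  refine (rsz_w2 measurableSet_ball (fun j => (rsz_mem h2 (rsz_c2 h3 hd l j) 1).1)
    (fun j => (rsz_mem h2 (rsz_c1 h3 (rsz_rho hη l) l j) 1).1) (by positivity) (by positivity)
    a4 a3).trans_eq ?_
  field_simp
  ring

theorem rsz {r r₀ δ K : ℝ} (h1 : 1 < r₀) (h2 : r₀ < r) (h3 : r ≤ 3) (hδ : 0 < δ) (hK : 0 ≤ K) :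
    ∃ K' : ℝ, 0 ≤ K' ∧ ∀ (F : C.I → M → ℂ) (B : ℝ), C.Fr F r B → C.AP F r r₀ δ K →
      ∀ c D α, C.Dat F r δ c D α → ∃ b, C.Rz F r r₀ δ c (K' * D) α b := by
  obtain ⟨K₁, hK₁, H1⟩ := C.rsz_bd h2 h3 hK
  obtain ⟨A, hA, H2⟩ := C.wt_sum hδ
  refine ⟨4 * (K₁ * A), by positivity, fun F B _ hAP c D α hd => ?_⟩
  have hD := hd.pos
  have hs : ball (0 : C2) r₀ ⊆ ball 0 r := ball_subset_ball h2.le
  have ae : ∀ {P : C2 → Prop}, (∀ z ∈ ball (0 : C2) r, P z) →
      ∀ᵐ z ∂volume.restrict (ball (0 : C2) r₀), P z := fun h =>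
    (ae_restrict_mem measurableSet_ball).mono fun z hz => h z (hs hz)
  have van : ∀ (η : M → ℂ) (i : C.I), (∀ p ∈ C.U i r, η p = 0) →
      ∫ z in ball (0 : C2) r₀, w2 (C.cmp (C.ch i) (α i) z)
        (dbar (C.du F ((fun q => (C.rho i q : ℂ)) * η) i) z) = 0 ∧
      ∀ a, (fun z => (C.wt δ c i : ℂ) * dbar (C.du F η i) z (ee a))
        =ᵐ[volume.restrict (ball (0 : C2) r₀)] 0 := fun η i h =>
    ⟨integral_eq_zero_of_ae (ae fun z hz => by
      simp [w2, rsz_van (η := (fun q => (C.rho i q : ℂ)) * η) h3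
        (fun p hp => mul_eq_zero_of_right _ (h p hp)) hz]),
      fun a => ae fun z hz => by simp [rsz_van h3 h hz]⟩
  have hm : ∀ (j : C.I × Fin 2) (η : M → ℂ), C.Tst F r η → MemLp (fun z => (C.wt δ c j.1 : ℂ) *
      dbar (C.du F η j.1) z (ee j.2)) 2 (volume.restrict (ball 0 r₀)) := fun j η h =>
    (rsz_mem h2 (rsz_c1 h3 h j.1 j.2) 2).const_mul _
  obtain ⟨u, hu, he⟩ := rsz_abs (V := C.rszV F r) (ν := volume.restrict (ball (0 : C2) r₀))
    (fun j η z => (C.wt δ c j.1 : ℂ) * dbar (C.du F η j.1) z (ee j.2))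
    (fun l η => ∫ z in ball (0 : C2) r₀, w2 (C.cmp (C.ch l) (α l) z)
      (dbar (C.du F ((fun q => (C.rho l q : ℂ)) * η) l) z)) (B := K₁ * A * D) (by positivity)
    (fun j η => hm j η η.2)
    (fun j η η' => ae fun z hz => by
      simp only [Submodule.coe_add, rsz_add h3 η.2 η'.2 j.1 hz, Pi.add_apply, add_apply, mul_add])
    (fun j a η => ae fun z hz => by
      simp only [Submodule.coe_smul, rsz_smul' h3 η.2 a j.1 hz, Pi.smul_apply, smul_apply,
        smul_eq_mul, mul_left_comm])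
    (fun l η η' => by
      rw [← integral_add (rsz_int h2 h3 hd (rsz_rho η.2 l) l) (rsz_int h2 h3 hd (rsz_rho η'.2 l) l)]
      refine integral_congr_ae (ae fun z hz => ?_)
      simp only [Submodule.coe_add, mul_add, rsz_add h3 (rsz_rho η.2 l) (rsz_rho η'.2 l) l hz, w2,
        add_apply]
      ring)
    (fun l a η => by
      rw [← integral_const_mul]
      refine integral_congr_ae (ae fun z hz => ?_)
      simp only [Submodule.coe_smul, mul_smul_comm, rsz_smul' h3 (rsz_rho η.2 l) a l hz, w2,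
        smul_apply, smul_eq_mul]
      ring)
    (fun η => by
      obtain ⟨T, hT⟩ := η.2.supp
      obtain ⟨S, hS⟩ := C.fin_slab (-T) T
      exact ⟨S, fun i hi => van η i fun p hp => hT p (not_lt.1 fun h =>
        hi (hS i p hp.1 (abs_le.1 h.le)))⟩)
    (fun η X S hX h => by
      refine (norm_sum_le _ _).trans ((Finset.sum_le_sum fun l _ =>
        H1 F δ hAP c D α hd η η.2 X hX (fun i a => ?_) l).trans ?_)
      · rw [n2_eLp]
        exact pow_le_pow_left' (h (i, a)) 2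
      · rw [← Finset.mul_sum]
        exact (mul_le_mul_of_nonneg_left (H2 c S) (by positivity)).trans_eq (by ring))
  obtain ⟨x, hx⟩ : ∃ x : C.I → Fin 2 → C2 → ℂ, ∀ i, x i = ![fun z => (C.wt δ c i : ℂ) *
      (starRingEnd ℂ) (u (i, 1) z), fun z => -(C.wt δ c i : ℂ) * (starRingEnd ℂ) (u (i, 0) z)] :=
    ⟨_, fun _ => rfl⟩
  have hc : ∀ j, MemLp (fun z => (starRingEnd ℂ) (u j z)) 2 (volume.restrict (ball 0 r₀)) :=
    fun j => (hu j).1.star
  have x1 : ∀ i a, MemLp (x i a) 2 (volume.restrict (ball 0 r₀)) := fun i a => by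
    rw [hx]
    fin_cases a
    · exact (hc _).const_mul _
    · exact (hc _).const_mul _
  have x2 : ∀ i a, n2 (ball 0 r₀) (x i a) ≤ ENNReal.ofReal (C.wt δ c i * (K₁ * A * D)) ^ 2 := by
    intro i a
    have hw := (C.wt_pos δ c i).le
    have k : ∀ j, n2 (ball 0 r₀) (u j) ≤ ENNReal.ofReal (K₁ * A * D) ^ 2 := fun j => by
      rw [n2_eLp]
      exact pow_le_pow_left' (hu j).2 2
    rw [hx]
    fin_cases a
    · exact rsz_sq hw (n2_le measurableSet_ball fun z _ => by simp [abs_of_nonneg hw]) (k (i, 1))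
    · exact rsz_sq hw (n2_le measurableSet_ball fun z _ => by simp [abs_of_nonneg hw]) (k (i, 0))
  choose b hb1 hb2 using fun i z =>
    exists_anti fun a => (ball (0 : C2) r₀).indicator (x i a) z
  have m1 : ∀ i a, MemLp (fun z => b i z (ee a)) 2 volume := fun i a => by
    simp only [hb2]
    exact (memLp_indicator_iff_restrict measurableSet_ball).2 (x1 i a)
  refine ⟨b, hb1, m1, fun i => ?_, fun η hη S hS => ?_⟩
  · have hw := (C.wt_pos δ c i).le
    have := rsz_anti MeasurableSet.univ (A := C.wt δ c i * (K₁ * A * D)) (by positivity) (hb1 i)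
      (m1 i 0).1.restrict fun a => by
        simp only [hb2]
        refine (n2_indicator measurableSet_ball).trans_le ?_
        rw [univ_inter]
        exact x2 i a
    rwa [show 2 * (C.wt δ c i * (K₁ * A * D) + C.wt δ c i * (K₁ * A * D)) =
      4 * (K₁ * A) * D * C.wt δ c i by ring] at this
  · refine (he ⟨η, hη⟩ S fun i hi => van η i (hS i hi)).trans (Finset.sum_congr rfl fun i _ => ?_)
    rw [Fin.sum_univ_two]
    refine (integral_add ((hm (i, 0) η hη).integrable_mul (hc (i, 0)))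
      ((hm (i, 1) η hη).integrable_mul (hc (i, 1)))).symm.trans
      (setIntegral_congr_fun measurableSet_ball fun z hz => ?_)
    simp only [w2, hb2, indicator_of_mem hz, hx, Pi.mul_apply, Matrix.cons_val_zero,
      Matrix.cons_val_one]
    ring

end Cov

end Vale.Agent.P267
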