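import Vale.Agent.P267S.AP
import Vale.Agent.P267S.Rsz
import Vale.Agent.P267S.Wc
import Vale.Agent.P267S.Fin

/-! P267, solver part: the vanishing theorem. -/

open scoped Manifold ContDiff Topology ENNReal Real
open Filter Metric Set MeasureTheory

noncomputable section

namespace Vale.Agent.P267

set_option linter.unusedSectionVars false

variable {M : Type} [TopologicalSpace M] [ChartedSpace C2 M] [T2Space M]

namespace Cov
variable (C : Cov M)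

theorem s2 {r r' B δ : ℝ} {G : ℕ → C.I → M → ℂ} (hG : ∀ n, C.Fr (G n) r B) (hN : C.NoLim G r)
    (hδ : 0 < δ) (h1 : 1 < r') (h2 : r' < r) (h3 : r ≤ 3) :
    ∃ K : ℝ, 0 ≤ K ∧ ∀ᶠ n in atTop, C.S2 (G n) r r' δ K := by
  obtain ⟨K₁, h₁, hap⟩ := C.ap h1 h2 h3 hδ hG hN
  obtain ⟨K₂, h₂, hr⟩ := C.rsz h1 h2 h3 hδ h₁
  obtain ⟨K₃, h₃, hw⟩ := C.wb h1 h2 h3 hδ h₂ B
  obtain ⟨K₄, h₄, hf⟩ := C.s2_fin h1 h2 h3 hδ h₃ B
  refine ⟨K₄, h₄, hap.mono fun n hn c D α hα => ?_⟩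
  obtain ⟨b, hb⟩ := hr _ B (hG n) hn c D α hα
  exact hf _ (hG n) c D α _ hα (hw _ (hG n) c D α b hα hb) (C.wc h1 h2 h3 (hG n) hα hb)

end Cov

end Vale.Agent.P267
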