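import Vale.Agent.P267S.CT

/-! P267, solver part: the Dolbeault lemma with bounds. -/

open scoped Manifold ContDiff Topology ENNReal Real
open Filter Metric Set MeasureTheory

noncomputable section

namespace Vale.Agent.P267

set_option linter.unusedSectionVars false

theorem dol_d {χ : ℂ → ℂ} (hχ : ContDiff ℝ ∞ χ) (m : Fin 2) (c w v : C2) :
    dbar (fun w => χ (w m - c m)) w v = 2⁻¹ * (fderiv ℝ χ (w m - c m) (v m) +
      Complex.I * fderiv ℝ χ (w m - c m) (Complex.I * v m)) := by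
  have h1 : HasFDerivAt (fun w : C2 => w m - c m)
      (ContinuousLinearMap.proj (R := ℝ) (φ := fun _ : Fin 2 => ℂ) m) w :=
    (hasFDerivAt_apply m w).sub_const _
  have h2 := ((hχ.differentiable (by simp)) (w m - c m)).hasFDerivAt.comp w h1
  have h3 : fderiv ℝ (fun w : C2 => χ (w m - c m)) w = _ := h2.fderiv
  simp [dbar, h3, mul_add]

theorem dol_chi {r r' : ℝ} (h0 : 0 < r') (h : r' < r) : ∃ (χ ψ : ℂ → ℂ) (B : ℝ), 0 ≤ B ∧
    ContDiff ℝ ∞ χ ∧ ContDiff ℝ ∞ ψ ∧ (∀ t, ‖t‖ < r' → χ t = 1 ∧ ψ t = 0) ∧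
    (∀ t, (r' + r) / 2 ≤ ‖t‖ → χ t = 0) ∧ (∀ t, r ≤ ‖t‖ → ψ t = 0) ∧ (∀ t, ‖χ t‖ ≤ 1) ∧
    (∀ t, ‖t‖ ≤ r → ‖ψ t‖ ≤ B) ∧
    (∀ m (c w : C2), dbar (fun w => χ (w m - c m)) w (ee m) = ψ (w m - c m)) ∧
    ∀ m m', m ≠ m' → ∀ c w : C2, dbar (fun w => χ (w m - c m)) w (ee m') = 0 := by
  let β : ContDiffBump (0 : ℂ) := ⟨r', (r' + r) / 2, h0, by linarith⟩
  have hχ : ContDiff ℝ ∞ fun t => (β t : ℂ) := Complex.ofRealCLM.contDiff.comp β.contDiff
  set χ : ℂ → ℂ := fun t => (β t : ℂ) with hc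
  have hf : ContDiff ℝ ∞ (fderiv ℝ χ) := hχ.fderiv_right (m := ∞) le_rfl
  have hψ : ContDiff ℝ ∞ fun t => 2⁻¹ * (fderiv ℝ χ t 1 + Complex.I * fderiv ℝ χ t Complex.I) :=
    contDiff_const.mul ((hf.clm_apply contDiff_const).add
      (contDiff_const.mul (hf.clm_apply contDiff_const)))
  have c1 : ∀ t, ‖t‖ < r' → χ t = 1 := fun t ht => by
    simp only [hc, β.one_of_mem_closedBall (mem_closedBall_zero_iff.2 ht.le), Complex.ofReal_one]
  have c0 : ∀ t, (r' + r) / 2 ≤ ‖t‖ → χ t = 0 := fun t ht => by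
    simp only [hc, β.zero_of_le_dist (show β.rOut ≤ dist t 0 by simpa using ht), Complex.ofReal_zero]
  obtain ⟨B, hB⟩ := (isCompact_closedBall (0 : ℂ) r).exists_bound_of_continuousOn
    hψ.continuous.continuousOn
  refine ⟨χ, _, B, (norm_nonneg _).trans (hB 0 (mem_closedBall_self (by linarith))), hχ, hψ,
    fun t ht => ⟨c1 t ht, ?_⟩, c0, fun t ht => ?_, fun t => ?_,
    fun t ht => hB t (mem_closedBall_zero_iff.2 ht), fun m c w => ?_, fun m m' hm c w => ?_⟩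
  · have e : χ =ᶠ[𝓝 t] fun _ => 1 :=
      ((isOpen_lt continuous_norm continuous_const).eventually_mem ht).mono c1
    simp [e.fderiv_eq]
  · have e : χ =ᶠ[𝓝 t] fun _ => 0 :=
      ((isOpen_lt continuous_const continuous_norm).eventually_mem
        (show (r' + r) / 2 < ‖t‖ by linarith)).mono fun s hs => c0 s (le_of_lt hs)
    simp [e.fderiv_eq]
  · simp only [hc, Complex.norm_real, Real.norm_eq_abs, abs_of_nonneg β.nonneg, β.le_one]
  · rw [dol_d hχ]
    simp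
  · rw [dol_d hχ]
    simp [hm]

theorem dol_mul {F G : C2 → ℂ} (hF : ContDiff ℝ ∞ F) (hG : ContDiff ℝ ∞ G) (z v : C2) :
    dbar (F * G) z v = F z * dbar G z v + G z * dbar F z v := by
  rw [dbar_mul' (hF.differentiable (by simp) z) (hG.differentiable (by simp) z)]
  rfl

theorem dol_ball {c z : C2} {r : ℝ} (h : z ∈ ball c r) (m : Fin 2) : ‖z m - c m‖ < r :=
  (norm_le_pi_norm (z - c) m).trans_lt (mem_ball_iff_norm.1 h)

/-- The Dolbeault lemma on polydiscs with bounds. -/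
theorem dol {r r' : ℝ} (h0 : 0 < r') (h : r' < r) : ∃ K : ℝ, 0 ≤ K ∧
    ∀ (c : C2) (ϖ : C2 → C2 →L[ℝ] ℂ), (∀ z ∈ ball c r, Anti (ϖ z)) →
      (∀ j, ∀ z ∈ ball c r, ContDiffAt ℝ ∞ (fun w => ϖ w (ee j)) z) →
      (∀ z ∈ ball c r, dbar (fun w => ϖ w (ee 1)) z (ee 0) = dbar (fun w => ϖ w (ee 0)) z (ee 1)) →
      ∃ u : C2 → ℂ, ContDiff ℝ ∞ u ∧ (∀ z ∈ ball c r', dbar u z = ϖ z) ∧
        (∀ D : ℝ, (∀ z ∈ ball c r, ‖ϖ z‖ ≤ D) → ∀ z ∈ ball c r', ‖u z‖ ≤ K * D) ∧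
        n2 (ball c r') u ≤ ENNReal.ofReal K ^ 2 * n2 (ball c r) ϖ := by
  obtain ⟨χ, ψ, B, B0, hχ, hψ, c1, c0, p0, cl, pl, d1, d0⟩ := dol_chi h0 h
  obtain ⟨A, A0, hA⟩ := cT_bd r
  refine ⟨2 * (A + A * (A * B)), by positivity, fun c ϖ hanti hsm hcl => ?_⟩
  obtain ⟨θ, hθ, -, θs, θ1, θl⟩ := exists_cut c (r := r) (r' := (r' + r) / 2) (by linarith)
    (by linarith)
  set a : Fin 2 → C2 → ℂ := fun j => θ * fun w => ϖ w (ee j) with ha
  set X : Fin 2 → C2 → ℂ := fun m w => χ (w m - c m) with hX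
  set Y : C2 → ℂ := fun w => ψ (w 0 - c 0) with hY
  have sa : ∀ j, ContDiff ℝ ∞ (a j) := fun j => cut_sm isOpen_ball (hsm j) hθ θs
  have sp : ∀ m : Fin 2, ContDiff ℝ ∞ fun w : C2 => w m - c m := fun m =>
    (contDiff_apply ℝ ℂ m).sub contDiff_const
  have sX : ∀ m, ContDiff ℝ ∞ (X m) := fun m => hχ.comp (sp m)
  have sY : ContDiff ℝ ∞ Y := hψ.comp (sp 0)
  have la : ∀ j w, ‖a j w‖ ≤ ‖ϖ w‖ := fun j w => by
    simp only [ha, Pi.mul_apply, norm_mul]
    exact (mul_le_of_le_one_left (norm_nonneg _) (θl w)).trans (norm_ee_le _ j)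
  have lX : ∀ m (G : C2 → ℂ) w, ‖(X m * G) w‖ ≤ ‖G w‖ := fun m G w => by
    simp only [hX, Pi.mul_apply, norm_mul]
    exact mul_le_of_le_one_left (norm_nonneg _) (cl _)
  have lY : ∀ w ∈ ball c r, ‖(Y * a 1) w‖ ≤ B * ‖ϖ w‖ := fun w hw => by
    simp only [hY, Pi.mul_apply, norm_mul]
    exact mul_le_mul (pl _ (dol_ball hw 0).le) (la 1 w) (norm_nonneg _) B0
  have zX : ∀ m (G : C2 → ℂ) w, r ≤ ‖w m - c m‖ → (X m * G) w = 0 := fun m G w hw => by
    simp only [hX, Pi.mul_apply, c0 _ (show (r' + r) / 2 ≤ ‖w m - c m‖ by linarith), zero_mul]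
  have zY : ∀ w, r ≤ ‖w 0 - c 0‖ → (Y * a 1) w = 0 := fun w hw => by
    simp only [hY, Pi.mul_apply, p0 _ hw, zero_mul]
  have ea : ∀ j, ∀ w ∈ ball c ((r' + r) / 2), a j =ᶠ[𝓝 w] fun w => ϖ w (ee j) := fun j w hw =>
    (isOpen_ball.eventually_mem hw).mono fun y hy => by
      simp only [ha, Pi.mul_apply, θ1 y (ball_subset_closedBall hy), one_mul]
  have s0 : ContDiff ℝ ∞ (X 0 * a 0) := (sX 0).mul (sa 0)
  have s01 : ContDiff ℝ ∞ (X 0 * a 1) := (sX 0).mul (sa 1)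
  have s1 : ContDiff ℝ ∞ (Y * a 1) := sY.mul (sa 1)
  have sb := cT_sm s1 zY
  set b := cT 0 (Y * a 1) with hb
  have s2 : ContDiff ℝ ∞ (X 1 * b) := (sX 1).mul sb
  have su1 := cT_sm s0 (zX 0 _)
  have su2 := cT_sm s2 (zX 1 _)
  obtain ⟨b0, n0⟩ := hA 0 c _ s0.continuous (zX 0 _)
  obtain ⟨b1, n1⟩ := hA 0 c _ s1.continuous zY
  obtain ⟨b2, n2'⟩ := hA 1 c _ s2.continuous (zX 1 _)
  have sub : ball c r' ⊆ ball c r := ball_subset_ball h.le
  refine ⟨cT 0 (X 0 * a 0) + cT 1 (X 1 * b), su1.add su2, fun z hz => ?_, fun D hD z hz => ?_, ?_⟩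
  · have hz' : z ∈ ball c ((r' + r) / 2) := ball_subset_ball (by linarith) hz
    have X1 : ∀ m, X m z = 1 := fun m => (c1 _ (dol_ball hz m)).1
    refine Anti.ext (anti_dbar _ _) (hanti z (sub hz)) fun j => ?_
    rw [dbar_add' (su1.differentiable (by simp) z) (su2.differentiable (by simp) z),
      ContinuousLinearMap.add_apply, dbar_cT s0 (zX 0 _), dbar_cT s2 (zX 1 _),
      show ϖ z (ee j) = a j z from (ea j z hz').self_of_nhds.symm]
    revert j
    rw [Fin.forall_fin_two]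
    constructor
    · rw [cT_dbar s0 (zX 0 _), cT_congr (K' := 0) fun t => ?_, cT_zero, add_zero, Pi.mul_apply, X1,
        one_mul]
      rw [dol_mul (sX 1) sb, d0 1 0 (by decide), hb, dbar_cT s1 zY, cT_dbar s1 zY]
      simp [hY, (c1 _ (dol_ball hz 0)).2]
    · have e1 : ∀ w, dbar (X 0 * a 1) w (ee 0) = X 0 w * dbar (a 1) w (ee 0) + (Y * a 1) w :=
        fun w => by rw [dol_mul (sX 0) (sa 1), d1, Pi.mul_apply, mul_comm (Y w)]
      rw [cT_dbar s2 (zX 1 _), cT_congr (K' := (fun w => dbar (X 0 * a 1) w (ee 0)) - Y * a 1)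
        fun t => ?_, cT_sub (c := c) (ρ := r) ?_ (fun w hw => ?_) s1.continuous zY, cT_dbar s01 (zX 0 _)]
      · simp only [Pi.mul_apply, X1, one_mul, hb, sub_add_cancel]
      · exact continuous_iff_continuousAt.2 fun w => (dbar_sm_apply s01.contDiffAt _).continuousAt
      · rw [e1, zY w hw, add_zero]
        exact zX 0 (fun w => dbar (a 1) w (ee 0)) w hw
      · rw [dol_mul (sX 0) (sa 0), d0 0 1 (by decide), Pi.sub_apply, e1, mul_zero, add_zero,
          add_sub_cancel_right]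
        by_cases hw : (r' + r) / 2 ≤ ‖(z + Pi.single 0 t : C2) 0 - c 0‖
        · simp only [hX, c0 _ hw, zero_mul]
        have hm : z + Pi.single 0 t ∈ ball c ((r' + r) / 2) := by
          rw [mem_ball_iff_norm, pi_norm_lt_iff (by linarith), Fin.forall_fin_two]
          exact ⟨not_le.1 hw, by simpa using dol_ball hz' 1⟩
        rw [dbar_congr' (ea 0 _ hm), dbar_congr' (ea 1 _ hm),
          hcl _ (ball_subset_ball (by linarith) hm)]
  · have D0 : 0 ≤ D := (norm_nonneg _).trans (hD z (sub hz))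
    have q0 := b0 D (fun w hw => (lX 0 _ w).trans ((la 0 w).trans (hD w hw))) z (sub hz)
    have q1 := b1 (B * D) fun w hw => (lY w hw).trans (mul_le_mul_of_nonneg_left (hD w hw) B0)
    have q2 := b2 _ (fun w hw => (lX 1 _ w).trans (q1 w hw)) z (sub hz)
    refine (norm_add_le _ _).trans ((add_le_add q0 q2).trans ?_)
    have : 0 ≤ A * D + A * (A * (B * D)) := by positivity
    linarith
  · have m0 := n2_le (c := 1) (g := ϖ) (measurableSet_ball (x := c) (ε := r))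
      fun w _ => (lX 0 (a 0) w).trans ((la 0 w).trans (one_mul _).ge)
    have m1 := n2_le measurableSet_ball lY
    have m2 := n2_le (c := 1) (g := b) (measurableSet_ball (x := c) (ε := r))
      fun w _ => (lX 1 b w).trans (one_mul _).ge
    rw [ENNReal.ofReal_one, one_pow, one_mul] at m0 m2
    have q0 := n0.trans (mul_le_mul_right m0 _)
    have q2 := n2'.trans (mul_le_mul_right (m2.trans (n1.trans (mul_le_mul_right m1 _))) _)
    refine (n2_mono_set sub).trans ((n2_le_add measurableSet_ball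
      su1.continuous.aestronglyMeasurable fun w _ => norm_add_le _ _).trans ?_)
    refine (add_le_add (mul_le_mul_right q0 _) (mul_le_mul_right q2 _)).trans ?_
    refine le_trans (le_of_eq ?_) (mul_le_mul_left (sq_add_le A0 (show 0 ≤ A * (A * B) by positivity)
      le_rfl le_rfl) _)
    rw [ENNReal.ofReal_mul A0, ENNReal.ofReal_mul A0]
    ring

/-- A smooth function is close to a holomorphic one. -/
theorem dol_hol {r r' : ℝ} (h0 : 0 < r') (h : r' < r) : ∃ K : ℝ, 0 ≤ K ∧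
    ∀ (c : C2) (v : C2 → ℂ), (∀ z ∈ ball c r, ContDiffAt ℝ ∞ v z) →
      ∃ H : C2 → ℂ, DifferentiableOn ℂ H (ball c r') ∧
        (∀ D : ℝ, (∀ z ∈ ball c r, ‖dbar v z‖ ≤ D) → ∀ z ∈ ball c r', ‖v z - H z‖ ≤ K * D) ∧
        n2 (ball c r') (v - H) ≤ ENNReal.ofReal K ^ 2 * n2 (ball c r) (dbar v) := by
  obtain ⟨K, K0, hK⟩ := dol h0 h
  refine ⟨K, K0, fun c v hv => ?_⟩
  obtain ⟨u, su, du, bu, nu⟩ := hK c (dbar v) (fun z _ => anti_dbar v z)
    (fun j z hz => dbar_sm_apply (hv z hz) _) fun z hz => dbar_dbar (hv z hz)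
  refine ⟨v - u, fun z hz => ?_, fun D hD z hz => ?_, by rwa [sub_sub_cancel]⟩
  · have d1 := (hv z (ball_subset_ball h.le hz)).differentiableAt (by simp)
    have d2 := su.differentiable (by simp) z
    exact (diff_of_dbar (d1.sub d2) (by rw [dbar_sub' d1 d2, du z hz, sub_self])).differentiableWithinAt
  · rw [Pi.sub_apply, sub_sub_cancel]
    exact bu D hD z hz

/-- The interior estimate. -/
theorem intr {ρ : ℝ} (hρ : 0 < ρ) : ∃ K : ℝ, 0 ≤ K ∧ ∀ (c : C2) (v : C2 → ℂ) (A D : ℝ), 0 ≤ A →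
    (∀ z ∈ ball c ρ, ContDiffAt ℝ ∞ v z ∧ ‖dbar v z‖ ≤ D) →
      n2 (ball c ρ) v ≤ ENNReal.ofReal A ^ 2 → ‖v c‖ ≤ K * (A + D) := by
  have h2 : 0 < ρ / 2 := half_pos hρ
  obtain ⟨K1, p1, h1⟩ := dol_hol h2 (half_lt_self hρ)
  obtain ⟨K2, p2, h2'⟩ := n2_const ρ
  obtain ⟨K3, p3, h3⟩ := hol_mean h2
  refine ⟨K1 + 2 * K3 + 2 * K3 * (K1 * K2), by positivity, fun c v A D A0 hv hA => ?_⟩
  obtain ⟨H, hH, b, n⟩ := h1 c v fun z hz => (hv z hz).1
  have D0 : 0 ≤ D := (norm_nonneg _).trans (hv c (mem_ball_self hρ)).2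
  have sub : ball c (ρ / 2) ⊆ ball c ρ := ball_subset_ball (half_le_self hρ.le)
  have q1 := b D (fun z hz => (hv z hz).2) c (mem_ball_self h2)
  have q2 : n2 (ball c (ρ / 2)) (v - H) ≤ ENNReal.ofReal (K1 * (K2 * D)) ^ 2 := by
    rw [ENNReal.ofReal_mul p1, mul_pow]
    exact n.trans (mul_le_mul_right (h2' c _ D fun z hz => (hv z hz).2) _)
  have cv : ContinuousOn v (ball c (ρ / 2)) := fun z hz =>
    (hv z (sub hz)).1.continuousAt.continuousWithinAt
  have q3 : n2 (ball c (ρ / 2)) H ≤ ENNReal.ofReal (2 * (A + K1 * (K2 * D))) ^ 2 :=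
    (n2_le_add (g := v) (h := v - H) measurableSet_ball (cv.aestronglyMeasurable measurableSet_ball)
      fun z _ => by
        have := norm_sub_le (v z) (v z - H z)
        rwa [sub_sub_cancel] at this).trans
      (sq_add_le A0 (by positivity) ((n2_mono_set sub).trans hA) q2)
  have q4 := h3 c H _ (by positivity) hH q3
  have q5 := norm_add_le (v c - H c) (H c)
  rw [sub_add_cancel] at q5
  have : 0 ≤ K1 * A + 2 * K3 * D + 2 * K3 * (K1 * K2) * A := by positivity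
  nlinarith

end Vale.Agent.P267
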