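import Vale.Agent.P267S.Geo
import Vale.Agent.P267S.Dol

/-! P267, solver part: forms in charts and framed bundles. -/

open scoped Manifold ContDiff Topology ENNReal Real
open Filter Metric Set MeasureTheory

noncomputable section

namespace Vale.Agent.P267

set_option linter.unusedSectionVars false

variable {M : Type} [TopologicalSpace M] [ChartedSpace C2 M] [T2Space M]

namespace Cov
variable (C : Cov M)

variable {α β : M → C2 →L[ℝ] ℂ} {p : M} {F : C.I → M → ℂ} {r r' B : ℝ}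

theorem frm_chain {P Q R : OpenPartialHomeomorph M C2} (hP : IsCh P) (hQ : IsCh Q) (hR : IsCh R)
    (hp : p ∈ P.source) (hq : p ∈ Q.source) (hr : p ∈ R.source) :
    fderiv ℂ (R ∘ P.symm) (P p) =
      (fderiv ℂ (R ∘ Q.symm) (Q p)).comp (fderiv ℂ (Q ∘ P.symm) (P p)) := by
  have e : R ∘ P.symm =ᶠ[𝓝 (P p)] (R ∘ Q.symm) ∘ (Q ∘ P.symm) := by
    filter_upwards [(P.tendsto_symm hp).eventually (Q.open_source.mem_nhds hq)] with z hz
    exact congrArg R (Q.left_inv hz).symm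
  have e1 : (Q ∘ P.symm) (P p) = Q p := congrArg _ (P.left_inv hp)
  rw [e.fderiv_eq, fderiv_comp _ (by rw [e1]; exact (hQ.tr hR hq hr).differentiableAt)
    (hP.tr hQ hp hq).differentiableAt, e1]

theorem cmp_tr {P Q : OpenPartialHomeomorph M C2} (hP : IsCh P) (hQ : IsCh Q)
    (hp : p ∈ P.source) (hq : p ∈ Q.source) : C.cmp P α (P p) =
      (C.cmp Q α (Q p)).comp ((fderiv ℂ (Q ∘ P.symm) (P p)).restrictScalars ℝ) := by
  rw [C.ac_cmp hp, C.ac_cmp hq, frm_chain hP hQ (C.isCh _) hp hq (C.ac_src p)]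
  rfl

theorem cmp_lin (P : OpenPartialHomeomorph M C2) (f : M → ℂ) (z : C2) :
    C.cmp P (fun q => α q - f q • β q) z = C.cmp P α z - f (P.symm z) • C.cmp P β z := rfl

theorem cmp_smul (P : OpenPartialHomeomorph M C2) (f : M → ℂ) (z : C2) :
    C.cmp P (fun q => f q • β q) z = f (P.symm z) • C.cmp P β z := rfl

theorem cmp_anti (P : OpenPartialHomeomorph M C2) {z : C2} (h : Anti (α (P.symm z))) :
    Anti (C.cmp P α z) := h.comp _

theorem cmp_pb {i : C.I} (b : C2 → C2 →L[ℝ] ℂ) (hp : p ∈ (C.ch i).source) :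
    C.cmp (C.ch i) (C.pb i b) (C.ch i p) = b (C.ch i p) := by
  ext1 v
  rw [C.ac_cmp hp]
  exact congrArg (b (C.ch i p)) (congrArg (fun L : C2 →L[ℂ] C2 => L v)
    ((C.isCh i).tr_comp (C.isCh (C.idx p)) hp (C.ac_src p)))

theorem pb_anti {i : C.I} {b : C2 → C2 →L[ℝ] ℂ} (h : Anti (b (C.ch i p))) :
    Anti (C.pb i b p) := h.comp _

theorem prim_iff {i : C.I} (hp : p ∈ (C.ch i).source) {a : M → ℂ} : C.Prim α a p ↔
    ∀ᶠ z in 𝓝 (C.ch i p), ContDiffAt ℝ ∞ (a ∘ (C.ch i).symm) z ∧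
      dbar (a ∘ (C.ch i).symm) z = C.cmp (C.ch i) α z := by
  refine ⟨fun h => ?_, fun h => ?_⟩
  · filter_upwards [((C.isCh i).sm p hp a).1 h.1, AD_db (C := C) (C.isCh i) hp h.1,
      AD_cmp (C := C) hp h.2] with z h1 h2 h3
    exact ⟨h1, h2.symm.trans h3⟩
  · have hs : SmAt a p := ((C.isCh i).sm p hp a).2 (h.mono fun _ hz => hz.1)
    refine ⟨hs, ?_⟩
    filter_upwards [((C.ch i).continuousAt hp).eventually h, C.sm_ev hs,
      (C.ch i).open_source.mem_nhds hp] with q h1 h2 h3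
    exact C.cmp_inj (C.isCh i) h3 ((C.cmp_db (C.isCh i) h3 h2).trans h1.2)

theorem sm_ball {i : C.I} (hr : r ≤ 4) {f : M → ℂ} (h : ∀ p ∈ C.U i r, SmAt f p) :
    ∀ z ∈ ball (0 : C2) r, ContDiffAt ℝ ∞ (f ∘ (C.ch i).symm) z := by
  intro z hz
  obtain ⟨h1, h2⟩ := C.symm_mem_U i hr (mem_ball_zero_iff.1 hz)
  have h3 := (((C.isCh i).sm _ h1.1 f).1 (h _ h1)).self_of_nhds
  rwa [h2] at h3

theorem hol_ball {i : C.I} (hr : r ≤ 4) {f : M → ℂ} (h : ∀ p ∈ C.U i r, HolAt f p) :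
    AnalyticOnNhd ℂ (f ∘ (C.ch i).symm) (ball 0 r) := by
  intro z hz
  obtain ⟨h1, h2⟩ := C.symm_mem_U i hr (mem_ball_zero_iff.1 hz)
  have h3 := ((C.isCh i).hol _ h1.1 f).1 (h _ h1)
  rwa [h2] at h3

/-- A holomorphic factor passes through the primitive. -/
theorem Prim.hol_mul {C : Cov M} {a f : M → ℂ} (h : C.Prim α a p) (hf : HolAt f p) :
    C.Prim (fun q => f q • α q) (f * a) p := by
  refine ⟨hf.smAt.mul h.1, ?_⟩
  filter_upwards [h.2, C.sm_ev h.1, C.hol_ev hf] with q h1 h2 h3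
  ext1 v
  rw [C.db_mul h3.smAt h2, C.db_hol h3, h1]
  simp

/-- The Dolbeault lemma on the charts with a bound. -/
theorem dolM (h0 : 0 < r') (h : r' < r) (hr : r ≤ 3) : ∃ K : ℝ, 0 ≤ K ∧
    ∀ (i : C.I) (α : M → C2 →L[ℝ] ℂ) (D : ℝ),
      (∀ p ∈ C.U i r, ‖α p‖ ≤ D ∧ ∃ a, C.Prim α a p) →
      ∃ g : M → ℂ, ∀ p ∈ C.U i r', C.Prim α g p ∧ ‖g p‖ ≤ K * D := by
  obtain ⟨K, K0, hK⟩ := dol h0 h
  obtain ⟨L, L0, hL⟩ := C.cmp_norm
  refine ⟨K * L, by positivity, fun i α D H => ?_⟩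
  have key : ∀ z ∈ ball (0 : C2) r, ‖C.cmp (C.ch i) α z‖ ≤ L * D ∧ ∃ a : C2 → ℂ,
      ∀ᶠ w in 𝓝 z, ContDiffAt ℝ ∞ a w ∧ dbar a w = C.cmp (C.ch i) α w := fun z hz => by
    obtain ⟨h1, h2⟩ := C.symm_mem_U i (by linarith : r ≤ 4) (mem_ball_zero_iff.1 hz)
    obtain ⟨h3, a, ha⟩ := H _ h1
    have h4 := (hL i α _ (C.U_mono i hr h1)).1
    have h5 := (C.prim_iff h1.1).1 ha
    rw [h2] at h4 h5
    exact ⟨h4.trans (mul_le_mul_of_nonneg_left h3 L0.le), _, h5⟩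
  obtain ⟨u, hu, h1, h2, -⟩ := hK 0 (C.cmp (C.ch i) α)
    (fun z hz => by
      obtain ⟨a, ha⟩ := (key z hz).2
      rw [← ha.self_of_nhds.2]
      exact anti_dbar _ _)
    (fun j z hz => by
      obtain ⟨a, ha⟩ := (key z hz).2
      exact (dbar_sm_apply ha.self_of_nhds.1 (ee j)).congr_of_eventuallyEq
        (ha.mono fun w hw => by simp only [hw.2]))
    (fun z hz => by
      obtain ⟨a, ha⟩ := (key z hz).2
      have e : ∀ j, (fun w => C.cmp (C.ch i) α w (ee j)) =ᶠ[𝓝 z] fun w => dbar a w (ee j) :=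
        fun j => ha.mono fun w hw => by simp only [hw.2]
      rw [dbar_congr' (e 1), dbar_congr' (e 0)]
      exact dbar_dbar ha.self_of_nhds.1)
  refine ⟨u ∘ C.ch i, fun p hp => ⟨(C.prim_iff hp.1).2 ?_, ?_⟩⟩
  · filter_upwards [isOpen_ball.mem_nhds (mem_ball_zero_iff.2 hp.2),
      (C.ch i).open_target.mem_nhds ((C.ch i).map_source hp.1)] with z hz hz'
    have e : (u ∘ C.ch i) ∘ (C.ch i).symm =ᶠ[𝓝 z] u := by
      filter_upwards [(C.ch i).open_target.mem_nhds hz'] with w hw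
      exact congrArg u ((C.ch i).right_inv hw)
    exact ⟨hu.contDiffAt.congr_of_eventuallyEq e, (dbar_congr' e).trans (h1 z hz)⟩
  · rw [mul_assoc]
    exact h2 _ (fun z hz => (key z hz).1) _ (mem_ball_zero_iff.2 hp.2)

variable {C}

theorem Fr.mono (h : C.Fr F r B) (hr : r' ≤ r) : C.Fr F r' B := 
  ⟨fun i p hp => h.ne i p (C.U_mono i hr hp),
    fun i j p hp => h.hol i j p ⟨C.U_mono i hr hp.1, C.U_mono j hr hp.2⟩,
    fun i p hp => h.bd i p (C.U_mono i hr hp)⟩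

theorem Fr.inv (h : C.Fr F r B) : C.Fr F⁻¹ r B := by
  refine ⟨fun i p hp => inv_ne_zero (h.ne i p hp), fun i j p hp => ?_, fun i p hp =>
    ⟨(h.bd i p hp).2, ?_⟩⟩
  · have e : F⁻¹ i / F⁻¹ j = F j / F i := funext fun q => inv_div_inv (F i q) (F j q)
    rw [e]
    exact h.hol j i p hp.symm
  · simpa using (h.bd i p hp).1

theorem fr_one (r : ℝ) : C.Fr 1 r 1 := 
  ⟨fun _ _ _ => one_ne_zero, fun _ _ _ _ => by simpa using holAt_one, fun _ _ _ => by simp⟩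

theorem Fr.ratio (h : C.Fr F r B) {i j : C.I} (hp : p ∈ C.U i r ∩ C.U j r) :
    ‖F i p / F j p‖ ≤ B ^ 2 := by
  rw [div_eq_mul_inv, norm_mul, sq]
  exact mul_le_mul (h.bd i p hp.1).1 (h.bd j p hp.2).2 (norm_nonneg _)
    ((norm_nonneg _).trans (h.bd i p hp.1).1)

theorem Tl.mono (h : C.Tl F r) (hr : r' ≤ r) : C.Tl F r' := 
  let ⟨δ, B, h0, h1⟩ := h
  ⟨δ, B, h0, fun i p hp => h1 i p (C.U_mono i hr hp)⟩

theorem Tl.inv (h : C.Tl F r) (hF : C.Fr F r B) : C.Tl F⁻¹ r := by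
  obtain ⟨δ, A, h0, h1⟩ := h
  refine ⟨δ, B * A, h0, fun i p hp => ?_⟩
  have e : F⁻¹ i p - 1 = -((F i p)⁻¹ * (F i p - 1)) := by
    rw [mul_sub, inv_mul_cancel₀ (hF.ne i p hp), mul_one, neg_sub]
    rfl
  rw [e, norm_neg, norm_mul, mul_assoc]
  exact mul_le_mul (hF.bd i p hp).2 (h1 i p hp) (norm_nonneg _)
    ((norm_nonneg _).trans (hF.bd i p hp).1)

theorem tl_one (r : ℝ) : C.Tl 1 r := ⟨1, 0, one_pos, fun _ _ _ => by simp⟩

theorem frm_ev (h : C.Fr F r B) (i : C.I) {j : C.I} (hp : p ∈ C.U j r) (s : M → ℂ) :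
    F i / F j * (F j * s) =ᶠ[𝓝 p] F i * s := by
  filter_upwards [(C.isOpen_U j r).mem_nhds hp] with q hq
  simp only [Pi.mul_apply, Pi.div_apply]
  rw [← mul_assoc, div_mul_cancel₀ _ (h.ne j q hq)]

/-- Change of the frame. -/
theorem Fr.hol_iff (h : C.Fr F r B) {i j : C.I} (hp : p ∈ C.U i r ∩ C.U j r) (s : M → ℂ) :
    HolAt (F i * s) p ↔ HolAt (F j * s) p := 
  ⟨fun k => ((h.hol j i p hp.symm).mul k).congr (frm_ev h j hp.1 s),
    fun k => ((h.hol i j p hp).mul k).congr (frm_ev h i hp.2 s)⟩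

theorem Fr.sm_iff (h : C.Fr F r B) {i j : C.I} (hp : p ∈ C.U i r ∩ C.U j r) (s : M → ℂ) :
    SmAt (F i * s) p ↔ SmAt (F j * s) p := 
  ⟨fun k => ((h.hol j i p hp.symm).smAt.mul k).congr (frm_ev h j hp.1 s),
    fun k => ((h.hol i j p hp).smAt.mul k).congr (frm_ev h i hp.2 s)⟩

/-- The dual frames. -/
theorem Fr.dual (h : C.Fr F r B) (hr : r ≤ 3) : ∃ B', C.Fr (C.kf / F) r B' := by
  obtain ⟨L, L0, hL⟩ := C.geo_kf
  refine ⟨L * B, fun i p hp => div_ne_zero (C.kf_ne hp.1) (h.ne i p hp), fun i j p hp => ?_,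
    fun i p hp => ⟨?_, ?_⟩⟩
  · have e : (C.kf / F) i / (C.kf / F) j = C.kf i / C.kf j * (F j / F i) := funext fun q => by
      simp only [Pi.mul_apply, Pi.div_apply]
      rw [div_div_div_comm, div_eq_mul_inv _ (F i q / F j q), inv_div]
    rw [e]
    exact (C.kf_hol hp.1.1 hp.2.1).mul (h.hol j i p hp.symm)
  · simp only [Pi.div_apply]
    rw [div_eq_mul_inv, norm_mul]
    exact mul_le_mul (hL i p (C.U_mono i hr hp)).1 (h.bd i p hp).2 (norm_nonneg _) L0.le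
  · simp only [Pi.div_apply]
    rw [inv_div, div_eq_inv_mul, norm_mul]
    exact mul_le_mul (hL i p (C.U_mono i hr hp)).2 (h.bd i p hp).1 (norm_nonneg _) L0.le

theorem SecF.big {s : M → ℂ} (hs : C.SecF F s) (h : C.Fr F r B) (hr : 1 ≤ r) (i : C.I) :
    ∀ p ∈ C.U i r, HolAt (F i * s) p := fun p hp =>
  (h.hol_iff ⟨hp, C.U_mono _ hr (C.mem_U_idx p)⟩ s).2 (hs _ p (C.mem_U_idx p))

end Cov

end Vale.Agent.P267
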