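import Vale.Agent.P267S.SA0

/-! P267, solver part A: barriers. -/

open scoped Manifold ContDiff Topology
open Filter Metric Set

noncomputable section

namespace Vale.Agent.P267

set_option linter.unusedSectionVars false

variable {M : Type} [TopologicalSpace M] [ChartedSpace C2 M] [T2Space M]

namespace Cov
variable {C : Cov M} {s : M → ℂ} {θ : ℝ}

theorem Sub.lin {B l D : ℝ} (h : C.Sub s θ fun _ => B) (hl : 0 ≤ l) (hB : B < l * θ)
    (hD : ∀ p, ‖s p‖ * Real.exp (l * C.t p) ≤ D) : s = 0 := by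
  funext p₀
  have : Nonempty M := ⟨p₀⟩
  have hb : BddAbove (range fun p => ‖s p‖ * Real.exp (l * C.t p)) := ⟨D, by
    rintro _ ⟨p, rfl⟩
    exact hD p⟩
  obtain ⟨m, hm⟩ : ∃ m, m = ⨆ p, ‖s p‖ * Real.exp (l * C.t p) := ⟨_, rfl⟩
  have h1 : ∀ p, ‖s p‖ * Real.exp (l * C.t p) ≤ m := fun p => hm ▸ le_ciSup hb p
  have h2 : ∀ p, ‖s p‖ * Real.exp (l * C.t p) ≤ Real.exp (B - l * θ) * m := fun p => by
    obtain ⟨q, -, hq⟩ := h p l hl
    have e1 : ‖s p‖ * Real.exp (l * C.t p) =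
        ‖s p‖ * Real.exp (l * θ) * Real.exp (l * C.t p - l * θ) := by
      rw [mul_assoc, ← Real.exp_add]; ring_nf
    have e2 : Real.exp B * (‖s q‖ * Real.exp (l * (C.t q - C.t p))) *
        Real.exp (l * C.t p - l * θ) = Real.exp (B - l * θ) * (‖s q‖ * Real.exp (l * C.t q)) := by
      have e3 : Real.exp B * Real.exp (l * (C.t q - C.t p)) * Real.exp (l * C.t p - l * θ) =
          Real.exp (B - l * θ) * Real.exp (l * C.t q) := by
        simp only [← Real.exp_add]; ring_nf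
      linear_combination ‖s q‖ * e3
    rw [e1]
    refine (mul_le_mul_of_nonneg_right hq (Real.exp_pos _).le).trans ?_
    rw [e2]
    exact mul_le_mul_of_nonneg_left (h1 q) (Real.exp_pos _).le
  have h3 : m ≤ Real.exp (B - l * θ) * m := by
    have := ciSup_le h2
    rwa [← hm] at this
  have h4 : Real.exp (B - l * θ) < 1 := Real.exp_lt_one_iff.2 (by linarith)
  have h5 : m ≤ 0 := by nlinarith
  have h6 := (h1 p₀).trans h5
  have h7 := Real.exp_pos (l * C.t p₀)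
  have h8 : ‖s p₀‖ ≤ 0 := by nlinarith
  exact norm_le_zero_iff.1 h8

theorem Sub.exp {B δ c : ℝ} (h : C.Sub s θ fun p => B * Real.exp (-δ * |C.t p|)) (hθ : 0 < θ)
    (hδ : 0 < δ) (hB : 0 ≤ B) (hg : C.Gr s c) (h0 : Tendsto s (comap C.t atTop) (𝓝 0)) :
    s = 0 := by
  funext p₀
  have : Nonempty M := ⟨p₀⟩
  by_contra hne
  have hs0 : 0 < ‖s p₀‖ := norm_pos_iff.2 hne
  obtain ⟨D, hD⟩ : ∃ D, D = 2 * C.R + 1 := ⟨_, rfl⟩
  obtain ⟨ε, hε, h1, h2, h3⟩ : ∃ ε : ℝ, 0 < ε ∧ ε ≤ δ ∧ ε * |D| ≤ 1 ∧ ε * D ^ 2 ≤ θ / 2 := by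
    have a1 : 0 < |D| + 1 := by positivity
    have a2 : 0 < D ^ 2 + 1 := by positivity
    refine ⟨min δ (min (1 / (|D| + 1)) (θ / 2 / (D ^ 2 + 1))), by positivity, min_le_left _ _,
      ?_, ?_⟩
    · have a3 : min δ (min (1 / (|D| + 1)) (θ / 2 / (D ^ 2 + 1))) ≤ 1 / (|D| + 1) :=
        (min_le_right _ _).trans (min_le_left _ _)
      have a4 : 0 < min δ (min (1 / (|D| + 1)) (θ / 2 / (D ^ 2 + 1))) := by positivity
      rw [le_div_iff₀ a1] at a3
      linarith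
    · have a3 : min δ (min (1 / (|D| + 1)) (θ / 2 / (D ^ 2 + 1))) ≤ θ / 2 / (D ^ 2 + 1) :=
        (min_le_right _ _).trans (min_le_right _ _)
      have a4 : 0 < min δ (min (1 / (|D| + 1)) (θ / 2 / (D ^ 2 + 1))) := by positivity
      rw [le_div_iff₀ a2] at a3
      linarith
  obtain ⟨A, hA⟩ : ∃ A, A = 2 * (B + 1) / (ε * θ) := ⟨_, rfl⟩
  have hA0 : 0 < A := by rw [hA]; positivity
  have hA1 : A * ε * θ = 2 * (B + 1) := by rw [hA]; field_simp
  obtain ⟨Φ, hΦ⟩ : ∃ Φ : M → ℝ, Φ = fun p => ‖s p‖ * Real.exp (-(A * Real.exp (-ε * C.t p))) :=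
    ⟨_, rfl⟩
  have hΦs : ∀ p, Φ p ≤ ‖s p‖ := fun p => by
    rw [hΦ]
    exact mul_le_of_le_one_right (norm_nonneg _) (Real.exp_le_one_iff.2 (by
      have := Real.exp_pos (-ε * C.t p)
      nlinarith))
  have tail : ∀ η : ℝ, 0 < η → ∃ T, ∀ p, T ≤ C.t p → ‖s p‖ ≤ η := fun η hη => by
    have a1 := (tendsto_zero_iff_norm_tendsto_zero.1 h0).eventually (ge_mem_nhds hη)
    rw [eventually_comap, eventually_atTop] at a1
    obtain ⟨T, hT⟩ := a1
    exact ⟨T, fun p hp => hT _ hp p rfl⟩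
  have hb : BddAbove (range Φ) := by
    obtain ⟨T, hT⟩ := tail 1 one_pos
    obtain ⟨K, hK⟩ := hg
    refine ⟨max 1 (|K| * Real.exp (|c| * |T| + c ^ 2 / (2 * (A * ε ^ 2)))), ?_⟩
    rintro _ ⟨p, rfl⟩
    rcases le_total T (C.t p) with hp | hp
    · exact ((hΦs p).trans (hT p hp)).trans (le_max_left _ _)
    refine le_trans ?_ (le_max_right _ _)
    have a1 : ‖s p‖ ≤ |K| * Real.exp (|c| * |C.t p|) := (hK p).trans
      (mul_le_mul (le_abs_self K) (Real.exp_le_exp.2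
        (mul_le_mul_of_nonneg_right (le_abs_self c) (abs_nonneg _))) (Real.exp_pos _).le
        (abs_nonneg K))
    have a2 : |c| * |C.t p| + -(A * Real.exp (-ε * C.t p)) ≤
        |c| * |T| + c ^ 2 / (2 * (A * ε ^ 2)) := by
      have b0 : 0 ≤ c ^ 2 / (2 * (A * ε ^ 2)) := by positivity
      have b1 := Real.exp_pos (-ε * C.t p)
      have b2 := abs_nonneg c
      rcases le_total 0 (C.t p) with ht | ht
      · have b3 : |C.t p| ≤ |T| := by rw [abs_of_nonneg ht]; exact hp.trans (le_abs_self T)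
        nlinarith
      · have b3 := Real.quadratic_le_exp_of_nonneg (x := -ε * C.t p) (by nlinarith)
        have b4 : |c| * |C.t p| ≤ A * ((-ε * C.t p) ^ 2 / 2) + c ^ 2 / (2 * (A * ε ^ 2)) := by
          have b5 : 0 < A * ε ^ 2 := by positivity
          have b6 : A * ((-ε * C.t p) ^ 2 / 2) + c ^ 2 / (2 * (A * ε ^ 2)) - |c| * |C.t p| =
              (A * ε ^ 2 * |C.t p| - |c|) ^ 2 / (2 * (A * ε ^ 2)) := by
            rw [← sq_abs c, mul_pow, ← sq_abs (C.t p)]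
            field_simp
            ring
          have b7 : 0 ≤ (A * ε ^ 2 * |C.t p| - |c|) ^ 2 / (2 * (A * ε ^ 2)) := by positivity
          linarith
        have b8 : 0 ≤ -ε * C.t p := by nlinarith
        have b9 : A * ((-ε * C.t p) ^ 2 / 2) ≤ A * Real.exp (-ε * C.t p) :=
          mul_le_mul_of_nonneg_left (by linarith) hA0.le
        have b10 := mul_nonneg b2 (abs_nonneg T)
        linarith
    calc Φ p ≤ |K| * Real.exp (|c| * |C.t p|) * Real.exp (-(A * Real.exp (-ε * C.t p))) := by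
          rw [hΦ]
          exact mul_le_mul_of_nonneg_right a1 (Real.exp_pos _).le
      _ = |K| * Real.exp (|c| * |C.t p| + -(A * Real.exp (-ε * C.t p))) := by
          rw [mul_assoc, ← Real.exp_add]
      _ ≤ _ := mul_le_mul_of_nonneg_left (Real.exp_le_exp.2 a2) (abs_nonneg K)
  obtain ⟨m, hm⟩ : ∃ m, m = ⨆ p, Φ p := ⟨_, rfl⟩
  have h4 : ∀ p, Φ p ≤ m := fun p => hm ▸ le_ciSup hb p
  have hm0 : 0 < m := lt_of_lt_of_le (by rw [hΦ]; positivity) (h4 p₀)
  have h5 : ∀ p, Φ p ≤ m * Real.exp (-Real.exp (-ε * C.t p)) := fun p => by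
    obtain ⟨E, hE⟩ : ∃ E, E = Real.exp (-ε * C.t p) := ⟨_, rfl⟩
    have hE0 : 0 < E := hE ▸ Real.exp_pos _
    obtain ⟨q, hq1, hq⟩ := h p (A * ε * E) (by positivity)
    obtain ⟨u, hu⟩ : ∃ u, u = C.t q - C.t p := ⟨_, rfl⟩
    rw [← hu] at hq hq1
    rw [← hD] at hq1
    have a1 : |(-ε * u)| ≤ 1 := by
      rw [abs_mul, abs_neg, abs_of_pos hε]
      exact (mul_le_mul_of_nonneg_left (hq1.trans (le_abs_self D)) hε.le).trans h2
    have a2 := (abs_le.1 (Real.abs_exp_sub_one_sub_id_le a1)).2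
    have a3 : u ^ 2 ≤ D ^ 2 := sq_le_sq' (abs_le.1 hq1).1 (abs_le.1 hq1).2
    have a4 : Real.exp (-ε * C.t q) = E * Real.exp (-ε * u) := by
      rw [hE, ← Real.exp_add, hu]; ring_nf
    have a5 : Real.exp (-δ * |C.t p|) ≤ E := by
      rw [hE]
      refine Real.exp_le_exp.2 ?_
      nlinarith [le_abs_self (C.t p), abs_nonneg (C.t p)]
    have a6 : ε * u ^ 2 ≤ θ / 2 := (mul_le_mul_of_nonneg_left a3 hε.le).trans h3
    have a7 : A * E * Real.exp (-ε * u) ≤ A * E * (1 + -ε * u + (-ε * u) ^ 2) :=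
      mul_le_mul_of_nonneg_left (by linarith) (by positivity)
    have a8 : A * ε * E * (ε * u ^ 2) ≤ A * ε * E * (θ / 2) :=
      mul_le_mul_of_nonneg_left a6 (by positivity)
    have a9 : B * Real.exp (-δ * |C.t p|) ≤ B * E := mul_le_mul_of_nonneg_left a5 hB
    have a10 : A * ε * E * θ = 2 * (B + 1) * E := by rw [← hA1]; ring
    have a11 : B * Real.exp (-δ * |C.t p|) + A * ε * E * u + (-(A * E) - A * ε * E * θ) ≤
        -(A * (E * Real.exp (-ε * u))) + -E := by nlinarith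
    have a12 : Φ p = ‖s p‖ * Real.exp (A * ε * E * θ) * Real.exp (-(A * E) - A * ε * E * θ) := by
      rw [hΦ, mul_assoc, ← Real.exp_add, hE]; ring_nf
    rw [a12, ← hE]
    calc ‖s p‖ * Real.exp (A * ε * E * θ) * Real.exp (-(A * E) - A * ε * E * θ)
        ≤ Real.exp (B * Real.exp (-δ * |C.t p|)) * (‖s q‖ * Real.exp (A * ε * E * u)) *
            Real.exp (-(A * E) - A * ε * E * θ) :=
          mul_le_mul_of_nonneg_right hq (Real.exp_pos _).le
      _ = ‖s q‖ * Real.exp (B * Real.exp (-δ * |C.t p|) + A * ε * E * u +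
            (-(A * E) - A * ε * E * θ)) := by
          rw [Real.exp_add, Real.exp_add]; ring
      _ ≤ ‖s q‖ * Real.exp (-(A * (E * Real.exp (-ε * u))) + -E) :=
          mul_le_mul_of_nonneg_left (Real.exp_le_exp.2 a11) (norm_nonneg _)
      _ = Φ q * Real.exp (-E) := by rw [hΦ, Real.exp_add, ← a4, mul_assoc]
      _ ≤ m * Real.exp (-E) := mul_le_mul_of_nonneg_right (h4 q) (Real.exp_pos _).le
  obtain ⟨T, hT⟩ := tail (m / 2) (by positivity)
  have h6 : ∀ p, Φ p ≤ max (m / 2) (m * Real.exp (-Real.exp (-ε * T))) := fun p => by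
    rcases le_total T (C.t p) with hp | hp
    · exact ((hΦs p).trans (hT p hp)).trans (le_max_left _ _)
    · refine ((h5 p).trans (mul_le_mul_of_nonneg_left (Real.exp_le_exp.2 (neg_le_neg
        (Real.exp_le_exp.2 (by nlinarith)))) hm0.le)).trans (le_max_right _ _)
  have h7 := ciSup_le h6
  rw [← hm] at h7
  have h8 : Real.exp (-Real.exp (-ε * T)) < 1 :=
    Real.exp_lt_one_iff.2 (neg_lt_zero.2 (Real.exp_pos _))
  exact absurd h7 (not_le.2 (max_lt (by linarith) (by nlinarith)))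

end Cov

end Vale.Agent.P267
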