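import Vale.Agent.P267.AG
import Vale.Agent.P267.AE

/-! P267, solver part: framed bundles and the inner contracts. -/

open scoped Manifold ContDiff Topology ENNReal
open Filter Metric Set MeasureTheory

noncomputable section

namespace Vale.Agent.P267

/-- The square of the `L²` norm on a set. -/
def n2 {E : Type} [ENorm E] (W : Set C2) (f : C2 → E) : ℝ≥0∞ := ∫⁻ z in W, ‖f z‖ₑ ^ 2

/-- The coordinate vectors. -/
abbrev ee (j : Fin 2) : C2 := Pi.single j 1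

/-- The coefficient of the product of two forms of type (0,1). -/
def w2 (a b : C2 →L[ℝ] ℂ) : ℂ := a (ee 0) * b (ee 1) - a (ee 1) * b (ee 0)

/-- Antilinear forms. -/
def Anti (a : C2 →L[ℝ] ℂ) : Prop := ∀ (c : ℂ) (v : C2), a (c • v) = (starRingEnd ℂ) c * a v

/-- Sequences that are Cauchy in `L²`. -/
def Cau (W : Set C2) (f : ℕ → C2 → ℂ) : Prop :=
  Tendsto (fun x : ℕ × ℕ => n2 W (f x.1 - f x.2)) atTop (𝓝 0)

variable {M : Type} [TopologicalSpace M] [ChartedSpace C2 M]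

namespace Cov
variable (C : Cov M)

/-- Holomorphic frames on all charts; a section is a function `s`, with expression `F i * s`. -/
structure Fr (F : C.I → M → ℂ) (r B : ℝ) : Prop where
  ne : ∀ i, ∀ p ∈ C.U i r, F i p ≠ 0
  hol : ∀ i j, ∀ p ∈ C.U i r ∩ C.U j r, HolAt (F i / F j) p
  bd : ∀ i, ∀ p ∈ C.U i r, ‖F i p‖ ≤ B ∧ ‖(F i p)⁻¹‖ ≤ B

/-- The weight centred at the level `c`. -/
def wt (δ : ℝ) (c : ℤ) (i : C.I) : ℝ := Real.exp (-δ * |(i.2 : ℝ) - c|)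

/-- The frames tend to one at both ends. -/
def Tl (F : C.I → M → ℂ) (r : ℝ) : Prop :=
  ∃ δ B : ℝ, 0 < δ ∧ ∀ i, ∀ p ∈ C.U i r, ‖F i p - 1‖ ≤ B * C.wt δ 0 i

/-- `F` are frames of the bundle `u`. -/
def Rep (u : M → M → ℂ) (F : C.I → M → ℂ) (r : ℝ) : Prop :=
  ∀ i, ∀ p ∈ C.U i r, HolAt (F i / u p) p ∧ HolAt (u p / F i) p

/-- Holomorphic sections of a framed bundle. -/
def SecF (F : C.I → M → ℂ) (s : M → ℂ) : Prop := ∀ i, ∀ p ∈ C.U i 1, HolAt (F i * s) p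

/-- Exponential growth. -/
def Gr (s : M → ℂ) (δ : ℝ) : Prop := ∃ B, ∀ p, ‖s p‖ ≤ B * Real.exp (δ * |C.t p|)

/-- `s` is close to a holomorphic function on the chart `i`. -/
def Near (s : M → ℂ) (i : C.I) (r ε : ℝ) : Prop :=
  ∃ H : M → ℂ, ∀ p ∈ C.U i r, HolAt H p ∧ ‖s p - H p‖ ≤ ε

/-- The dual bundle has no section of exponential growth. -/
def NoSec (F : C.I → M → ℂ) : Prop := ∀ s δ, C.SecF (C.kf / F) s → C.Gr s δ → s = 0

/-- No limit of translates of the bundles `G n` has a dual section of exponential growth. -/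
def NoLim (G : ℕ → C.I → M → ℂ) (r : ℝ) : Prop :=
  ∀ (φ : ℕ → ℕ) (k : ℕ → ℤ) (F : C.I → M → ℂ), Tendsto φ atTop atTop →
    (∀ i, ∀ p ∈ C.U i r, Tendsto (fun m => G (φ m) (i.1, i.2 - k m) ((C.g ^ k m) p))
      (hyperfilter ℕ) (𝓝 (F i p))) → C.NoSec F

/-- The expression in the chart `i` of a section of the dual bundle. -/
def du (F : C.I → M → ℂ) (η : M → ℂ) (i : C.I) : C2 → ℂ :=
  (C.kf i / F i * η) ∘ (C.ch i).symm

/-- Test sections of the dual bundle. -/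
structure Tst (F : C.I → M → ℂ) (r : ℝ) (η : M → ℂ) : Prop where
  sm : ∀ i, ∀ p ∈ C.U i r, SmAt (C.kf i / F i * η) p
  supp : ∃ T : ℝ, ∀ p, T ≤ |C.t p| → η p = 0

/-- The a priori inequality. -/
def AP (F : C.I → M → ℂ) (r r₀ δ K : ℝ) : Prop :=
  ∀ (c : ℤ) (D : ℝ) (η : M → ℂ), 0 ≤ D → C.Tst F r η →
    (∀ i, n2 (ball 0 r₀) (dbar (C.du F η i)) ≤ ENNReal.ofReal (D / C.wt δ c i) ^ 2) →
    ∀ i, n2 (ball 0 r₀) (C.du F η i) ≤ ENNReal.ofReal (K * D / C.wt δ c i) ^ 2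

/-- The difference of two local forms, in the frame `i`. -/
def df (F : C.I → M → ℂ) (α : C.I → M → C2 →L[ℝ] ℂ) (i j : C.I) : M → C2 →L[ℝ] ℂ :=
  fun q => α i q - (F i q / F j q) • α j q

/-- Local forms whose differences are closed, small away from the level `c`. -/
structure Dat (F : C.I → M → ℂ) (r δ : ℝ) (c : ℤ) (D : ℝ) (α : C.I → M → C2 →L[ℝ] ℂ) :
    Prop where
  pos : 0 ≤ D
  sm : ∀ i, ∀ p ∈ C.U i r, C.SmF (α i) p
  bd : ∀ i, ∀ p ∈ C.U i r, ‖α i p‖ ≤ D * C.wt (2 * δ) c i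
  cl : ∀ i j, ∀ p ∈ C.U i r ∩ C.U j r, ∃ a, C.Prim (C.df F α i j) a p

/-- The vanishing of the second cohomology with decay. -/
def S2 (F : C.I → M → ℂ) (r r' δ K : ℝ) : Prop :=
  ∀ c D α, C.Dat F r δ c D α → ∃ f : C.I → M → ℂ,
    (∀ i, ∀ p ∈ C.U i r', ‖f i p‖ ≤ K * D * C.wt δ c i) ∧
    ∀ i j, ∀ p ∈ C.U i r' ∩ C.U j r', C.Prim (C.df F α i j) (F i * (f i - f j)) p

/-- A holomorphic cochain with a small defect is close to a cocycle. -/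
def S2c (F : C.I → M → ℂ) (r r' δ K : ℝ) : Prop :=
  ∀ (c : ℤ) (D : ℝ) (γ : C.I → C.I → M → ℂ), 0 ≤ D →
    (∀ i j, ∀ p ∈ C.U i r ∩ C.U j r, HolAt (F i * γ i j) p) →
    (∀ i j l, ∀ p ∈ C.U i r ∩ C.U j r ∩ C.U l r,
      ‖γ i j p + γ j l p - γ i l p‖ ≤ D * C.wt (2 * δ) c i) →
    ∃ h : C.I → C.I → M → ℂ,
      (∀ i j, ∀ p ∈ C.U i r' ∩ C.U j r',
        HolAt (F i * h i j) p ∧ ‖h i j p - γ i j p‖ ≤ K * D * C.wt δ c i) ∧
      ∀ i j l, ∀ p ∈ C.U i r' ∩ C.U j r' ∩ C.U l r', h i j p + h j l p = h i l p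

/-- A holomorphic structure with a tail on the smooth bundle `E`: the frames are
`Φ i * exp (a i)`. -/
structure Str (E : M → M → ℂ) (Φ a : C.I → M → ℂ) (δ B : ℝ) (T : ℤ) : Prop where
  pos : 0 < δ
  ne : ∀ i, ∀ p ∈ (C.ch i).source, Φ i p ≠ 0 ∧ SmAt (Φ i / E p) p
  one : ∀ i : C.I, T ≤ |i.2| → ∀ p ∈ (C.ch i).source, Φ i p = 1 ∧ E p = 1
  sm : ∀ i, ∀ p ∈ C.U i (5 / 2), SmAt (a i) p
  bd : ∀ i, ∀ p ∈ C.U i (5 / 2), ‖a i p‖ ≤ B * C.wt δ 0 i ∧ ‖C.db (a i) p‖ ≤ B * C.wt δ 0 i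
  nor : ∀ p (W : Finset C.I), (∀ i, p ∈ (C.ch i).source → i ∈ W) →
    ∑ i ∈ W, (C.rho i p : ℂ) * a i p = 0
  fr : C.Fr (fun i p => Φ i p * Complex.exp (a i p)) (5 / 2) B

/-- Decaying cocycles with primitives on the charts are coboundaries of bounded sections. -/
def S1F (F : C.I → M → ℂ) (r : ℝ) : Prop :=
  ∀ (P : C.I → M → ℂ) (ε B : ℝ), 0 < ε →
    (∀ i j, ∀ p ∈ C.U i r ∩ C.U j r, HolAt (F i * (P i - P j)) p) →
    (∀ i, ∀ p ∈ C.U i r, ‖P i p‖ ≤ B * C.wt ε 0 i) →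
    ∃ w, Bdd w ∧ ∀ i, ∀ p ∈ C.U i 1, HolAt (F i * (P i - w)) p

/-- No twisted canonical section. -/
def NoK : Prop := ∀ (c : ℂ) (s : M → ℂ), Sec C.κ s → (∀ p, s (C.g p) = c * s p) → s = 0

/-- The bundle given by frames on the charts. -/
def bun (F : C.I → M → ℂ) : M → M → ℂ := fun p => F (C.idx p)

end Cov

end Vale.Agent.P267
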