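import Vale.Agent.P267S.Frm

/-! P267, solver part: change of variables between charts. -/

open scoped Manifold ContDiff Topology ENNReal Real
open Filter Metric Set MeasureTheory

noncomputable section

namespace Vale.Agent.P267

set_option linter.unusedSectionVars false

variable {M : Type} [TopologicalSpace M] [ChartedSpace C2 M] [T2Space M]

namespace Cov
variable (C : Cov M)

variable {i j : C.I} {W : Set M} {F : C.I → M → ℂ} {r B : ℝ}


theorem cv_det (A : C2 →L[ℂ] C2) : |(A.restrictScalars ℝ).det| = ‖A.det‖ ^ 2 := by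
  have h := LinearMap.det_restrictScalars (R := ℝ) (f := (A : C2 →ₗ[ℂ] C2))
  rw [Algebra.norm_complex_apply, Complex.normSq_eq_norm_sq] at h
  exact (congrArg abs h).trans (abs_of_nonneg (sq_nonneg _))

theorem cv_der (hi : W ⊆ (C.ch i).source) (hj : W ⊆ (C.ch j).source) :
    ∀ z ∈ C.ch i '' W, HasFDerivWithinAt (C.ch j ∘ (C.ch i).symm)
      ((fderiv ℂ (C.ch j ∘ (C.ch i).symm) z).restrictScalars ℝ) (C.ch i '' W) z := by
  rintro _ ⟨p, hp, rfl⟩
  exact (((C.isCh i).tr (C.isCh j) (hi hp) (hj hp)).differentiableAt.hasFDerivAt.restrictScalars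
    ℝ).hasFDerivWithinAt

theorem cv_inj (hi : W ⊆ (C.ch i).source) (hj : W ⊆ (C.ch j).source) :
    InjOn (C.ch j ∘ (C.ch i).symm) (C.ch i '' W) := by
  rintro _ ⟨p, hp, rfl⟩ _ ⟨q, hq, rfl⟩ h
  simp only [Function.comp_apply, (C.ch i).left_inv (hi hp), (C.ch i).left_inv (hi hq)] at h
  rw [(C.ch j).injOn (hj hp) (hj hq) h]

theorem cv_img (hi : W ⊆ (C.ch i).source) :
    C.ch j '' W = (C.ch j ∘ (C.ch i).symm) '' (C.ch i '' W) := by
  rw [image_image]
  exact image_congr fun p hp => by rw [Function.comp_apply, (C.ch i).left_inv (hi hp)]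

theorem cv_l (hW : IsOpen W) (hi : W ⊆ (C.ch i).source) (hj : W ⊆ (C.ch j).source)
    (f : M → ℝ≥0∞) :
    ∫⁻ z in C.ch i '' W, ‖C.kf i ((C.ch i).symm z)‖ₑ ^ 2 * f ((C.ch i).symm z) =
      ∫⁻ z in C.ch j '' W, ‖C.kf j ((C.ch j).symm z)‖ₑ ^ 2 * f ((C.ch j).symm z) := by

  have ms := (C.isOpen_img i hW hi).measurableSet
  rw [C.cv_img (j := j) hi, lintegral_image_eq_lintegral_abs_det_fderiv_mul volume ms
    (C.cv_der hi hj) (C.cv_inj hi hj)]
  refine setLIntegral_congr_fun ms ?_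
  rintro _ ⟨p, hp, rfl⟩
  simp only [Function.comp_apply, (C.ch i).left_inv (hi hp), (C.ch j).left_inv (hj hp)]
  rw [cv_det, C.kf_tr (hi hp) (hj hp), enorm_mul, mul_pow, mul_assoc,
    ENNReal.ofReal_pow (norm_nonneg _), ofReal_norm]

theorem cv_i (hW : IsOpen W) (hi : W ⊆ (C.ch i).source) (hj : W ⊆ (C.ch j).source)
    (f : M → ℂ) :
    ∫ z in C.ch i '' W, (‖C.kf i ((C.ch i).symm z)‖ : ℂ) ^ 2 * f ((C.ch i).symm z) =
      ∫ z in C.ch j '' W, (‖C.kf j ((C.ch j).symm z)‖ : ℂ) ^ 2 * f ((C.ch j).symm z) := by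

  have ms := (C.isOpen_img i hW hi).measurableSet
  rw [C.cv_img (j := j) hi, integral_image_eq_integral_abs_det_fderiv_smul volume ms
    (C.cv_der hi hj) (C.cv_inj hi hj)]
  refine setIntegral_congr_fun ms ?_
  rintro _ ⟨p, hp, rfl⟩
  simp only [Function.comp_apply, (C.ch i).left_inv (hi hp), (C.ch j).left_inv (hj hp)]
  rw [cv_det, C.kf_tr (hi hp) (hj hp), norm_mul, Complex.real_smul]
  push_cast
  ring

theorem cv_n2 : ∃ L : ℝ, 0 < L ∧ ∀ (i j : C.I) (W : Set M), IsOpen W → W ⊆ C.U i 3 ∩ C.U j 3 →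
    ∀ {E : Type} [NormedAddCommGroup E] (f : M → E), n2 (C.ch i '' W) (f ∘ (C.ch i).symm) ≤
      ENNReal.ofReal L ^ 2 * n2 (C.ch j '' W) (f ∘ (C.ch j).symm) := by

  obtain ⟨L, hL, h⟩ := C.geo_kf
  refine ⟨L * L, mul_pos hL hL, fun i j W hW hs E _ f => ?_⟩
  have hi : W ⊆ (C.ch i).source := fun p hp => (hs hp).1.1
  have hj : W ⊆ (C.ch j).source := fun p hp => (hs hp).2.1
  have e : ∀ (l : C.I), n2 (C.ch l '' W) ((fun p => ‖C.kf l p‖ * ‖f p‖) ∘ (C.ch l).symm) =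
      ∫⁻ z in C.ch l '' W, ‖C.kf l ((C.ch l).symm z)‖ₑ ^ 2 * ‖f ((C.ch l).symm z)‖ₑ ^ 2 := by
    intro l
    refine lintegral_congr fun z => ?_
    simp only [Function.comp_apply, enorm_mul, enorm_norm, mul_pow]
  have a1 : n2 (C.ch i '' W) (f ∘ (C.ch i).symm) ≤ ENNReal.ofReal L ^ 2 *
      n2 (C.ch i '' W) ((fun p => ‖C.kf i p‖ * ‖f p‖) ∘ (C.ch i).symm) := by
    refine n2_le (C.isOpen_img i hW hi).measurableSet ?_
    rintro _ ⟨p, hp, rfl⟩
    simp only [Function.comp_apply, (C.ch i).left_inv (hi hp), norm_mul, norm_norm]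
    have h1 := (h i p (hs hp).1).2
    have h2 := norm_pos_iff.2 (C.kf_ne (hi hp))
    rw [norm_inv, inv_le_iff_one_le_mul₀ h2] at h1
    rw [← mul_assoc]
    exact le_mul_of_one_le_left (norm_nonneg _) h1
  have a2 : n2 (C.ch j '' W) ((fun p => ‖C.kf j p‖ * ‖f p‖) ∘ (C.ch j).symm) ≤
      ENNReal.ofReal L ^ 2 * n2 (C.ch j '' W) (f ∘ (C.ch j).symm) := by
    refine n2_le (C.isOpen_img j hW hj).measurableSet ?_
    rintro _ ⟨p, hp, rfl⟩
    simp only [Function.comp_apply, (C.ch j).left_inv (hj hp), norm_mul, norm_norm]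
    exact mul_le_mul_of_nonneg_right (h j p (hs hp).2).1 (norm_nonneg _)
  rw [e, C.cv_l hW hi hj fun p => ‖f p‖ₑ ^ 2, ← e] at a1
  rw [ENNReal.ofReal_mul hL.le, mul_pow, mul_assoc]
  exact a1.trans (mul_le_mul_right a2 _)

theorem cv_meas (hW : IsOpen W) (hi : W ⊆ (C.ch i).source) (hj : W ⊆ (C.ch j).source)
    {f : M → ℂ} (h : AEStronglyMeasurable (f ∘ (C.ch j).symm) (volume.restrict (C.ch j '' W))) :
    AEStronglyMeasurable (f ∘ (C.ch i).symm) (volume.restrict (C.ch i '' W)) := by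

  have ms := (C.isOpen_img i hW hi).measurableSet
  have hd := C.cv_der hi hj
  rw [C.cv_img (j := j) hi, ← map_withDensity_abs_det_fderiv_eq_addHaar volume
    ms.nullMeasurableSet hd (C.cv_inj hi hj)] at h
  have hT : AEMeasurable (C.ch j ∘ (C.ch i).symm) (volume.restrict (C.ch i '' W)) :=
    ContinuousOn.aemeasurable (fun z hz => (hd z hz).continuousWithinAt) ms
  have h1 := h.comp_aemeasurable (hT.mono_ac (withDensity_absolutelyContinuous _ _))
  have h2 := h1.mono_ac (withDensity_absolutelyContinuous'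
    (aemeasurable_ofReal_abs_det_fderivWithin volume ms hd) ((ae_restrict_iff' ms).2
      (ae_of_all _ (by
        rintro _ ⟨p, hp, rfl⟩
        have h3 := C.kf_ne (hi hp)
        rw [C.kf_tr (hi hp) (hj hp)] at h3
        rw [cv_det]
        exact (ENNReal.ofReal_pos.2 (pow_pos (norm_pos_iff.2 (left_ne_zero_of_mul h3)) 2)).ne'))))
  refine h2.congr ((ae_restrict_iff' ms).2 (ae_of_all _ ?_))
  rintro _ ⟨p, hp, rfl⟩
  simp only [Function.comp_apply, (C.ch i).left_inv (hi hp), (C.ch j).left_inv (hj hp)]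

/-- The pairing does not depend on the chart. -/
theorem pair_int (hF : C.Fr F r B) (hW : IsOpen W) (hij : W ⊆ C.U i r ∩ C.U j r)
    {η : M → ℂ} (hη : ∀ p ∈ W, SmAt (C.kf i / F i * η) p) {β : M → C2 →L[ℝ] ℂ}
    (hβ : ∀ p ∈ W, Anti (β p)) :
    ∫ z in C.ch i '' W, w2 (C.cmp (C.ch i) (fun q => F i q • β q) z) (dbar (C.du F η i) z) =
      ∫ z in C.ch j '' W, w2 (C.cmp (C.ch j) (fun q => F j q • β q) z)
        (dbar (C.du F η j) z) := by

  have hi : W ⊆ (C.ch i).source := fun p hp => (hij hp).1.1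
  have hj : W ⊆ (C.ch j).source := fun p hp => (hij hp).2.1
  have ho := C.isOpen_img i hW hi
  rw [C.cv_img (j := j) hi, integral_image_eq_integral_abs_det_fderiv_smul volume
    ho.measurableSet (C.cv_der hi hj) (C.cv_inj hi hj)]
  refine setIntegral_congr_fun ho.measurableSet ?_
  rintro _ ⟨p, hp, rfl⟩
  have hT := ((C.isCh i).tr (C.isCh j) (hi hp) (hj hp)).differentiableAt
  have eT : (C.ch j ∘ (C.ch i).symm) (C.ch i p) = C.ch j p := by
    rw [Function.comp_apply, (C.ch i).left_inv (hi hp)]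
  have hh : HolAt (C.kf i / C.kf j * (F j / F i)) p :=
    (C.kf_hol (hi hp) (hj hp)).mul (hF.hol j i p ⟨(hij hp).2, (hij hp).1⟩)
  have hh' : HolAt (C.kf j / C.kf i * (F i / F j)) p :=
    (C.kf_hol (hj hp) (hi hp)).mul (hF.hol i j p (hij hp))
  have s1 : SmAt (C.kf j / F j * η) p := by
    refine (hh'.smAt.mul (hη p hp)).congr ?_
    filter_upwards [hW.mem_nhds hp] with q hq
    have n1 := C.kf_ne (hi hq)
    have n2 := hF.ne i q (hij hq).1
    simp only [Pi.mul_apply, Pi.div_apply]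
    field_simp
  have d1 : DifferentiableAt ℝ (C.du F η j) ((C.ch j ∘ (C.ch i).symm) (C.ch i p)) := by
    rw [eT]
    exact (((C.isCh j).sm p (hj hp) _).1 s1).self_of_nhds.differentiableAt (by simp)
  have d2 : DifferentiableAt ℂ ((C.kf i / C.kf j * (F j / F i)) ∘ (C.ch i).symm) (C.ch i p) :=
    (((C.isCh i).hol p (hi hp) _).1 hh).differentiableAt
  have e1 : C.du F η i =ᶠ[𝓝 (C.ch i p)] ((C.kf i / C.kf j * (F j / F i)) ∘ (C.ch i).symm) *
      (C.du F η j ∘ (C.ch j ∘ (C.ch i).symm)) := by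
    filter_upwards [ho.mem_nhds ⟨p, hp, rfl⟩]
    rintro _ ⟨q, hq, rfl⟩
    have n1 := C.kf_ne (hj hq)
    have n2 := hF.ne j q (hij hq).2
    simp only [du, Pi.mul_apply, Pi.div_apply, Function.comp_apply, (C.ch i).left_inv (hi hq),
      (C.ch j).left_inv (hj hq)]
    field_simp
  have a1 : Anti (C.cmp (C.ch j) β (C.ch j p)) :=
    C.cmp_anti _ (by rw [(C.ch j).left_inv (hj hp)]; exact hβ p hp)
  have e2 := w2_comp a1 (anti_dbar (C.du F η j) (C.ch j p))
    (fderiv ℂ (C.ch j ∘ (C.ch i).symm) (C.ch i p))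
  have e3 : ∀ (x y : ℂ) (a b : C2 →L[ℝ] ℂ), w2 (x • a) (y • b) = x * y * w2 a b := by
    intro x y a b
    simp only [w2, _root_.smul_apply, smul_eq_mul]
    ring
  have e4 := e3 (F j p) 1 (C.cmp (C.ch j) β (C.ch j p)) (dbar (C.du F η j) (C.ch j p))
  rw [one_smul] at e4
  have z0 : ∀ x : ℂ, x • (0 : C2 →L[ℝ] ℂ) = 0 := fun x => by
    ext v
    simp
  beta_reduce
  rw [dbar_congr' e1, dbar_mul' (d2.restrictScalars ℝ) (d1.comp _ (hT.restrictScalars ℝ)),
    dbar_hol' d2, z0, add_zero, dbar_comp d1 hT, eT, cmp_smul, cmp_smul,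
    C.cmp_tr (C.isCh i) (C.isCh j) (hi hp) (hj hp), e3, e2, (C.ch j).left_inv (hj hp), e4, cv_det]
  have n1 := C.kf_ne (hj hp)
  have n2 := hF.ne i p (hij hp).1
  simp only [Pi.mul_apply, Pi.div_apply, Function.comp_apply, (C.ch i).left_inv (hi hp)]
  rw [C.kf_tr (hi hp) (hj hp), Complex.real_smul, Complex.ofReal_pow, ← Complex.mul_conj']
  field_simp

/-- The norm on a large polydisc is bounded by the norms on the small ones. -/
theorem cov_n2 (B : ℝ) {δ : ℝ} (hδ : 0 ≤ δ) : ∃ L : ℝ, 0 < L ∧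
    ∀ (F : C.I → M → ℂ) (r : ℝ), 1 ≤ r → r ≤ 3 → C.Fr F r B → ∀ (η : M → ℂ) (c : ℤ) (A : ℝ),
      0 ≤ A → (∀ i, n2 (ball 0 1) (C.du F η i) ≤ ENNReal.ofReal (A / C.wt δ c i) ^ 2) →
      ∀ i, n2 (ball 0 r) (C.du F η i) ≤ ENNReal.ofReal (L * A / C.wt δ c i) ^ 2 := by

  obtain ⟨K, hK, hk⟩ := C.geo_kf
  obtain ⟨L, hL, hn⟩ := C.cv_n2
  obtain ⟨m, hm⟩ := C.geo_nbr
  obtain ⟨e, he⟩ : ∃ e, e = Real.exp (2 * δ * C.R) := ⟨_, rfl⟩
  have e0 : 0 < e := he ▸ Real.exp_pos _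
  obtain ⟨b, hb⟩ : ∃ b, b = K * K * B ^ 2 + 1 := ⟨_, rfl⟩
  have b0 : 0 < b := by rw [hb]; positivity
  refine ⟨(m + 1) * (L * (b * e)), by positivity, fun F r r1 r3 hF η c A hA h i => ?_⟩
  obtain ⟨S, hS, h1, h2⟩ := hm i
  have wi := C.wt_pos δ c i
  have cov : ball (0 : C2) r ⊆ ⋃ l ∈ S, C.ch i '' (C.U i r ∩ C.U l 1) := by
    rw [← C.img_U i (by linarith : r ≤ 4)]
    rintro _ ⟨p, hp, rfl⟩
    exact mem_biUnion (h1 (C.idx p) p hp.1 (C.mem_U_idx p).1) ⟨p, ⟨hp, C.mem_U_idx p⟩, rfl⟩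
  have key : ∀ l ∈ S, n2 (C.ch i '' (C.U i r ∩ C.U l 1)) (C.du F η i) ≤
      ENNReal.ofReal (L * (b * e) * A / C.wt δ c i) ^ 2 := by
    intro l hl
    have ho : IsOpen (C.U i r ∩ C.U l 1) := (C.isOpen_U i r).inter (C.isOpen_U l 1)
    have hs : C.U i r ∩ C.U l 1 ⊆ C.U i 3 ∩ C.U l 3 :=
      inter_subset_inter (C.U_mono i r3) (C.U_mono l (by norm_num))
    have a1 := hn i l _ ho hs (C.kf i / F i * η)
    have a2 : n2 (C.ch l '' (C.U i r ∩ C.U l 1)) ((C.kf i / F i * η) ∘ (C.ch l).symm) ≤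
        ENNReal.ofReal b ^ 2 * n2 (C.ch l '' (C.U i r ∩ C.U l 1)) (C.du F η l) := by
      refine n2_le (C.isOpen_img l ho fun p hp => hp.2.1).measurableSet ?_
      rintro _ ⟨p, hp, rfl⟩
      have pl : p ∈ C.U l r := C.U_mono l r1 hp.2
      have n1 := C.kf_ne hp.2.1
      have n2 := hF.ne l p pl
      have e1 : C.kf i p / F i p * η p =
          C.kf i p * (C.kf l p)⁻¹ * (F l p / F i p) * (C.kf l p / F l p * η p) := by
        field_simp
      simp only [du, Pi.mul_apply, Pi.div_apply, Function.comp_apply, (C.ch l).left_inv hp.2.1]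
      rw [e1, norm_mul]
      refine mul_le_mul_of_nonneg_right ?_ (norm_nonneg _)
      have c1 := (hk i p (hs hp).1).1
      have c2 := (hk l p (hs hp).2).2
      have c3 := hF.ratio (i := l) (j := i) ⟨pl, hp.1⟩
      rw [norm_mul, norm_mul, hb]
      refine le_add_of_le_of_nonneg ?_ zero_le_one
      gcongr
    have a3 : n2 (C.ch l '' (C.U i r ∩ C.U l 1)) (C.du F η l) ≤ n2 (ball 0 1) (C.du F η l) := by
      refine n2_mono_set ?_
      rw [← C.img_U l (by norm_num : (1 : ℝ) ≤ 4)]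
      exact image_mono inter_subset_right
    have wl := C.wt_pos δ c l
    have a4 : A / C.wt δ c l ≤ e * A / C.wt δ c i := by
      have := C.wt_nbr hδ c (i := l) (j := i) (by rw [abs_sub_comm]; exact h2 l hl)
      rw [← he] at this
      rw [div_le_div_iff₀ wl wi]
      nlinarith [mul_le_mul_of_nonneg_left this hA]
    have a5 := (a3.trans (h l)).trans (pow_le_pow_left' (ENNReal.ofReal_le_ofReal a4) 2)
    refine (a1.trans (mul_le_mul_right (a2.trans (mul_le_mul_right a5 _)) _)).trans (le_of_eq ?_)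
    rw [← mul_pow, ← mul_pow, ← ENNReal.ofReal_mul b0.le, ← ENNReal.ofReal_mul hL.le]
    congr 2
    ring
  refine (n2_cover S _ cov).trans ((Finset.sum_le_card_nsmul S _ _ key).trans ?_)
  have e2 : (m + 1) * (L * (b * e)) * A / C.wt δ c i =
      ((m + 1 : ℕ) : ℝ) * (L * (b * e) * A / C.wt δ c i) := by
    push_cast
    ring
  rw [e2, ENNReal.ofReal_mul (Nat.cast_nonneg _), mul_pow, nsmul_eq_mul, ENNReal.ofReal_natCast]
  refine mul_le_mul_left ?_ _
  norm_cast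
  nlinarith

end Cov

end Vale.Agent.P267
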