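import Vale.Agent.P267S.N2

/-! P267, solver part: calculus of the Cauchy-Riemann operator on affine space. -/

open scoped Manifold ContDiff Topology ENNReal Real
open Filter Metric Set MeasureTheory

noncomputable section

namespace Vale.Agent.P267

set_option linter.unusedSectionVars false

variable {F G : C2 → ℂ} {z : C2} {W : Set C2}

theorem dbar_congr' (h : F =ᶠ[𝓝 z] G) : dbar F z = dbar G z := ac_congr h

theorem dbar_add' (hF : DifferentiableAt ℝ F z) (hG : DifferentiableAt ℝ G z) :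
    dbar (F + G) z = dbar F z + dbar G z := by
  ext1 v
  simp only [ac_app, fderiv_add hF hG, add_apply]
  ring

theorem dbar_sub' (hF : DifferentiableAt ℝ F z) (hG : DifferentiableAt ℝ G z) :
    dbar (F - G) z = dbar F z - dbar G z := by
  ext1 v
  simp only [ac_app, fderiv_sub hF hG, sub_apply]
  ring

theorem dbar_mul' (hF : DifferentiableAt ℝ F z) (hG : DifferentiableAt ℝ G z) :
    dbar (F * G) z = F z • dbar G z + G z • dbar F z := by
  ext1 v
  simp only [ac_app, fderiv_mul hF hG, add_apply, smul_apply, smul_eq_mul]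
  ring

theorem dbar_sum' {ι : Type} {S : Finset ι} {f : ι → C2 → ℂ}
    (h : ∀ i ∈ S, DifferentiableAt ℝ (f i) z) :
    dbar (∑ i ∈ S, f i) z = ∑ i ∈ S, dbar (f i) z := by
  ext1 v
  simp only [ac_app, fderiv_sum h, sum_apply, Finset.mul_sum, mul_add, Finset.sum_add_distrib]

theorem dbar_hol' (hF : DifferentiableAt ℂ F z) : dbar F z = 0 := by
  ext1 v
  rw [ac_app, (hF.hasFDerivAt.restrictScalars ℝ).fderiv]
  simp only [ContinuousLinearMap.coe_restrictScalars', map_smul, smul_eq_mul, zero_apply]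
  linear_combination (2⁻¹ * fderiv ℂ F z v) * Complex.I_mul_I

theorem diff_of_dbar (hF : DifferentiableAt ℝ F z) (h : dbar F z = 0) :
    DifferentiableAt ℂ F z := ac_cd hF h

theorem dbar_sm (hF : ContDiffAt ℝ ∞ F z) : ContDiffAt ℝ ∞ (dbar F) z := by
  have h1 : ContDiffAt ℝ ∞ (fderiv ℝ F) z := hF.fderiv_right (m := ∞) (by simp)
  exact (h1.add ((h1.clm_comp contDiffAt_const).const_smul Complex.I)).const_smul (2 : ℂ)⁻¹

theorem dbar_sm_apply (hF : ContDiffAt ℝ ∞ F z) (v : C2) :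
    ContDiffAt ℝ ∞ (fun w => dbar F w v) z :=
  (dbar_sm hF).clm_apply contDiffAt_const

theorem dbar_dbar (hF : ContDiffAt ℝ ∞ F z) :
    dbar (fun w => dbar F w (ee 1)) z (ee 0) = dbar (fun w => dbar F w (ee 0)) z (ee 1) := by
  simp only [dbar_apply]
  exact P272.B1_bb hF 0 1

theorem dbar_eX (F : C2 → ℂ) (z : C2) (j : Fin 2) :
    dbar F z (ee j) = P271A.eX (P271A.bv j) F z :=
  (dbar_apply F z _).trans (P271A.Brid_bv j).symm

/-- A smooth cut-off function. -/
theorem exists_cut (c : C2) {r r' : ℝ} (h0 : 0 < r') (h : r' < r) : ∃ θ : C2 → ℂ,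
    ContDiff ℝ ∞ θ ∧ HasCompactSupport θ ∧ tsupport θ ⊆ ball c r ∧
      (∀ z ∈ closedBall c r', θ z = 1) ∧ ∀ z, ‖θ z‖ ≤ 1 := by
  let b : ContDiffBump c := ⟨r', (r' + r) / 2, h0, by linarith⟩
  have hs : tsupport (fun z => (b z : ℂ)) ⊆ tsupport b :=
    closure_mono fun z hz hb => hz (by simp only [hb, Complex.ofReal_zero])
  refine ⟨fun z => (b z : ℂ), Complex.ofRealCLM.contDiff.comp b.contDiff,
    b.hasCompactSupport.comp_left Complex.ofReal_zero, hs.trans ?_,
    fun z hz => by simp only [b.one_of_mem_closedBall hz, Complex.ofReal_one], fun z => ?_⟩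
  · rw [b.tsupport_eq]
    exact closedBall_subset_ball (show (r' + r) / 2 < r by linarith)
  · rw [Complex.norm_real, Real.norm_eq_abs, abs_of_nonneg b.nonneg]
    exact b.le_one

/-- A function that is smooth on an open set times a test function is smooth. -/
theorem cut_sm (hW : IsOpen W) (hF : ∀ z ∈ W, ContDiffAt ℝ ∞ F z) {τ : C2 → ℂ}
    (hτ : ContDiff ℝ ∞ τ) (hs : tsupport τ ⊆ W) : ContDiff ℝ ∞ (τ * F) := by
  refine contDiff_iff_contDiffAt.2 fun z => ?_
  by_cases hz : z ∈ W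
  · exact hτ.contDiffAt.mul (hF z hz)
  · refine (contDiffAt_const (c := (0 : ℂ))).congr_of_eventuallyEq ?_
    filter_upwards [notMem_tsupport_iff_eventuallyEq.1 fun h => hz (hs h)] with w hw
    rw [Pi.mul_apply, hw, Pi.zero_apply, zero_mul]

theorem cal_off {τ : C2 → ℂ} (hz : z ∉ tsupport τ) : dbar τ z = 0 :=
  (ac_congr (notMem_tsupport_iff_eventuallyEq.1 hz)).trans (dbar_hol' (differentiableAt_const 0))

theorem cal_supp (τ : C2 → ℂ) (v : C2) :
    Function.support (fun z => dbar τ z v) ⊆ tsupport τ := fun z hz => by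
  by_contra h
  exact hz (by simp only [cal_off h, zero_apply])

theorem cal_int (hW : IsOpen W) (hF : ∀ z ∈ W, ContDiffAt ℝ ∞ F z) {τ : C2 → ℂ}
    (hτ : ContDiff ℝ ∞ τ) (hc : HasCompactSupport τ) (hs : tsupport τ ⊆ W) :
    Integrable (fun z => F z * τ z) (volume.restrict W) := by
  simp only [mul_comm (F _)]
  exact ((cut_sm hW hF hτ hs).continuous.integrable_of_hasCompactSupport hc.mul_right).restrict

theorem cal_int' (hW : IsOpen W) (hF : ∀ z ∈ W, ContDiffAt ℝ ∞ F z) {τ : C2 → ℂ}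
    (hτ : ContDiff ℝ ∞ τ) (hc : HasCompactSupport τ) (hs : tsupport τ ⊆ W) (v : C2) :
    Integrable (fun z => F z * dbar τ z v) (volume.restrict W) :=
  cal_int hW hF (contDiff_iff_contDiffAt.2 fun _ => dbar_sm_apply hτ.contDiffAt v)
    (hc.mono' (cal_supp τ v)) ((closure_minimal (cal_supp τ v) (isClosed_tsupport τ)).trans hs)

theorem cal_zero {τ : C2 → ℂ} (hτ : ContDiff ℝ ∞ τ) (hc : HasCompactSupport τ) (v : C2) :
    ∫ z, dbar τ z v = 0 := by
  have h1 : ∀ v, Integrable fun z => fderiv ℝ τ z v := fun v =>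
    ((hτ.continuous_fderiv (by simp)).clm_apply continuous_const).integrable_of_hasCompactSupport
      (hc.fderiv_apply ℝ v)
  have h2 : ∀ v, ∫ z, fderiv ℝ τ z v = 0 := fun v => by
    have := integral_mul_fderiv_eq_neg_fderiv_mul_of_integrable (μ := (volume : Measure C2))
      (f := fun _ => (1 : ℂ)) (g := τ) (v := v) (by simp) (by simpa using h1 v)
      (by simpa using hτ.continuous.integrable_of_hasCompactSupport hc)
      (fun _ _ => differentiableAt_const _) fun x _ => hτ.differentiable (by simp) x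
    simpa using this
  simp only [ac_app]
  rw [integral_const_mul, integral_add (h1 v) ((h1 _).const_mul _), integral_const_mul, h2, h2]
  simp

/-- Integration by parts. -/
theorem ibp (hW : IsOpen W) (hF : ∀ z ∈ W, ContDiffAt ℝ ∞ F z) {τ : C2 → ℂ}
    (hτ : ContDiff ℝ ∞ τ) (hc : HasCompactSupport τ) (hs : tsupport τ ⊆ W) (v : C2) :
    ∫ z in W, F z * dbar τ z v = -∫ z in W, dbar F z v * τ z := by
  rw [eq_neg_iff_add_eq_zero, ← integral_add (cal_int' hW hF hτ hc hs v)
    (cal_int hW (fun z hz => dbar_sm_apply (hF z hz) v) hτ hc hs),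
    ← cal_zero (cut_sm hW hF hτ hs) hc.mul_right v,
    ← setIntegral_eq_integral_of_forall_compl_eq_zero (s := W) (f := fun z => dbar (τ * F) z v)
      fun z hz => by
        rw [cal_off (τ := τ * F) fun h => hz (hs (tsupport_mul_subset_left h)), zero_apply]]
  refine setIntegral_congr_fun hW.measurableSet fun z hz => ?_
  simp only [dbar_mul' (hτ.differentiable (by simp) z) ((hF z hz).differentiableAt (by simp)),
    add_apply, smul_apply, smul_eq_mul]
  ring

/-- Locally exact forms are weakly closed. -/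
theorem ibp_closed (hW : IsOpen W) {ϖ : C2 → C2 →L[ℝ] ℂ}
    (hϖ : ∀ z ∈ W, ∃ a : C2 → ℂ, ∀ᶠ w in 𝓝 z, ContDiffAt ℝ ∞ a w ∧ dbar a w = ϖ w)
    {τ : C2 → ℂ} (hτ : ContDiff ℝ ∞ τ) (hc : HasCompactSupport τ) (hs : tsupport τ ⊆ W) :
    ∫ z in W, w2 (ϖ z) (dbar τ z) = 0 := by
  have h1 : ∀ z ∈ W, ∃ a : C2 → ℂ, ContDiffAt ℝ ∞ a z ∧
      ∀ v, (fun w => ϖ w v) =ᶠ[𝓝 z] fun w => dbar a w v := fun z hz => by
    obtain ⟨a, ha⟩ := hϖ z hz
    exact ⟨a, ha.self_of_nhds.1, fun v => ha.mono fun w hw => by simp only [hw.2]⟩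
  have h2 : ∀ v, ∀ z ∈ W, ContDiffAt ℝ ∞ (fun w => ϖ w v) z := fun v z hz => by
    obtain ⟨a, a1, a2⟩ := h1 z hz
    exact (dbar_sm_apply a1 v).congr_of_eventuallyEq (a2 v)
  simp only [w2]
  rw [integral_sub (cal_int' hW (h2 _) hτ hc hs _) (cal_int' hW (h2 _) hτ hc hs _),
    ibp hW (h2 _) hτ hc hs, ibp hW (h2 _) hτ hc hs, sub_eq_zero, neg_inj]
  refine setIntegral_congr_fun hW.measurableSet fun z hz => ?_
  obtain ⟨a, a1, a2⟩ := h1 z hz
  simp only [ac_congr (a2 _), dbar_dbar a1]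

end Vale.Agent.P267
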