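import Vale.Agent.P267S.Defs2
import Vale.Agent.P271A.Mean

/-! P267, solver part: square norms and antilinear forms. -/

open scoped Manifold ContDiff Topology ENNReal Real
open Filter Metric Set MeasureTheory

noncomputable section

namespace Vale.Agent.P267

set_option linter.unusedSectionVars false

variable {E E' : Type} [NormedAddCommGroup E] [NormedAddCommGroup E'] {W W' : Set C2}

theorem n2_e (x : E) : ‖x‖ₑ ^ 2 = ENNReal.ofReal (‖x‖ ^ 2) := by
  rw [← ofReal_norm, ENNReal.ofReal_pow (norm_nonneg _)]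

theorem n2_two {a b : ℝ} (ha : 0 ≤ a) (hb : 0 ≤ b) :
    2 * ENNReal.ofReal a + 2 * ENNReal.ofReal b = ENNReal.ofReal (2 * a + 2 * b) := by
  rw [ENNReal.ofReal_add (by positivity) (by positivity), ENNReal.ofReal_mul zero_le_two,
    ENNReal.ofReal_mul zero_le_two, ENNReal.ofReal_ofNat]

/-- The conjugate coordinates. -/
def n2_bf (j : Fin 2) : C2 →L[ℝ] ℂ :=
  (Complex.conjCLE : ℂ →L[ℝ] ℂ).comp (ContinuousLinearMap.proj j)

theorem n2_bf_apply (j : Fin 2) (v : C2) : n2_bf j v = (starRingEnd ℂ) (v j) := rfl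

theorem n2_mono_set {f : C2 → E} (h : W ⊆ W') : n2 W f ≤ n2 W' f := lintegral_mono_set h

theorem n2_congr {f g : C2 → E} (hW : MeasurableSet W) (h : ∀ z ∈ W, f z = g z) :
    n2 W f = n2 W g :=
  setLIntegral_congr_fun hW fun z hz => by simp only [h z hz]

theorem n2_le {f : C2 → E} {g : C2 → E'} (hW : MeasurableSet W) {c : ℝ}
    (h : ∀ z ∈ W, ‖f z‖ ≤ c * ‖g z‖) : n2 W f ≤ ENNReal.ofReal c ^ 2 * n2 W g := by
  rw [n2, n2, ← lintegral_const_mul' _ _ (ENNReal.pow_ne_top ENNReal.ofReal_ne_top)]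
  refine setLIntegral_mono' hW fun z hz => ?_
  rw [← mul_pow, ← ofReal_norm, ← ofReal_norm, ← ENNReal.ofReal_mul' (norm_nonneg _)]
  exact pow_le_pow_left' (ENNReal.ofReal_le_ofReal (h z hz)) 2

theorem n2_le_add {E'' : Type} [NormedAddCommGroup E''] {f : C2 → E} {g : C2 → E'}
    {h : C2 → E''} (hW : MeasurableSet W) (hg : AEStronglyMeasurable g (volume.restrict W))
    (hb : ∀ z ∈ W, ‖f z‖ ≤ ‖g z‖ + ‖h z‖) : n2 W f ≤ 2 * n2 W g + 2 * n2 W h := by
  rw [n2, n2, n2, ← lintegral_const_mul' _ _ ENNReal.ofNat_ne_top,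
    ← lintegral_const_mul' _ _ ENNReal.ofNat_ne_top,
    ← lintegral_add_left' ((hg.enorm.pow_const 2).const_mul 2)]
  refine setLIntegral_mono' hW fun z hz => ?_
  rw [n2_e, n2_e, n2_e, n2_two (sq_nonneg _) (sq_nonneg _)]
  refine ENNReal.ofReal_le_ofReal ((pow_le_pow_left₀ (norm_nonneg _) (hb z hz) 2).trans ?_)
  nlinarith [sq_nonneg (‖g z‖ - ‖h z‖)]

theorem n2_sum {ι : Type} (S : Finset ι) {f : ι → C2 → E}
    (hf : ∀ i ∈ S, AEStronglyMeasurable (f i) (volume.restrict W)) :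
    n2 W (∑ i ∈ S, f i) ≤ S.card * ∑ i ∈ S, n2 W (f i) := by
  simp only [n2]
  rw [← lintegral_finsetSum' S fun i hi => (hf i hi).enorm.pow_const 2,
    ← lintegral_const_mul' _ _ (ENNReal.natCast_ne_top _)]
  refine lintegral_mono fun z => ?_
  simp only [n2_e]
  rw [← ENNReal.ofReal_sum_of_nonneg fun i _ => sq_nonneg _, ← ENNReal.ofReal_natCast,
    ← ENNReal.ofReal_mul (Nat.cast_nonneg _), Finset.sum_apply]
  exact ENNReal.ofReal_le_ofReal ((pow_le_pow_left₀ (norm_nonneg _) (norm_sum_le _ _) 2).trans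
    sq_sum_le_card_mul_sum_sq)

theorem n2_cover {ι : Type} (S : Finset ι) {V : ι → Set C2} (f : C2 → E)
    (h : W ⊆ ⋃ i ∈ S, V i) : n2 W f ≤ ∑ i ∈ S, n2 (V i) f := by
  classical
  refine (n2_mono_set h).trans ?_
  clear h
  induction S using Finset.induction_on with
  | empty => simp [n2]
  | insert i S hi ih =>
    rw [Finset.set_biUnion_insert, Finset.sum_insert hi]
    exact (lintegral_union_le _ _ _).trans (add_le_add le_rfl ih)

theorem n2_indicator {f : C2 → E} (hW' : MeasurableSet W') :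
    n2 W (W'.indicator f) = n2 (W ∩ W') f := by
  rw [n2, n2, inter_comm, ← Measure.restrict_restrict hW', ← lintegral_indicator hW']
  refine lintegral_congr fun z => ?_
  by_cases hz : z ∈ W' <;> simp [hz]

/-- Bounded functions on a ball. -/
theorem n2_const (ρ : ℝ) : ∃ K : ℝ, 0 ≤ K ∧ ∀ {E : Type} [NormedAddCommGroup E] (c : C2)
    (f : C2 → E) (D : ℝ), (∀ z ∈ ball c ρ, ‖f z‖ ≤ D) →
      n2 (ball c ρ) f ≤ ENNReal.ofReal (K * D) ^ 2 := by
  refine ⟨√(volume.real (ball (0 : C2) ρ)), Real.sqrt_nonneg _, fun c f D h => ?_⟩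
  refine (setLIntegral_mono' (g := fun _ => ENNReal.ofReal D ^ 2) measurableSet_ball
    fun z hz => ?_).trans_eq ?_
  · rw [← ofReal_norm]
    exact pow_le_pow_left' (ENNReal.ofReal_le_ofReal (h z hz)) 2
  · rw [setLIntegral_const, Measure.addHaar_ball_center, ENNReal.ofReal_mul (Real.sqrt_nonneg _),
      mul_pow, ← ENNReal.ofReal_pow (Real.sqrt_nonneg _), Real.sq_sqrt measureReal_nonneg,
      ofReal_measureReal measure_ball_lt_top.ne, mul_comm]

theorem n2_eq_zero {f : C2 → E} (hW : IsOpen W) (hf : ContinuousOn f W) (h : n2 W f = 0) :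
    ∀ z ∈ W, f z = 0 := by
  have h1 := (lintegral_eq_zero_iff'
    ((hf.aestronglyMeasurable hW.measurableSet).enorm.pow_const 2)).1 h
  refine Measure.eqOn_open_of_ae_eq (μ := volume) (g := fun _ => 0) ?_ hW hf continuousOn_const
  filter_upwards [h1] with z hz
  simpa using hz

theorem n2_eLp (f : C2 → E) : n2 W f = eLpNorm f 2 (volume.restrict W) ^ 2 := by
  rw [eLpNorm_eq_lintegral_rpow_enorm_toReal two_ne_zero ENNReal.ofNat_ne_top,
    ← ENNReal.rpow_natCast, ← ENNReal.rpow_mul]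
  simp [n2]

theorem memLp_of_n2 {f : C2 → E} (hf : AEStronglyMeasurable f (volume.restrict W))
    (h : n2 W f < ⊤) : MemLp f 2 (volume.restrict W) := by
  refine ⟨hf, lt_top_iff_ne_top.2 fun e => ?_⟩
  rw [n2_eLp, e] at h
  simp at h

theorem n2_ofReal {f : C2 → E} (hf : MemLp f 2 (volume.restrict W)) :
    n2 W f = ENNReal.ofReal (∫ z in W, ‖f z‖ ^ 2) := by
  rw [ofReal_integral_eq_lintegral_ofReal ((memLp_two_iff_integrable_sq_norm hf.1).1 hf)
    (.of_forall fun z => sq_nonneg _)]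
  exact lintegral_congr fun z => n2_e _

/-- The Cauchy-Schwarz inequality. -/
theorem n2_cs {f g : C2 → ℂ} (hf : AEStronglyMeasurable f (volume.restrict W))
    (hg : AEStronglyMeasurable g (volume.restrict W)) {A B : ℝ} (hA : 0 ≤ A) (hB : 0 ≤ B)
    (h1 : n2 W f ≤ ENNReal.ofReal A ^ 2) (h2 : n2 W g ≤ ENNReal.ofReal B ^ 2) :
    IntegrableOn (fun z => f z * g z) W ∧ ‖∫ z in W, f z * g z‖ ≤ A * B := by
  have t : ∀ A : ℝ, ENNReal.ofReal A ^ 2 < ⊤ := fun A => ENNReal.pow_lt_top ENNReal.ofReal_lt_top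
  refine ⟨(memLp_of_n2 hf (h1.trans_lt (t A))).integrable_mul (memLp_of_n2 hg (h2.trans_lt (t B))),
    ?_⟩
  rw [n2_eLp, ENNReal.pow_le_pow_left_iff two_ne_zero] at h1 h2
  have h3 : ‖∫ z in W, f z * g z‖ₑ ≤ eLpNorm (f • g) 1 (volume.restrict W) := by
    rw [eLpNorm_one_eq_lintegral_enorm]
    exact enorm_integral_le_lintegral_enorm _
  have h4 := (h3.trans (eLpNorm_smul_le_mul_eLpNorm (p := 2) (q := 2) hg hf)).trans
    (mul_le_mul' h1 h2)
  rwa [← ENNReal.ofReal_mul hA, ← ofReal_norm,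
    ENNReal.ofReal_le_ofReal_iff (mul_nonneg hA hB)] at h4

/-- Two bounds add up. -/
theorem sq_add_le {x y : ℝ≥0∞} {A B : ℝ} (hA : 0 ≤ A) (hB : 0 ≤ B)
    (h1 : x ≤ ENNReal.ofReal A ^ 2) (h2 : y ≤ ENNReal.ofReal B ^ 2) :
    2 * x + 2 * y ≤ ENNReal.ofReal (2 * (A + B)) ^ 2 := by
  refine (add_le_add (mul_le_mul_right h1 2) (mul_le_mul_right h2 2)).trans ?_
  rw [← ENNReal.ofReal_pow hA, ← ENNReal.ofReal_pow hB, n2_two (sq_nonneg _) (sq_nonneg _),
    ← ENNReal.ofReal_pow (by positivity)]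
  exact ENNReal.ofReal_le_ofReal (by nlinarith [mul_nonneg hA hB, sq_nonneg A, sq_nonneg B])

/-- The mean value inequality. -/
theorem hol_mean {ρ : ℝ} (hρ : 0 < ρ) : ∃ K : ℝ, 0 ≤ K ∧ ∀ (c : C2) (h : C2 → ℂ) (A : ℝ),
    0 ≤ A → DifferentiableOn ℂ h (ball c ρ) → n2 (ball c ρ) h ≤ ENNReal.ofReal A ^ 2 →
      ‖h c‖ ≤ K * A := by
  have hV : 0 < volume.real (ball (0 : C2) (ρ / 2)) :=
    ENNReal.toReal_pos (measure_ball_pos _ _ (half_pos hρ)).ne' measure_ball_lt_top.ne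
  refine ⟨(√(volume.real (ball (0 : C2) (ρ / 2))))⁻¹, by positivity, fun c h A hA hh h1 => ?_⟩
  have hs : ball c (ρ / 2) ⊆ ball c ρ := ball_subset_ball (half_le_self hρ.le)
  have h2 := (n2_mono_set hs).trans h1
  have h3 := memLp_of_n2 ((hh.continuousOn.mono hs).aestronglyMeasurable measurableSet_ball)
    (h2.trans_lt (ENNReal.pow_lt_top ENNReal.ofReal_lt_top))
  rw [n2_ofReal h3, ← ENNReal.ofReal_pow hA, ENNReal.ofReal_le_ofReal_iff (sq_nonneg _)] at h2
  have h4 := (P271A.norm_le_mean (half_pos hρ) (half_lt_self hρ) hh).trans h2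
  rw [le_inv_mul_iff₀ (Real.sqrt_pos.2 hV)]
  refine (pow_le_pow_iff_left₀ (by positivity) hA two_ne_zero).1 ?_
  rwa [mul_pow, Real.sq_sqrt hV.le]

variable {a b : C2 →L[ℝ] ℂ}

theorem anti_dbar (F : C2 → ℂ) (z : C2) : Anti (dbar F z) := by
  intro c v
  have e1 : ∀ v : C2, c • v = c.re • v + c.im • Complex.I • v := fun v => by
    funext j
    simp only [Pi.add_apply, Pi.smul_apply, smul_eq_mul, Complex.real_smul]
    rw [← mul_assoc, ← add_mul, Complex.re_add_im]
  have e2 : Complex.I • Complex.I • v = -v := by rw [smul_smul, Complex.I_mul_I, neg_one_smul]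
  have e3 : (starRingEnd ℂ) c = c.re - c.im * Complex.I := by
    apply Complex.ext <;> simp
  show 2⁻¹ * (fderiv ℝ F z (c • v) + Complex.I * fderiv ℝ F z (Complex.I • c • v)) =
    _ * (2⁻¹ * (fderiv ℝ F z v + Complex.I * fderiv ℝ F z (Complex.I • v)))
  rw [smul_comm Complex.I c, e1, e1, e2, e3]
  simp only [map_add, map_smul, map_neg, Complex.real_smul]
  linear_combination (2⁻¹ * c.im * fderiv ℝ F z (Complex.I • v)) * Complex.I_mul_I

theorem anti_zero : Anti 0 := fun c v => by simp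

theorem Anti.add (ha : Anti a) (hb : Anti b) : Anti (a + b) := fun c v => by
  simp only [ContinuousLinearMap.add_apply, ha c v, hb c v, mul_add]

theorem Anti.sub (ha : Anti a) (hb : Anti b) : Anti (a - b) := fun c v => by
  simp only [ContinuousLinearMap.sub_apply, ha c v, hb c v, mul_sub]

theorem Anti.smul (ha : Anti a) (c : ℂ) : Anti (c • a) := fun d v => by
  simp only [ContinuousLinearMap.smul_apply, ha d v, smul_eq_mul, mul_left_comm c]

theorem Anti.sum {ι : Type} {S : Finset ι} {f : ι → C2 →L[ℝ] ℂ} (h : ∀ i ∈ S, Anti (f i)) :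
    Anti (∑ i ∈ S, f i) :=
  Finset.sum_induction f Anti (fun _ _ => Anti.add) anti_zero h

theorem Anti.comp (ha : Anti a) (A : C2 →L[ℂ] C2) : Anti (a.comp (A.restrictScalars ℝ)) :=
  fun c v => (congrArg a (A.map_smul c v)).trans (ha c _)

theorem Anti.apply (ha : Anti a) (v : C2) :
    a v = (starRingEnd ℂ) (v 0) * a (ee 0) + (starRingEnd ℂ) (v 1) * a (ee 1) := by
  have e : v = v 0 • ee 0 + v 1 • ee 1 := by
    funext j
    fin_cases j <;> simp
  rw [← ha, ← ha, ← map_add, ← e]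

theorem Anti.norm_le (ha : Anti a) : ‖a‖ ≤ ‖a (ee 0)‖ + ‖a (ee 1)‖ := by
  refine ContinuousLinearMap.opNorm_le_bound _ (by positivity) fun v => ?_
  rw [ha.apply v, mul_comm _ ‖v‖, mul_add]
  refine (norm_add_le _ _).trans (add_le_add ?_ ?_) <;> rw [norm_mul, Complex.norm_conj] <;>
    exact mul_le_mul_of_nonneg_right (norm_le_pi_norm v _) (norm_nonneg _)

theorem norm_ee_le (a : C2 →L[ℝ] ℂ) (j : Fin 2) : ‖a (ee j)‖ ≤ ‖a‖ := by
  simpa only [Pi.norm_single, norm_one, mul_one] using a.le_opNorm (ee j)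

theorem Anti.ext (ha : Anti a) (hb : Anti b) (h : ∀ j, a (ee j) = b (ee j)) : a = b :=
  ContinuousLinearMap.ext fun v => by rw [ha.apply v, hb.apply v, h, h]

/-- The antilinear form with given coefficients. -/
theorem exists_anti (x : Fin 2 → ℂ) : ∃ a, Anti a ∧ ∀ j, a (ee j) = x j := by
  have h : ∀ j, Anti (n2_bf j) := fun j c v => by
    simp only [n2_bf_apply, Pi.smul_apply, smul_eq_mul, map_mul]
  refine ⟨x 0 • n2_bf 0 + x 1 • n2_bf 1, ((h 0).smul _).add ((h 1).smul _), fun j => ?_⟩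
  fin_cases j <;> simp [n2_bf_apply]

theorem w2_comp (ha : Anti a) (hb : Anti b) (A : C2 →L[ℂ] C2) :
    w2 (a.comp (A.restrictScalars ℝ)) (b.comp (A.restrictScalars ℝ)) =
      (starRingEnd ℂ) A.det * w2 a b := by
  have e : A.det = A (ee 0) 0 * A (ee 1) 1 - A (ee 1) 0 * A (ee 0) 1 := by
    rw [ContinuousLinearMap.det, ← LinearMap.det_toMatrix', Matrix.det_fin_two]
    simp only [LinearMap.toMatrix'_apply]
    rfl
  show a (A (ee 0)) * b (A (ee 1)) - a (A (ee 1)) * b (A (ee 0)) = _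
  rw [e, ha.apply (A _), ha.apply (A (ee 1)), hb.apply (A _), hb.apply (A (ee 0)), w2, map_sub,
    map_mul, map_mul]
  ring

theorem aesm_anti {ϖ : C2 → C2 →L[ℝ] ℂ} (hW : MeasurableSet W) (h : ∀ z ∈ W, Anti (ϖ z))
    (hm : ∀ j, AEStronglyMeasurable (fun z => ϖ z (ee j)) (volume.restrict W)) :
    AEStronglyMeasurable ϖ (volume.restrict W) := by
  refine (((hm 0).smul_const (n2_bf 0)).add ((hm 1).smul_const (n2_bf 1))).congr
    (ae_restrict_of_forall_mem hW fun z hz => ContinuousLinearMap.ext fun v => ?_)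
  rw [(h z hz).apply v]
  simp only [Pi.add_apply, ContinuousLinearMap.add_apply, ContinuousLinearMap.smul_apply,
    n2_bf_apply, smul_eq_mul, mul_comm]

end Vale.Agent.P267
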