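import Vale.Agent.P267S.SM1
import Vale.Agent.P267S.S2

/-! P267, solver part: correcting a holomorphic cochain. -/

open scoped Manifold ContDiff Topology
open Filter Metric Set

noncomputable section

namespace Vale.Agent.P267

set_option linter.unusedSectionVars false

variable {M : Type} [TopologicalSpace M] [ChartedSpace C2 M] [T2Space M]

namespace Cov
variable (C : Cov M) {F : C.I → M → ℂ} {γ : C.I → C.I → M → ℂ} {r B : ℝ} {i j : C.I} {p : M}

theorem sc_avg {V : Type} [NormedAddCommGroup V] [NormedSpace ℂ V] (W : Finset C.I) {x : C.I → V}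
    {X : ℝ} (hX : 0 ≤ X) (h : ∀ l, C.rho l p ≠ 0 → ‖x l‖ ≤ X) :
    ‖∑ l ∈ W, (C.rho l p : ℂ) • x l‖ ≤ W.card * X := by
  refine (norm_sum_le _ _).trans ((Finset.sum_le_card_nsmul _ _ X fun l _ => ?_).trans (by simp))
  by_cases h0 : C.rho l p = 0
  · simpa [h0] using hX
  · rw [norm_smul]
    exact (mul_le_of_le_one_left (norm_nonneg _) (C.rho_le l p)).trans (h l h0)

/-- The average of the cochain. -/
def scm (γ : C.I → C.I → M → ℂ) (i : C.I) (q : M) : ℂ := ∑ l ∈ C.nb i, (C.rho l q : ℂ) • γ i l q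

/-- The difference of two averages. -/
def sce (F : C.I → M → ℂ) (γ : C.I → C.I → M → ℂ) (i j : C.I) : M → ℂ :=
  F i * C.scm γ i - F i / F j * (F j * C.scm γ j)

theorem sc_sub (hi : p ∈ (C.ch i).source) (hj : p ∈ (C.ch j).source) :
    C.scm γ i p - C.scm γ j p =
      γ i j p - ∑ l ∈ C.nb i, (C.rho l p : ℂ) • (γ i j p + γ j l p - γ i l p) := by
  have h1 := C.sum_rho (W := C.nb i) fun l hl => C.mem_nb hi hl
  rw [scm, scm, C.sum_nb (fun l => γ j l p) (W' := C.nb i) (fun l hl => C.mem_nb hj hl)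
    fun l hl => C.mem_nb hi hl]
  simp only [smul_eq_mul, mul_sub, mul_add, Finset.sum_sub_distrib, Finset.sum_add_distrib,
    ← Finset.sum_mul, h1]
  ring

theorem sc_eq (hF : C.Fr F r B) (hj : p ∈ C.U j r) :
    C.sce F γ i j p = F i p * (C.scm γ i p - C.scm γ j p) := by
  have := hF.ne j p hj
  simp only [sce, Pi.sub_apply, Pi.mul_apply, Pi.div_apply]
  field_simp

theorem sc_sm (hr : 1 < r) (hγ : ∀ i j, ∀ p ∈ C.U i r ∩ C.U j r, HolAt (F i * γ i j) p)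
    (hi : p ∈ C.U i r) : SmAt (F i * C.scm γ i) p := by
  refine (SmAt.sum (W := C.nb i) (F := fun l q => (C.rho l q : ℂ) * (F i * γ i l) q)
    fun l _ => C.rho_mul_sm hr fun hl => (hγ i l p ⟨hi, hl⟩).smAt).congr
    (Eventually.of_forall fun q => ?_)
  simp only [scm, Finset.sum_apply, Pi.mul_apply, smul_eq_mul, Finset.mul_sum]
  exact Finset.sum_congr rfl fun l _ => by ring

theorem sc_sme (hr : 1 < r) (hF : C.Fr F r B)
    (hγ : ∀ i j, ∀ p ∈ C.U i r ∩ C.U j r, HolAt (F i * γ i j) p) (hi : p ∈ C.U i r)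
    (hj : p ∈ C.U j r) : SmAt (C.sce F γ i j) p :=
  (C.sc_sm hr hγ hi).sub ((hF.hol i j p ⟨hi, hj⟩).smAt.mul (C.sc_sm hr hγ hj))

theorem sc_db (hr : 1 < r) (hF : C.Fr F r B)
    (hγ : ∀ i j, ∀ p ∈ C.U i r ∩ C.U j r, HolAt (F i * γ i j) p) (hi : p ∈ C.U i r)
    (hj : p ∈ C.U j r) : C.db (C.sce F γ i j) p =
      C.db (F i * C.scm γ i) p - (F i p / F j p) • C.db (F j * C.scm γ j) p := by
  have h := hF.hol i j p ⟨hi, hj⟩
  rw [sce, C.db_sub (C.sc_sm hr hγ hi) (h.smAt.mul (C.sc_sm hr hγ hj)),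
    C.db_mul h.smAt (C.sc_sm hr hγ hj), C.db_hol h]
  ext v
  simp

theorem sc_bd (hr : 1 < r) (hF : C.Fr F r B)
    (hγ : ∀ i j, ∀ p ∈ C.U i r ∩ C.U j r, HolAt (F i * γ i j) p) (hi : p ∈ C.U i r)
    (hj : p ∈ C.U j r) {X L : ℝ} (hX : 0 ≤ X) (hL0 : 0 ≤ L)
    (hL : ∀ l, ‖C.db (fun q => (C.rho l q : ℂ)) p‖ ≤ L)
    (hc : ∀ l, p ∈ C.U l r → ‖γ i j p + γ j l p - γ i l p‖ ≤ X) :
    ‖C.db (C.sce F γ i j) p‖ ≤ (C.nb i).card * (B * X * L) := by
  have hB : 0 ≤ B := (norm_nonneg _).trans (hF.bd i p hi).1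
  set G : C.I → M → ℂ := fun l => F i * (γ i j + γ j l - γ i l) with hG
  have h1 : ∀ l, p ∈ C.U l r → HolAt (G l) p := fun l hl => by
    refine (((hγ i j p ⟨hi, hj⟩).add ((hF.hol i j p ⟨hi, hj⟩).mul (hγ j l p ⟨hj, hl⟩))).sub
      (hγ i l p ⟨hi, hl⟩)).congr ?_
    filter_upwards [(C.isOpen_U j r).mem_nhds hj] with q hq
    have := hF.ne j q hq
    simp only [hG, Pi.sub_apply, Pi.add_apply, Pi.mul_apply, Pi.div_apply]
    field_simp
  have h2 : ∀ l, SmAt (fun q => (C.rho l q : ℂ) * G l q) p := fun l =>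
    C.rho_mul_sm hr fun hl => (h1 l hl).smAt
  have h3 : C.sce F γ i j =ᶠ[𝓝 p]
      F i * γ i j - fun q => ∑ l ∈ C.nb i, (C.rho l q : ℂ) * G l q := by
    filter_upwards [(C.isOpen_U i r).mem_nhds hi, (C.isOpen_U j r).mem_nhds hj] with q k1 k2
    rw [C.sc_eq hF k2, C.sc_sub k1.1 k2.1, mul_sub, Finset.mul_sum]
    simp only [hG, Pi.sub_apply, Pi.add_apply, Pi.mul_apply, smul_eq_mul]
    congr 1
    exact Finset.sum_congr rfl fun l _ => by ring
  have h4 : SmAt (fun q => ∑ l ∈ C.nb i, (C.rho l q : ℂ) * G l q) p :=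
    (SmAt.sum (W := C.nb i) fun l _ => h2 l).congr (Eventually.of_forall fun q => by simp)
  rw [C.db_congr h3, C.db_sub (hγ i j p ⟨hi, hj⟩).smAt h4, C.db_hol (hγ i j p ⟨hi, hj⟩), zero_sub,
    norm_neg, C.db_sum _ fun l _ => h2 l]
  refine (norm_sum_le _ _).trans ((Finset.sum_le_card_nsmul _ _ (B * X * L) fun l _ => ?_).trans
    (by simp))
  by_cases hl : p ∈ C.U l r
  · have e := C.db_mul (C.rho_sm l p) (h1 l hl).smAt
    rw [C.db_hol (h1 l hl), show ((C.rho l p : ℂ) • (0 : C2 →L[ℝ] ℂ)) = 0 from by ext; simp,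
      zero_add] at e
    rw [show (fun q => (C.rho l q : ℂ) * G l q) = (fun q => (C.rho l q : ℂ)) * G l from rfl, e,
      norm_smul]
    refine mul_le_mul ?_ (hL l) (norm_nonneg _) (by positivity)
    rw [show G l p = F i p * (γ i j p + γ j l p - γ i l p) from rfl, norm_mul]
    exact mul_le_mul (hF.bd i p hi).1 (hc l hl) (norm_nonneg _) hB
  · rw [C.db_congr (h := fun _ => 0) ((C.rho_ev hr hl).mono fun q hq => by simp [hq]), C.db_const,
      norm_zero]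
    positivity

theorem sc_df (hr : 1 < r) (hF : C.Fr F r B)
    (hγ : ∀ i j, ∀ p ∈ C.U i r ∩ C.U j r, HolAt (F i * γ i j) p) (hi : p ∈ C.U i r)
    (hj : p ∈ C.U j r) : C.Prim (C.df F (fun i q => ∑ l ∈ C.nb i,
      (C.rho l q : ℂ) • C.db (C.sce F γ i l) q) i j) (C.sce F γ i j) p := by
  refine ⟨C.sc_sme hr hF hγ hi hj, ?_⟩
  filter_upwards [(C.isOpen_U i r).mem_nhds hi, (C.isOpen_U j r).mem_nhds hj] with q k1 k2
  have h1 := C.sum_rho (W := C.nb i) fun l hl => C.mem_nb k1.1 hl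
  simp only [df]
  rw [C.sum_nb (fun l => C.db (C.sce F γ j l) q) (W' := C.nb i) (fun l hl => C.mem_nb k2.1 hl)
    (fun l hl => C.mem_nb k1.1 hl)]
  ext v
  simp only [ContinuousLinearMap.sub_apply, ContinuousLinearMap.smul_apply,
    ContinuousLinearMap.sum_apply, smul_eq_mul]
  rw [Finset.mul_sum, ← Finset.sum_sub_distrib, ← one_mul (C.db (C.sce F γ i j) q v), ← h1,
    Finset.sum_mul]
  refine Finset.sum_congr rfl fun l _ => ?_
  by_cases h0 : C.rho l q = 0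
  · simp [h0]
  · have k3 := C.rho_U hr h0
    have n2 := hF.ne j q k2
    rw [C.sc_db hr hF hγ k1 k2, C.sc_db hr hF hγ k1 k3, C.sc_db hr hF hγ k2 k3]
    simp only [ContinuousLinearMap.sub_apply, ContinuousLinearMap.smul_apply, smul_eq_mul]
    field_simp
    ring

theorem sc_of {r r₁ δ : ℝ} (h1 : 1 < r₁) (h2 : r₁ ≤ r) (hδ : 0 ≤ δ) (B K : ℝ) :
    ∃ K₁, 0 ≤ K₁ ∧ ∀ F, C.Fr F r B → C.S2 F r r₁ δ K → C.S2c F r r₁ δ K₁ := by
  have hr : 1 < r := h1.trans_le h2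
  obtain ⟨m, hm⟩ := C.card_nb
  obtain ⟨L, hL0, hL⟩ := C.db_rho
  obtain ⟨L', hL1, hL'⟩ := C.wt_nb hδ
  refine ⟨m + |K| * (m * (m * (|B| * L))) * (1 + L'), by positivity,
    fun F hF hS c D γ hD hγ hc => ?_⟩
  have hw := C.wt_pos
  obtain ⟨f, hf, hf'⟩ := hS c (m * (m * (|B| * L)) * D) (fun i q => ∑ l ∈ C.nb i,
      (C.rho l q : ℂ) • C.db (C.sce F γ i l) q) ⟨by positivity, fun i p hp => C.smF_sum _
        fun l _ => C.rho_smul_smF hr fun hl => smF_db (C.sc_sme hr hF hγ hp hl), fun i p hp => by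
      have hB : 0 ≤ B := (norm_nonneg _).trans (hF.bd i p hp).1
      have h3 := hw (2 * δ) c i
      refine (C.sc_avg _ (X := m * (B * (D * C.wt (2 * δ) c i) * L)) (by positivity)
        fun l h0 => ?_).trans (le_of_eq (by rw [hm, abs_of_nonneg hB]; ring))
      rw [← hm i]
      exact C.sc_bd hr hF hγ hp (C.rho_U hr h0) (by positivity) hL0 (fun l' => hL l' p)
        fun l' hl' => hc i l l' p ⟨⟨hp, C.rho_U hr h0⟩, hl'⟩,
      fun i j p hp => ⟨_, C.sc_df hr hF hγ hp.1 hp.2⟩⟩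
  refine ⟨fun i j => C.scm γ i - f i - (C.scm γ j - f j), fun i j p hp => ⟨?_, ?_⟩,
    fun i j l p _ => by simp⟩
  · have k2 := C.U_mono j h2 hp.2
    refine ((C.sc_df hr hF hγ (C.U_mono i h2 hp.1) k2).hol_sub (hf' i j p hp)).congr ?_
    filter_upwards [(C.isOpen_U j r).mem_nhds k2] with q hq
    simp only [Pi.sub_apply, Pi.mul_apply, C.sc_eq hF hq]
    ring
  · have h3 := hw (2 * δ) c i
    have h4 := hw δ c i
    have a1 := C.sc_avg (C.nb i) (x := fun l => γ i j p + γ j l p - γ i l p)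
      (X := D * C.wt (2 * δ) c i) (by positivity) fun l h0 =>
        hc i j l p ⟨⟨C.U_mono i h2 hp.1, C.U_mono j h2 hp.2⟩, C.rho_U hr h0⟩
    have e : (C.scm γ i - f i - (C.scm γ j - f j)) p - γ i j p =
        f j p - f i p - ∑ l ∈ C.nb i, (C.rho l p : ℂ) • (γ i j p + γ j l p - γ i l p) := by
      have := C.sc_sub (γ := γ) hp.1.1 hp.2.1
      simp only [Pi.sub_apply]
      linear_combination this
    set D' : ℝ := m * (m * (|B| * L)) * D with hD'
    have d0 : 0 ≤ D' := by positivity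
    have a2 : ∀ l, p ∈ C.U l r₁ → ‖f l p‖ ≤ |K| * D' * C.wt δ c l := fun l hl =>
      (hf l p hl).trans (mul_le_mul_of_nonneg_right
        (mul_le_mul_of_nonneg_right (le_abs_self K) d0) (hw _ _ _).le)
    have a3 : |K| * D' * C.wt δ c j ≤ |K| * D' * (L' * C.wt δ c i) :=
      mul_le_mul_of_nonneg_left (hL' c i j (C.mem_nb hp.1.1 hp.2.1)) (by positivity)
    have a4 : (m : ℝ) * (D * C.wt (2 * δ) c i) ≤ m * (D * C.wt δ c i) :=
      mul_le_mul_of_nonneg_left (mul_le_mul_of_nonneg_left (C.wt_mono (by linarith) c i) hD)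
        (by positivity)
    rw [hm] at a1
    rw [e]
    refine (norm_sub_le _ _).trans ((add_le_add (norm_sub_le _ _) a1).trans ?_)
    have a5 := a2 i hp.1
    have a6 := a2 j hp.2
    have e2 : (m + |K| * (m * (m * (|B| * L))) * (1 + L')) * D * C.wt δ c i =
        |K| * D' * (L' * C.wt δ c i) + |K| * D' * C.wt δ c i + m * (D * C.wt δ c i) := by
      rw [hD']; ring
    rw [e2]
    linarith

theorem s2c_of {r r' δ K : ℝ} (h1 : 1 < r') (h2 : r' < r) (_ : r ≤ 3) (hδ : 0 < δ)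
    (_ : 0 ≤ K) (B : ℝ) : ∃ K' : ℝ, 0 ≤ K' ∧ ∀ F, C.Fr F r B → C.S2 F r r' δ K →
      C.S2c F r r' δ K' := C.sc_of h1 h2.le hδ.le B K

theorem s2c {r r' B δ : ℝ} {G : ℕ → C.I → M → ℂ} (hG : ∀ n, C.Fr (G n) r B) (hN : C.NoLim G r)
    (hδ : 0 < δ) (h1 : 1 < r') (h2 : r' < r) (h3 : r ≤ 3) :
    ∃ K : ℝ, 0 ≤ K ∧ ∀ᶠ n in atTop, C.S2c (G n) r r' δ K := by
  obtain ⟨K, hK, h⟩ := C.s2 hG hN hδ h1 h2 h3
  obtain ⟨K', hK', h'⟩ := C.s2c_of h1 h2 h3 hδ hK B
  exact ⟨K', hK', h.mono fun n hn => h' _ (hG n) hn⟩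

end Cov

end Vale.Agent.P267
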