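import Vale.Agent.P267S.SA9

/-! P267, solver part A: decay of the oscillation at an end. -/

open scoped Manifold ContDiff Topology
open Filter Metric Set

noncomputable section

namespace Vale.Agent.P267

set_option linter.unusedSectionVars false

variable {M : Type} [TopologicalSpace M] [ChartedSpace C2 M] [T2Space M]

namespace Cov
variable (C : Cov M) [ConnectedSpace M]

theorem sa_end : ∃ η : ℝ, 0 < η ∧ ∀ (σ : ℝ) (h : M → ℂ) (F : C.I → M → ℂ) (ε B T : ℝ),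
    |σ| = 1 → 0 < ε → (∀ p, 0 ≤ σ * C.t p → ‖h p‖ ≤ B * Real.exp (η * (σ * C.t p))) →
    (∀ i : C.I, T ≤ -σ * i.2 → ∀ p ∈ C.U i 1,
      HolAt (h - F i) p ∧ ‖F i p‖ ≤ B * Real.exp (-ε * |(i.2 : ℝ)|)) →
    ∃ l D : ℝ, 0 < l ∧ ∀ p q, 0 ≤ σ * C.t p → 0 ≤ σ * C.t q → |C.t p - C.t q| ≤ 2 →
      ‖h p - h q‖ * Real.exp (l * (σ * C.t p)) ≤ D := by
  obtain ⟨η₀, h0, hL⟩ := C.liou_og
  refine ⟨η₀ / 2, by positivity, fun σ h F ε B T hσ hε hg hF => ?_⟩
  obtain ⟨l, l0, l1, l2⟩ : ∃ l : ℝ, 0 < l ∧ l ≤ η₀ / 4 ∧ l ≤ ε / 2 :=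
    ⟨min (η₀ / 4) (ε / 2), lt_min (by positivity) (by positivity), min_le_left _ _,
      min_le_right _ _⟩
  refine ⟨l, ?_⟩
  by_contra hc
  have ha : ∀ x : ℝ, |σ * x| = |x| := fun x => by rw [abs_mul, hσ, one_mul]
  have hpk := sa_peak (X := {x : M × M // 0 ≤ σ * C.t x.1 ∧ 0 ≤ σ * C.t x.2 ∧
      |C.t x.1 - C.t x.2| ≤ 2}) (fun x => σ * C.t x.1.1) (fun x => ‖h x.1.1 - h x.1.2‖)
    (fun _ => norm_nonneg _) (c := η₀ / 2) (l := l) (B := |B| + |B| * Real.exp η₀)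
    (by positivity) l0.le (fun x => x.2.1) (fun x => by
      have h1 := (hg _ x.2.1).trans (mul_le_mul_of_nonneg_right (le_abs_self B) (Real.exp_pos _).le)
      have h2 := (hg _ x.2.2.1).trans
        (mul_le_mul_of_nonneg_right (le_abs_self B) (Real.exp_pos _).le)
      have h3 : |σ * C.t x.1.1 - σ * C.t x.1.2| ≤ 2 := by rw [← mul_sub, ha]; exact x.2.2.2
      have h4 : Real.exp (η₀ / 2 * (σ * C.t x.1.2)) ≤
          Real.exp η₀ * Real.exp (η₀ / 2 * (σ * C.t x.1.1)) := by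
        rw [← Real.exp_add]
        exact Real.exp_le_exp.2 (by nlinarith [(abs_le.1 h3).1])
      have h5 := mul_le_mul_of_nonneg_left h4 (abs_nonneg B)
      have h6 := norm_sub_le (h x.1.1) (h x.1.2)
      linarith)
    (fun ⟨D, hD⟩ => hc ⟨D, l0, fun p q a b c => hD ⟨(p, q), a, b, c⟩⟩)
  choose x hx1 hx2 hx3 using fun N : ℕ => hpk N
  obtain ⟨m, hm⟩ : ∃ m : ℕ → ℤ, ∀ N, |C.t (x N).1.1 - m N| ≤ 1 :=
    ⟨fun N => ⌊C.t (x N).1.1⌋, fun N => abs_le.2
      ⟨by linarith [Int.floor_le (C.t (x N).1.1)], by linarith [Int.lt_floor_add_one (C.t (x N).1.1)]⟩⟩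
  have hm1 : ∀ N, σ * C.t (x N).1.1 - 1 ≤ σ * m N := fun N => by
    have h1 := hm N
    rw [← ha, mul_sub] at h1
    linarith [(abs_le.1 h1).2]
  set φ : ℕ → ℝ := fun N => ‖h (x N).1.1 - h (x N).1.2‖ with hφ
  have φ0 : ∀ N, 0 < φ N := fun N => by
    refine (norm_nonneg _).lt_of_ne fun e => ?_
    have h1 := hx2 N
    rw [← e, zero_mul] at h1
    linarith
  have φn : ∀ N (z : ℂ), ‖((φ N : ℂ))⁻¹ * z‖ = (φ N)⁻¹ * ‖z‖ := fun N z => by
    rw [norm_mul, norm_inv, Complex.norm_real, Real.norm_of_nonneg (φ0 N).le]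
  obtain ⟨p₀⟩ : Nonempty M := inferInstance
  let H : ℕ → M → ℂ := fun N p => ((φ N : ℂ))⁻¹ * (h ((C.g ^ m N) p) - h ((C.g ^ m N) p₀))
  have Hd : ∀ N p q, H N p - H N q = ((φ N : ℂ))⁻¹ * (h ((C.g ^ m N) p) - h ((C.g ^ m N) q)) :=
    fun N p q => by simp only [H]; ring
  have big : ∀ A : ℝ, ∀ᶠ N : ℕ in hyperfilter ℕ, A ≤ N := fun A =>
    Nat.hyperfilter_le_atTop (tendsto_natCast_atTop_atTop.eventually_ge_atTop A)
  have hosc : ∀ A : ℝ, ∀ᶠ N : ℕ in hyperfilter ℕ, ∀ p q, |C.t p| ≤ A → |C.t p - C.t q| ≤ 2 →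
      ‖H N p - H N q‖ ≤ 2 * Real.exp (η₀ * (|C.t p| + 1)) := fun A => by
    filter_upwards [big (A + 3)] with N hN p q hp hq
    have h1 : |σ * C.t p| ≤ A := (ha _).symm ▸ hp
    have h2 : |σ * C.t p - σ * C.t q| ≤ 2 := by rw [← mul_sub, ha]; exact hq
    have h3 := hm1 N
    have h4 := hx1 N
    have h5 := hx3 N ⟨((C.g ^ m N) p, (C.g ^ m N) q), by
      rw [C.t_gz, mul_add]; linarith [(abs_le.1 h1).1], by
      rw [C.t_gz, mul_add]; linarith [(abs_le.1 h1).1, (abs_le.1 h2).2], by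
      rw [C.t_gz, C.t_gz]; simpa using hq⟩
    dsimp only at h5
    rw [← mul_sub, ha, C.t_gz] at h5
    have h6 : |C.t p + m N - C.t (x N).1.1| ≤ |C.t p| + 1 := by
      rw [add_sub_assoc]
      exact (abs_add_le _ _).trans (add_le_add le_rfl (by rw [abs_sub_comm]; exact hm N))
    have h7 : Real.exp ((η₀ / 2 + 2 * l) * |C.t p + m N - C.t (x N).1.1|) ≤
        Real.exp (η₀ * (|C.t p| + 1)) :=
      Real.exp_le_exp.2 (mul_le_mul (by linarith) h6 (abs_nonneg _) h0.le)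
    rw [Hd, φn, inv_mul_le_iff₀ (φ0 N)]
    have h8 := mul_le_mul_of_nonneg_left h7 (φ0 N).le
    simp only [hφ] at h8 ⊢
    linarith
  have hb : C.Lb (hyperfilter ℕ) H := fun A => by
    obtain ⟨D, hD⟩ := C.sa_osc_bd p₀ A
    refine ⟨D * (2 * Real.exp (η₀ * (A + |C.t p₀| + 2 + 1))), ?_⟩
    filter_upwards [hosc (A + |C.t p₀| + 2)] with N hN
    refine hD _ _ (by simp [H]) fun p q hp hq => (hN p q hp hq).trans ?_
    gcongr
  let F' : ℕ → C.I → M → ℂ := fun N i p => ((φ N : ℂ))⁻¹ * F (i.1, i.2 - m N) ((C.g ^ m N) p)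
  have hj : ∀ i : C.I, ∀ᶠ N : ℕ in hyperfilter ℕ, T ≤ -σ * ((i.2 - m N : ℤ) : ℝ) := fun i => by
    filter_upwards [big (T + |(i.2 : ℝ)| + 1)] with N hN
    have h1 := le_abs_self (σ * i.2)
    rw [ha] at h1
    push_cast
    linarith [hm1 N, hx1 N]
  have hs : C.Sml (hyperfilter ℕ) F' := fun i e he => by
    have h1 : Tendsto (fun N : ℕ => |B| * Real.exp (ε * (1 + |(i.2 : ℝ)|)) *
        Real.exp (-(ε / 2 * N))) atTop (𝓝 0) := by
      simpa using (Real.tendsto_exp_neg_atTop_nhds_zero.comp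
        (tendsto_natCast_atTop_atTop.const_mul_atTop (half_pos hε))).const_mul
          (|B| * Real.exp (ε * (1 + |(i.2 : ℝ)|)))
    filter_upwards [hj i, Nat.hyperfilter_le_atTop (h1.eventually_le_const he)] with N hN h2 p hp
    have h3 := (hF (i.1, i.2 - m N) hN _ ((C.U_shift i _ _ p).2 hp)).2.trans
      (mul_le_mul_of_nonneg_right (le_abs_self B) (Real.exp_pos _).le)
    have h4 : (φ N)⁻¹ ≤ Real.exp (l * (σ * C.t (x N).1.1)) := by
      rw [inv_le_iff_one_le_mul₀' (φ0 N)]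
      exact hx2 N
    have h5 : σ * C.t (x N).1.1 - 1 - |(i.2 : ℝ)| ≤ |((i.2 - m N : ℤ) : ℝ)| := by
      have h6 := le_abs_self (σ * m N)
      have h7 := abs_sub_abs_le_abs_sub (m N : ℝ) i.2
      rw [ha] at h6
      rw [abs_sub_comm] at h7
      push_cast
      linarith [hm1 N]
    refine le_trans ?_ h2
    simp only [F', φn]
    refine (mul_le_mul h4 h3 (norm_nonneg _) (Real.exp_pos _).le).trans ?_
    rw [mul_left_comm, mul_assoc, ← Real.exp_add, ← Real.exp_add]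
    refine mul_le_mul_of_nonneg_left (Real.exp_le_exp.2 ?_) (abs_nonneg B)
    have h8 := mul_le_mul_of_nonneg_left h5 hε.le
    have h9 := mul_le_mul_of_nonneg_right l2 (x N).2.1
    have h10 := mul_le_mul_of_nonneg_left (hx1 N) (half_pos hε).le
    linarith
  have hM := C.montelF (hyperfilter ℕ) hb hs fun i => by
    filter_upwards [hj i] with N hN p hp
    have h1 := (C.hol_gz (m N)).2 (hF (i.1, i.2 - m N) hN _ ((C.U_shift i _ _ p).2 hp)).1
    refine ((h1.sub (holAt_const (h ((C.g ^ m N) p₀)))).smul ((φ N : ℂ))⁻¹).congr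
      (Eventually.of_forall fun q => ?_)
    simp only [H, F', Pi.smul_apply, Pi.sub_apply, Function.comp_apply, smul_eq_mul]
    ring
  obtain ⟨c, hc⟩ := hL _ (fun p => (hM p).1) ⟨2 * Real.exp η₀, fun p q hq => by
    refine le_of_tendsto ((hb.tendsto p).sub (hb.tendsto q)).norm ?_
    filter_upwards [hosc |C.t p|] with N hN
    refine (hN p q le_rfl hq).trans_eq ?_
    rw [mul_assoc, ← Real.exp_add]
    congr 2
    ring⟩
  obtain ⟨y, hy⟩ := C.sa_slab (hyperfilter ℕ) (w := fun N => (C.g ^ (-m N)) (x N).1.1) (T := 1)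
    (Eventually.of_forall fun N => by rw [C.t_gz]; simpa [sub_eq_add_neg] using hm N)
  obtain ⟨z, hz⟩ := C.sa_slab (hyperfilter ℕ) (w := fun N => (C.g ^ (-m N)) (x N).1.2) (T := 3)
    (Eventually.of_forall fun N => by
      have h1 := abs_le.1 (hm N)
      have h2 := abs_le.1 (x N).2.2.2
      rw [C.t_gz, abs_le]
      push_cast
      constructor <;> linarith [h1.1, h1.2, h2.1, h2.2])
  have h1 := (((hM y).2 _ hy).sub ((hM z).2 _ hz)).norm
  rw [hc, hc, sub_self, norm_zero] at h1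
  have h2 : ∀ N, ‖H N ((C.g ^ (-m N)) (x N).1.1) - H N ((C.g ^ (-m N)) (x N).1.2)‖ = 1 :=
    fun N => by
      rw [Hd, φn, C.cb_zpow_neg', C.cb_zpow_neg']
      exact inv_mul_cancel₀ (φ0 N).ne'
  simp only [h2] at h1
  exact one_ne_zero (tendsto_nhds_unique tendsto_const_nhds h1)

end Cov

end Vale.Agent.P267
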