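import Vale.Agent.P267S.SA7c
import Vale.Agent.P267S.SA10

/-! P267, solver part A: limits at the ends. -/

open scoped Manifold ContDiff Topology
open Filter Metric Set

noncomputable section

namespace Vale.Agent.P267

set_option linter.unusedSectionVars false

variable {M : Type} [TopologicalSpace M] [ChartedSpace C2 M] [T2Space M]

namespace Cov
variable {C : Cov M} [ConnectedSpace M] {F : C.I → M → ℂ} {s q h : M → ℂ} {r B : ℝ}

theorem sa_lim {σ l D : ℝ} (hσ : |σ| = 1) (hl : 0 < l)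
    (H : ∀ p q, 0 ≤ σ * C.t p → 0 ≤ σ * C.t q → |C.t p - C.t q| ≤ 2 →
      ‖h p - h q‖ * Real.exp (l * (σ * C.t p)) ≤ D) :
    ∃ (c : ℂ) (B : ℝ), ∀ p, 0 ≤ σ * C.t p → ‖h p - c‖ ≤ B * Real.exp (-l * (σ * C.t p)) := by
  obtain ⟨m, hm, hm2⟩ : ∃ m : ℤ, (m : ℝ) = σ ∧ σ * σ = 1 := by
    rcases (abs_eq zero_le_one).1 hσ with e | e
    · exact ⟨1, by simp [e], by simp [e]⟩
    · exact ⟨-1, by simp [e], by simp [e]⟩
  have hτ : ∀ (k : ℤ) p, σ * C.t ((C.g ^ (m * k)) p) = σ * C.t p + k := fun k p => by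
    rw [C.t_gz, Int.cast_mul, hm, mul_add, ← mul_assoc, hm2, one_mul]
  have H' : ∀ p q, 0 ≤ σ * C.t p → 0 ≤ σ * C.t q → |σ * C.t p - σ * C.t q| ≤ 2 →
      ‖h p - h q‖ ≤ D * Real.exp (-l * (σ * C.t p)) := fun p q hp hq hd => by
    rw [← mul_sub, abs_mul, hσ, one_mul] at hd
    rw [neg_mul, Real.exp_neg, ← div_eq_mul_inv, le_div_iff₀ (Real.exp_pos _)]
    exact H p q hp hq hd
  obtain ⟨p₁⟩ : Nonempty M := inferInstance
  obtain ⟨p₀, h0, h1⟩ : ∃ p₀, 0 ≤ σ * C.t p₀ ∧ σ * C.t p₀ ≤ 1 := by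
    refine ⟨(C.g ^ (m * -⌊σ * C.t p₁⌋)) p₁, ?_, ?_⟩ <;> rw [hτ, Int.cast_neg]
    · linarith [Int.floor_le (σ * C.t p₁)]
    · linarith [Int.lt_floor_add_one (σ * C.t p₁)]
  have hD : 0 ≤ D := by simpa using H p₀ p₀ h0 h0 (by simp)
  let x : ℕ → M := fun j => (C.g ^ (m * (j : ℤ))) p₀
  have hx : ∀ j : ℕ, σ * C.t (x j) = σ * C.t p₀ + j := fun j => by
    simp only [x, hτ, Int.cast_natCast]
  have hx0 : ∀ j : ℕ, 0 ≤ σ * C.t (x j) := fun j => by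
    rw [hx]
    positivity
  have hr : Real.exp (-l) < 1 := Real.exp_lt_one_iff.2 (neg_neg_of_pos hl)
  have hu : ∀ j : ℕ, dist (h (x j)) (h (x (j + 1))) ≤ D * Real.exp (-l) ^ j := fun j => by
    rw [dist_eq_norm, ← Real.exp_nat_mul]
    refine (H' _ _ (hx0 j) (hx0 (j + 1)) ?_).trans
      (mul_le_mul_of_nonneg_left (Real.exp_le_exp.2 ?_) hD)
    · rw [hx, hx, abs_le]
      push_cast
      constructor <;> linarith
    · rw [hx]
      nlinarith [mul_nonneg hl.le h0]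
  obtain ⟨c, hc⟩ := cauchySeq_tendsto_of_complete (cauchySeq_of_le_geometric _ D hr hu)
  refine ⟨c, D + D * Real.exp l / (1 - Real.exp (-l)), fun p hp => ?_⟩
  have e1 := Nat.floor_le hp
  have e2 := Nat.lt_floor_add_one (σ * C.t p)
  generalize ⌊σ * C.t p⌋₊ = j at e1 e2
  have b1 := H' p (x j) hp (hx0 j) (by
    rw [hx, abs_le]
    constructor <;> linarith)
  have b2 := dist_le_of_le_geometric_of_tendsto _ D hr hu hc j
  have b3 : Real.exp (-l) ^ j ≤ Real.exp l * Real.exp (-l * (σ * C.t p)) := by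
    rw [← Real.exp_nat_mul, ← Real.exp_add]
    exact Real.exp_le_exp.2 (by nlinarith)
  have b4 : D * Real.exp (-l) ^ j / (1 - Real.exp (-l)) ≤
      D * (Real.exp l * Real.exp (-l * (σ * C.t p))) / (1 - Real.exp (-l)) :=
    div_le_div_of_nonneg_right (mul_le_mul_of_nonneg_left b3 hD) (sub_pos.2 hr).le
  rw [dist_eq_norm] at b2
  refine (norm_sub_le_norm_sub_add_norm_sub _ (h (x j)) _).trans
    ((add_le_add b1 (b2.trans b4)).trans (le_of_eq ?_))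
  ring

theorem sa_core (C : Cov M) : ∃ η : ℝ, 0 < η ∧ ∀ (σ : ℝ) (s : M → ℂ) (ε B T : ℝ), |σ| = 1 →
    0 < ε → C.Gr s η → (∀ i : C.I, T ≤ -σ * i.2 → C.Near s i 1 (B * C.wt ε 0 i)) →
    ∃ (c : ℂ) (l D : ℝ), 0 < l ∧
      ∀ p, 0 ≤ σ * C.t p → ‖s p - c‖ ≤ D * Real.exp (-l * (σ * C.t p)) := by
  obtain ⟨η, hη, H⟩ := C.sa_end
  refine ⟨η, hη, fun σ s ε B T hσ hε ⟨A, hA⟩ hN => ?_⟩
  choose! G hG using hN
  obtain ⟨l, D, hl, hD⟩ := H σ s (fun i => s - G i) ε (max A B) T hσ hε (fun p hp => by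
    have e : |C.t p| = σ * C.t p := by rw [← abs_of_nonneg hp, abs_mul, hσ, one_mul]
    rw [← e]
    exact (hA p).trans (mul_le_mul_of_nonneg_right (le_max_left _ _) (Real.exp_pos _).le))
    fun i hi p hp => by
      refine ⟨by simpa only [sub_sub_cancel] using (hG i hi p hp).1, (hG i hi p hp).2.trans ?_⟩
      simp only [wt, Int.cast_zero, sub_zero]
      exact mul_le_mul_of_nonneg_right (le_max_right _ _) (Real.exp_pos _).le
  obtain ⟨c, D', h⟩ := sa_lim hσ hl hD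
  exact ⟨c, l, D', hl, h⟩

/-- Functions of slow growth that are almost holomorphic at the end `A`. -/
theorem limA_gr (C : Cov M) : ∃ η : ℝ, 0 < η ∧ ∀ (s : M → ℂ) (ε B : ℝ) (T : ℤ), 0 < ε →
    C.Gr s η → (∀ i : C.I, T ≤ i.2 → C.Near s i 1 (B * C.wt ε 0 i)) → ∃ c, C.LimA s c := by
  obtain ⟨η, hη, H⟩ := sa_core C
  refine ⟨η, hη, fun s ε B T hε hg hN => ?_⟩
  obtain ⟨c, l, D, hl, h⟩ := H (-1) s ε B T (by simp) hε hg fun i hi => hN i (by
    rw [neg_neg, one_mul] at hi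
    exact_mod_cast hi)
  refine ⟨c, l, D, 0, hl, fun p hp => ?_⟩
  simpa using h p (by linarith)

/-- Functions of slow growth that are almost holomorphic at the end `B`. -/
theorem limB_gr (C : Cov M) : ∃ η : ℝ, 0 < η ∧ ∀ (s : M → ℂ) (ε B : ℝ) (T : ℤ), 0 < ε →
    C.Gr s η → (∀ i : C.I, i.2 ≤ -T → C.Near s i 1 (B * C.wt ε 0 i)) → ∃ c, C.LimB s c := by
  obtain ⟨η, hη, H⟩ := sa_core C
  refine ⟨η, hη, fun s ε B T hε hg hN => ?_⟩
  obtain ⟨c, l, D, hl, h⟩ := H 1 s ε B T (by simp) hε hg fun i hi => hN i (by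
    have e : (i.2 : ℝ) ≤ -T := by linarith
    exact_mod_cast e)
  refine ⟨c, l, D, 0, hl, fun p hp => ?_⟩
  simpa using h p (by linarith)

theorem sa_near {i : C.I} {r' ε : ℝ} (h : C.Near s i r ε) (hr : r' ≤ r) : C.Near s i r' ε :=
  let ⟨G, hG⟩ := h
  ⟨G, fun p hp => hG p (C.U_mono i hr hp)⟩

theorem limA_near {ε : ℝ} {T : ℤ} (hb : Bdd s) (hε : 0 < ε)
    (H : ∀ i : C.I, T ≤ i.2 → C.Near s i (9 / 8) (B * C.wt ε 0 i)) : ∃ c, C.LimA s c := by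
  obtain ⟨η, hη, h⟩ := limA_gr C
  exact h s ε B T hε (C.sa_gr hb hη.le) fun i hi => sa_near (H i hi) (by norm_num)

theorem limB_near {ε : ℝ} {T : ℤ} (hb : Bdd s) (hε : 0 < ε)
    (H : ∀ i : C.I, i.2 ≤ -T → C.Near s i (9 / 8) (B * C.wt ε 0 i)) : ∃ c, C.LimB s c := by
  obtain ⟨η, hη, h⟩ := limB_gr C
  exact h s ε B T hε (C.sa_gr hb hη.le) fun i hi => sa_near (H i hi) (by norm_num)

/-- Bounded sections have limits at both ends. -/
theorem lim_tl (hr : 1 ≤ r) (hT : C.Tl F r) (hs : C.SecF F s) (hb : Bdd s) :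
    (∃ c, C.LimA s c) ∧ ∃ c, C.LimB s c := by
  obtain ⟨δ, D, hδ, hD⟩ := hT
  obtain ⟨A, hA⟩ := id hb
  have hN : ∀ i : C.I, C.Near s i 1 (D * A * C.wt δ 0 i) := fun i =>
    ⟨F i * s, fun p hp => ⟨hs i p hp, by
      have e : s p - (F i * s) p = -((F i p - 1) * s p) := by
        rw [Pi.mul_apply]
        ring
      have h1 := hD i p (C.U_mono i hr hp)
      rw [e, norm_neg, norm_mul, mul_right_comm]
      exact mul_le_mul h1 (hA p) (norm_nonneg _) ((norm_nonneg _).trans h1)⟩⟩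
  obtain ⟨η, hη, h⟩ := limA_gr C
  obtain ⟨η', hη', h'⟩ := limB_gr C
  exact ⟨h s δ _ 0 hδ (C.sa_gr hb hη.le) fun i _ => hN i,
    h' s δ _ 0 hδ (C.sa_gr hb hη'.le) fun i _ => hN i⟩

theorem zero_of_limB (hF : C.Fr F r B) (hr : 1 < r) (hT : C.Tl F r) (hs : C.SecF F s)
    (hb : Bdd s) (h0 : C.LimB s 0) : s = 0 :=
  zero_of_tendsto hF hr hT hs (C.sa_gr hb le_rfl) h0.tendsto

end Cov

end Vale.Agent.P267
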