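import Vale.Agent.P267S.SCLA

/-! P267, solver part C: relations between cocycles. -/

open scoped Topology
open Filter Metric Set

noncomputable section

namespace Vale.Agent.P267

set_option linter.unusedSectionVars false

variable {M : Type} [TopologicalSpace M] [ChartedSpace C2 M] [T2Space M]

namespace Cov
variable {C : Cov M} {φ P : C.I → M → ℂ} {Φ : ℕ → C.I → M → ℂ} {Ψ : C.I → M → ℂ} {δ B : ℝ}
  {N : ℕ}

theorem scalt_mem (p : M) {r : ℝ} (hr : 1 ≤ r) : p ∈ C.U (C.idx p) r := C.U_mono _ hr (C.mem_U_idx p)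

theorem scalt_Z1 {γ : M → ℂ} (h0 : ∀ p, γ p ≠ 0) (hγ : ∀ p, γ ((C.g ^ (N : ℤ)) p) = γ p)
    {H : C.I → C.I → M → ℂ} (hH : C.Coc Ψ N H) :
    (fun p q => H (C.idx p) (C.idx q) q / γ q) ∈
      Z1 (C.g ^ (N : ℤ) : M ≃ₜ M) (fun p => Ψ (C.idx p) * γ) := by
  refine Submodule.subset_span ⟨?_, fun p => ?_⟩
  · funext p q
    simp only [pull]
    rw [idx_sh, idx_sh, hH.ch.per, hγ]
  · filter_upwards [(C.isOpen_U (C.idx p) (9 / 8)).mem_nhds (scalt_mem p (by norm_num))] with q hq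
    have hq' : q ∈ C.U (C.idx q) (9 / 8) := scalt_mem q (by norm_num)
    refine (hH.ch.hol (C.idx q) (C.idx p) q ⟨hq', hq⟩).neg.congr ?_
    filter_upwards [(C.isOpen_U (C.idx p) (9 / 8)).mem_nhds hq,
      (C.isOpen_U (C.idx q) (9 / 8)).mem_nhds hq'] with y h1 h2
    have e := hH.coc (C.idx q) (C.idx p) (C.idx y) y ⟨⟨h2, h1⟩, scalt_mem y (by norm_num)⟩
    have := h0 y
    simp only [Pi.neg_apply, Pi.mul_apply, Pi.sub_apply]
    rw [← e]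
    field_simp
    ring

theorem scalt_h2 {γ : M → ℂ} (h0 : ∀ p, γ p ≠ 0) (hγ : ∀ p, γ ((C.g ^ (N : ℤ)) p) = γ p)
    (h2 : C.NoH2 Ψ N) (s : M → ℂ) (hs : s ∘ (C.g ^ (N : ℤ) : M ≃ₜ M) = s)
    (h : ∀ p, HolAt ((C.κ / fun p => Ψ (C.idx p) * γ) p * s) p) : s = 0 := by
  have h1 := h2 (s / γ) (fun p => by
    rw [Pi.div_apply, Pi.div_apply, hγ]
    exact congrArg (· / γ p) (congrFun hs p)) fun p => (h p).congr (Eventually.of_forall fun q => by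
      simp only [κ, Pi.mul_apply, Pi.div_apply]
      ring)
  funext q
  have h3 := congrFun h1 q
  simp only [Pi.div_apply, Pi.zero_apply, div_eq_zero_iff] at h3
  exact h3.resolve_right (h0 q)

theorem scalt_back (hf : C.Fr Ψ 2 B) {γ : M → ℂ} (h0 : ∀ p, γ p ≠ 0)
    {H₁ H₂ : C.I → C.I → M → ℂ} (h₁ : C.Coc Ψ N H₁) (h₂ : C.Coc Ψ N H₂) {α β : ℂ} {w : M → ℂ}
    (h : ∀ p, HolAt ((Ψ (C.idx p) * γ) * (α • (fun q => H₁ (C.idx p) (C.idx q) q / γ q) +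
      β • (fun q => H₂ (C.idx p) (C.idx q) q / γ q) - w)) p) (i : C.I) (p : M)
    (hp : p ∈ C.U i (9 / 8)) :
    HolAt (Ψ i * fun q => α * H₁ i (C.idx q) q + β * H₂ i (C.idx q) q - (γ * w) q) p := by
  have hp' : p ∈ C.U (C.idx p) (9 / 8) := scalt_mem p (by norm_num)
  have a1 : HolAt (Ψ (C.idx p) * fun q => α * H₁ (C.idx p) (C.idx q) q +
      β * H₂ (C.idx p) (C.idx q) q - (γ * w) q) p :=
    (h p).congr (Eventually.of_forall fun q => by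
      have := h0 q
      simp only [Pi.mul_apply, Pi.sub_apply, Pi.add_apply, Pi.smul_apply, smul_eq_mul]
      field_simp)
  have a2 := hf.hol_to (C.U_mono i (by norm_num) hp) (scalt_mem p (by norm_num)) a1
  refine ((((h₁.ch.hol i _ p ⟨hp, hp'⟩).smul α).add ((h₂.ch.hol i _ p ⟨hp, hp'⟩).smul β)).add
    a2).congr ?_
  filter_upwards [(C.isOpen_U i (9 / 8)).mem_nhds hp,
    (C.isOpen_U (C.idx p) (9 / 8)).mem_nhds hp'] with y y1 y2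
  have e1 := h₁.coc i (C.idx p) (C.idx y) y ⟨⟨y1, y2⟩, scalt_mem y (by norm_num)⟩
  have e2 := h₂.coc i (C.idx p) (C.idx y) y ⟨⟨y1, y2⟩, scalt_mem y (by norm_num)⟩
  simp only [Pi.mul_apply, Pi.add_apply, Pi.smul_apply, smul_eq_mul]
  rw [← e1, ← e2]
  ring

theorem scalt_per {γ w : M → ℂ} (hγ : ∀ p, γ ((C.g ^ (N : ℤ)) p) = γ p)
    (hw : w ∘ (C.g ^ (N : ℤ) : M ≃ₜ M) = w) (p : M) :
    (γ * w) ((C.g ^ (N : ℤ)) p) = (γ * w) p := by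
  rw [Pi.mul_apply, Pi.mul_apply, hγ]
  exact congrArg (γ p * ·) (congrFun hw p)

theorem scalt_ne {γ w : M → ℂ} (h0 : ∀ p, γ p ≠ 0) (hw : w ≠ 0) : γ * w ≠ 0 := fun h =>
  hw (funext fun q => (mul_eq_zero.1 (congrFun h q)).resolve_left (h0 q))

theorem alt_neg (hf : C.Fr Ψ 2 B) (hp : ∀ i p, Ψ (C.sh i N) ((C.g ^ (N : ℤ)) p) = Ψ i p)
    (h2 : C.NoH2 Ψ N) (he : C.Eul Ψ N (-1)) (p₀ : M) : C.Alt Ψ N 0 0 p₀ := by
  have _ := hp
  obtain ⟨γ, h0, hγ, he⟩ := he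
  intro H₁ H₂ h₁ h₂
  obtain ⟨α, β, w, hw, h, hn⟩ := la_neg he (scalt_h2 h0 hγ h2) (scalt_Z1 h0 hγ h₁)
    (scalt_Z1 h0 hγ h₂)
  exact ⟨α, β, γ * w, scalt_per hγ hw, scalt_back hf h0 h₁ h₂ h,
    hn.imp_right fun h => h.imp_right (scalt_ne h0), zero_mul _, zero_mul _⟩

theorem alt_pos (hf : C.Fr Ψ 2 B) (hp : ∀ i p, Ψ (C.sh i N) ((C.g ^ (N : ℤ)) p) = Ψ i p)
    (h2 : C.NoH2 Ψ N) (he : C.Eul Ψ N 0) (p₀ : M) : C.Alt Ψ N 1 0 p₀ := by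
  have _ := hp
  obtain ⟨γ, h0, hγ, he⟩ := he
  intro H₁ H₂ h₁ h₂
  obtain ⟨β, w, hw, h, hn⟩ := la_pos he (scalt_h2 h0 hγ h2) (scalt_Z1 h0 hγ h₂)
  refine ⟨0, β, γ * w, scalt_per hγ hw, scalt_back hf h0 h₁ h₂ fun p => ?_,
    Or.inr (hn.imp_right (scalt_ne h0)), mul_zero _, zero_mul _⟩
  rw [zero_smul, zero_add]
  exact h p

theorem alt_one (hN : 0 < N) (hL : C.Liou) (h2 : C.NoH2 1 N) (he : C.Eul 1 N 0) (p₀ : M) :
    C.Alt 1 N 0 1 p₀ := by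
  obtain ⟨γ, h0, hγ, he⟩ := he
  intro H₁ H₂ h₁ h₂
  obtain ⟨α, β, w, hw, h, hn⟩ := la_one he (scalt_h2 h0 hγ h2) γ⁻¹ (fun s hs hh => by
    have a1 : ∀ p, HolAt (γ * s) p := fun p => by simpa using hh p
    obtain ⟨D, hD⟩ := bdd_per hN (scalt_per hγ hs) fun p => ⟨‖(γ * s) p‖ + 1,
      (a1 p).continuousAt.norm.eventually (ge_mem_nhds (lt_add_one _))⟩
    have a2 := hL (γ * s) (D + D) a1 fun σ p q _ _ =>
      (norm_sub_le _ _).trans (add_le_add (hD p) (hD q))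
    refine ⟨(γ * s) p₀, funext fun q => ?_⟩
    have := h0 q
    rw [← a2 q p₀]
    simp only [Pi.mul_apply, Pi.smul_apply, Pi.inv_apply, smul_eq_mul]
    field_simp) (scalt_Z1 h0 hγ h₁) (scalt_Z1 h0 hγ h₂)
  refine ⟨α, β, fun q => (γ * w) q - (γ * w) p₀, fun p => congrArg (· - (γ * w) p₀) (scalt_per hγ hw p),
    fun i p hp => ?_,
    hn.imp_right Or.inl, zero_mul _, by simp⟩
  refine ((scalt_back tc_one.fr h0 h₁ h₂ h i p hp).add (holAt_const ((γ * w) p₀))).congr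
    (Eventually.of_forall fun q => ?_)
  simp only [Pi.mul_apply, Pi.add_apply, Pi.one_apply, one_mul]
  ring

end Cov

end Vale.Agent.P267
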