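import Vale.Agent.P267S.SC2

/-! P267, solver part C: periodic correction of almost closed cochains. -/

open scoped Topology
open Filter Metric Set

noncomputable section

namespace Vale.Agent.P267

set_option linter.unusedSectionVars false

variable {M : Type} [TopologicalSpace M] [ChartedSpace C2 M] [T2Space M]

namespace Cov
variable {C : Cov M} {φ P : C.I → M → ℂ} {Φ : ℕ → C.I → M → ℂ} {Ψ : C.I → M → ℂ} {δ B : ℝ}
  {N : ℕ}

/-- The part of a cochain in one fundamental domain. -/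
def crCut (N : ℕ) (c : ℤ) (h : C.I → C.I → M → ℂ) (i j : C.I) : M → ℂ :=
  if c ≤ i.2 ∧ i.2 < c + N then h i j else 0

theorem cr_defect {h : C.I → C.I → M → ℂ} {η ε : ℝ} {c : ℤ} (hε : 0 < ε) (hη : 0 ≤ η)
    (hR : 0 ≤ C.R) (hh : C.Ch1 Ψ N (5 / 4) h)
    (hd : ∀ i j l, ∀ p ∈ C.U i (5 / 4) ∩ C.U j (5 / 4) ∩ C.U l (5 / 4),
      ‖h i j p + h j l p - h i l p‖ ≤ η)
    (hs : ∀ i j : C.I, |(i.2 : ℝ) - c| ≤ 2 * C.R + 1 → ∀ p ∈ C.U i (5 / 4) ∩ C.U j (5 / 4),
      ‖h i j p‖ ≤ η) (i j l : C.I) (p : M)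
    (hp : p ∈ C.U i (5 / 4) ∩ C.U j (5 / 4) ∩ C.U l (5 / 4)) :
    ‖crCut N c h i j p + crCut N c h j l p - crCut N c h i l p‖ ≤
      η * (2 * Real.exp (2 * ε * (N + 2 * C.R + 1))) * C.wt (2 * ε) c i := by
  have hij := abs_le.1 (lev_close hp.1.1 hp.1.2)
  have hN : (0 : ℝ) ≤ N := Nat.cast_nonneg N
  have h1 : |(j.2 : ℝ) - c| ≤ 2 * C.R + 1 ∨ |(j.2 : ℝ) - (c + N)| ≤ 2 * C.R + 1 →
      ‖h j l p‖ ≤ η := by
    rintro (h1 | h1)
    · exact hs j l h1 p ⟨hp.1.2, hp.2⟩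
    · rw [← hh.per]
      refine hs _ _ ?_ _ ⟨(sh_mem _ _ _ _).2 hp.1.2, (sh_mem _ _ _ _).2 hp.2⟩
      have e : (((C.sh j N).2 : ℤ) : ℝ) - c = j.2 - (c + N) := by
        simp only [sh]
        push_cast
        ring
      rwa [e]
  have h2 : |(i.2 : ℝ) - c| ≤ N + 2 * C.R + 1 → 2 * η ≤
      η * (2 * Real.exp (2 * ε * (N + 2 * C.R + 1))) * C.wt (2 * ε) c i := fun h2 => by
    have h3 : 1 ≤ Real.exp (2 * ε * (N + 2 * C.R + 1)) * C.wt (2 * ε) c i := by
      rw [wt, ← Real.exp_add]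
      refine Real.one_le_exp ?_
      nlinarith
    nlinarith
  unfold crCut
  by_cases hi : c ≤ i.2 ∧ i.2 < c + N
  · have hi1 : (c : ℝ) ≤ i.2 := by exact_mod_cast hi.1
    have hi2 : (i.2 : ℝ) < c + N := by exact_mod_cast hi.2
    refine le_trans ?_ (h2 (abs_le.2 ⟨by linarith, by linarith⟩))
    rw [if_pos hi, if_pos hi]
    by_cases hj : c ≤ j.2 ∧ j.2 < c + N
    · rw [if_pos hj]
      linarith [hd i j l p hp]
    · rw [if_neg hj]
      have h4 : ‖h j l p‖ ≤ η := h1 (by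
        rcases not_and_or.1 hj with h5 | h5
        · have h6 : (j.2 : ℝ) < c := by exact_mod_cast not_le.1 h5
          exact Or.inl (abs_le.2 ⟨by linarith, by linarith⟩)
        · have h6 : (c : ℝ) + N ≤ j.2 := by exact_mod_cast not_lt.1 h5
          exact Or.inr (abs_le.2 ⟨by linarith, by linarith⟩))
      have e : h i j p + (0 : M → ℂ) p - h i l p = (h i j p + h j l p - h i l p) - h j l p := by
        rw [Pi.zero_apply]
        ring
      rw [e]
      linarith [norm_sub_le (h i j p + h j l p - h i l p) (h j l p), hd i j l p hp]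
  · rw [if_neg hi, if_neg hi]
    by_cases hj : c ≤ j.2 ∧ j.2 < c + N
    · have hj1 : (c : ℝ) ≤ j.2 := by exact_mod_cast hj.1
      have hj2 : (j.2 : ℝ) < c + N := by exact_mod_cast hj.2
      refine le_trans ?_ (h2 (abs_le.2 ⟨by linarith, by linarith⟩))
      have h4 : ‖h j l p‖ ≤ η := h1 (by
        rcases not_and_or.1 hi with h5 | h5
        · have h6 : (i.2 : ℝ) < c := by exact_mod_cast not_le.1 h5
          exact Or.inl (abs_le.2 ⟨by linarith, by linarith⟩)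
        · have h6 : (c : ℝ) + N ≤ i.2 := by exact_mod_cast not_lt.1 h5
          exact Or.inr (abs_le.2 ⟨by linarith, by linarith⟩))
      rw [if_pos hj, Pi.zero_apply, zero_add, sub_zero]
      linarith
    · rw [if_neg hj, Pi.zero_apply, zero_add, sub_zero, norm_zero]
      have : 0 < C.wt (2 * ε) c i := Real.exp_pos _
      positivity

theorem cr_hasSum (hN : 0 < N) {h : C.I → C.I → M → ℂ} (c : ℤ)
    (hh : ∀ i j p, h (C.sh i N) (C.sh j N) ((C.g ^ (N : ℤ)) p) = h i j p) (i j : C.I) (p : M) :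
    HasSum (fun k : ℤ => crCut N c h (C.sh i (k * N)) (C.sh j (k * N)) ((C.g ^ (k * N)) p))
      (h i j p) := by
  have hN' : (0 : ℤ) < N := by exact_mod_cast hN
  have h1 := Int.ediv_mul_le (i.2 - c) hN'.ne'
  have h2 := Int.lt_ediv_add_one_mul_self (i.2 - c) hN'
  have h3 := hasSum_single (f := fun k : ℤ =>
    crCut N c h (C.sh i (k * N)) (C.sh j (k * N)) ((C.g ^ (k * N)) p)) ((i.2 - c) / N)
    fun k hk => by
      unfold crCut
      rw [if_neg, Pi.zero_apply]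
      rintro ⟨h4, h5⟩
      simp only [sh] at h4 h5
      refine hk ((Int.ediv_eq_iff_of_pos hN').2 ⟨by linarith, by linarith⟩).symm
  unfold crCut at h3 ⊢
  rw [if_pos (by
    simp only [sh]
    constructor <;> linarith), per_ch hh] at h3
  exact h3

theorem corr_of {K ε S : ℝ} (hN : 0 < N) (hR : 0 ≤ C.R) (hε : 0 < ε) (hK : 0 ≤ K)
    (hf : C.Fr Ψ 2 B) (hp : ∀ i p, Ψ (C.sh i N) ((C.g ^ (N : ℤ)) p) = Ψ i p)
    (h2 : C.S2c Ψ (5 / 4) (9 / 8) ε K)
    (hS : ∀ x : ℤ, (Summable fun k : ℤ => Real.exp (-ε * |(x : ℝ) - k * N|)) ∧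
      ∑' k : ℤ, Real.exp (-ε * |(x : ℝ) - k * N|) ≤ S) :
    C.Corr Ψ N (K * (2 * Real.exp (2 * ε * (N + 2 * C.R + 1))) * S) := by
  intro h η c hη hh hd hs
  set D := η * (2 * Real.exp (2 * ε * (N + 2 * C.R + 1))) with hD
  have hD0 : 0 ≤ D := by positivity
  have hγ : ∀ i j, ∀ p ∈ C.U i (5 / 4) ∩ C.U j (5 / 4), HolAt (Ψ i * crCut N c h i j) p :=
    fun i j p hp => by
      unfold crCut
      split_ifs
      · exact hh.hol i j p hp
      · rw [mul_zero]
        exact holAt_zero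
  obtain ⟨h₀, h3, h4⟩ := h2 c D (crCut N c h) hD0 hγ (cr_defect hε hη hR hh hd hs)
  have hm : ∀ i, C.U i (9 / 8) ⊆ C.U i (5 / 4) := fun i => C.U_mono i (by norm_num)
  let e : C.I → C.I → ℤ → M → ℂ := fun i j k =>
    (h₀ (C.sh i (k * N)) (C.sh j (k * N)) - crCut N c h (C.sh i (k * N)) (C.sh j (k * N))) ∘
      (C.g ^ (k * N) : M ≃ₜ M)
  have hsh : ∀ i j (k : ℤ), ∀ p ∈ C.U i (9 / 8) ∩ C.U j (9 / 8), (C.g ^ k) p ∈
      C.U (C.sh i k) (9 / 8) ∩ C.U (C.sh j k) (9 / 8) := fun i j k p hp =>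
    ⟨(sh_mem _ _ _ _).2 hp.1, (sh_mem _ _ _ _).2 hp.2⟩
  have hb : ∀ i j k, ∀ p ∈ C.U i (9 / 8) ∩ C.U j (9 / 8), ‖e i j k p‖ ≤
      K * D * Real.exp (-ε * |((i.2 - c : ℤ) : ℝ) - k * N|) := fun i j k p hp => by
    have h5 := (h3 _ _ _ (hsh i j (k * N) p hp)).2
    have e1 : C.wt ε c (C.sh i (k * N)) = Real.exp (-ε * |((i.2 - c : ℤ) : ℝ) - k * N|) := by
      simp only [wt, sh]
      congr 3
      push_cast
      ring
    rw [e1] at h5
    exact h5
  have hsum : ∀ i : C.I, Summable fun k : ℤ =>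
      K * D * Real.exp (-ε * |((i.2 - c : ℤ) : ℝ) - k * N|) := fun i => (hS _).1.mul_left _
  have hse : ∀ i j, ∀ p ∈ C.U i (9 / 8) ∩ C.U j (9 / 8), Summable fun k => e i j k p :=
    fun i j p hp => Summable.of_norm_bounded (hsum i) fun k => hb i j k p hp
  have hH : ∀ i j, ∀ p ∈ C.U i (9 / 8) ∩ C.U j (9 / 8), HasSum
      (fun k : ℤ => h₀ (C.sh i (k * N)) (C.sh j (k * N)) ((C.g ^ (k * N)) p))
      (h i j p + ∑' k, e i j k p) := fun i j p hp => by
    have h5 := (cr_hasSum hN c hh.per i j p).add (hse i j p hp).hasSum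
    simpa only [e, Function.comp_apply, Pi.sub_apply, add_sub_cancel] using h5
  refine ⟨fun i j p => h i j p + ∑' k, e i j k p, ⟨⟨fun i j p => ?_, fun i j p hq => ?_⟩,
    fun i j l p hq => ?_⟩, fun i j p hq => ?_⟩
  · rw [hh.per, ← (Equiv.addRight (1 : ℤ)).tsum_eq fun k => e i j k p]
    congr 1
    refine tsum_congr fun k => ?_
    have e1 : (N : ℤ) + k * N = (k + 1) * N := by ring
    have e2 : (C.g ^ (k * N)) ((C.g ^ (N : ℤ)) p) = (C.g ^ ((k + 1) * N)) p := by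
      rw [← C.gz_add, add_comm, e1]
    simp only [e, Function.comp_apply, sh_sh, e1, e2, Equiv.coe_addRight]
  · have hW := (C.isOpen_U i (9 / 8)).inter (C.isOpen_U j (9 / 8))
    have hB : ∀ q ∈ C.U i (9 / 8) ∩ C.U j (9 / 8), ‖Ψ i q‖ ≤ B := fun q hq =>
      (hf.bd i q (C.U_mono i (by norm_num) hq.1)).1
    have h5 := tendstoUniformlyOn_tsum (f := fun k q => (Ψ i * e i j k) q)
      ((hsum i).mul_left B) (s := C.U i (9 / 8) ∩ C.U j (9 / 8)) fun k q hq => by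
        rw [Pi.mul_apply, norm_mul]
        exact mul_le_mul (hB q hq) (hb i j k q hq) (norm_nonneg _) ((norm_nonneg _).trans (hB q hq))
    have h6 := C.hol_unif hW (fun t q hq => by
      rw [← Finset.sum_fn]
      refine HolAt.sum fun k _ => ?_
      have h7 := hsh i j (k * N) q hq
      have h8 := (C.hol_gz (k * N)).2 ((h3 _ _ _ h7).1.sub (hγ _ _ _ ⟨hm _ h7.1, hm _ h7.2⟩))
      refine h8.congr (Eventually.of_forall fun y => ?_)
      simp only [e, Function.comp_apply, Pi.sub_apply, Pi.mul_apply, per_fr hp]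
      ring) h5 p hq
    refine ((hh.hol i j p ⟨hm _ hq.1, hm _ hq.2⟩).add h6).congr (Eventually.of_forall fun y => ?_)
    simp only [Pi.add_apply, Pi.mul_apply, tsum_mul_left]
    ring
  · refine ((hH i j p hq.1).add (hH j l p ⟨hq.1.2, hq.2⟩)).unique ?_
    have h5 := hH i l p ⟨hq.1.1, hq.2⟩
    have e1 : ∀ k : ℤ, h₀ (C.sh i (k * N)) (C.sh j (k * N)) ((C.g ^ (k * N)) p) +
        h₀ (C.sh j (k * N)) (C.sh l (k * N)) ((C.g ^ (k * N)) p) =
        h₀ (C.sh i (k * N)) (C.sh l (k * N)) ((C.g ^ (k * N)) p) := fun k =>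
      h4 _ _ _ _ ⟨hsh i j _ p hq.1, (sh_mem _ _ _ _).2 hq.2⟩
    simpa only [e1] using h5
  · rw [add_sub_cancel_left]
    refine (tsum_of_norm_bounded (hsum i).hasSum fun k => hb i j k p hq).trans ?_
    rw [tsum_mul_left]
    refine (mul_le_mul_of_nonneg_left (hS _).2 (by positivity)).trans (le_of_eq ?_)
    rw [hD]
    ring

theorem corrAll [Nonempty M] (hI : C.In) (h : C.Sys φ δ B Φ) (hl : C.NoLim Φ (5 / 4)) :
    C.CorrAll Φ := by
  intro ε hε
  have hε' : 0 < ε / 4 := by positivity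
  obtain ⟨K, hK⟩ := hI.s2c Φ B (ε / 4) (fun n => (h.fr n).monoC (by norm_num) le_rfl) hl hε'
  obtain ⟨S, hS0, hS⟩ := wt_tsum hε'
  have h1 : Tendsto (fun N : ℕ => Real.exp (ε / 2 * N)) atTop atTop :=
    Real.tendsto_exp_atTop.comp (tendsto_natCast_atTop_atTop.const_mul_atTop (by positivity))
  filter_upwards [hK, eventually_gt_atTop 0,
    h1.eventually_ge_atTop (max K 0 * (2 * Real.exp (ε / 2 * (2 * C.R + 1))) * S)] with N h2 hN h3
  have h4 : C.S2c (Φ N) (5 / 4) (9 / 8) (ε / 4) (max K 0) := fun c D γ hD hγ hd => by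
    obtain ⟨H, h5, h6⟩ := h2 c D γ hD hγ hd
    refine ⟨H, fun i j p hp => ⟨(h5 i j p hp).1, (h5 i j p hp).2.trans ?_⟩, h6⟩
    exact mul_le_mul_of_nonneg_right (mul_le_mul_of_nonneg_right (le_max_left _ _) hD)
      (Real.exp_pos _).le
  intro g η c hη hg hd hs
  obtain ⟨H, h5, h6⟩ := corr_of hN R_nonneg hε' (le_max_right K 0) (h.fr N) (h.per N hN).per h4
    (fun x => ⟨(hS N hN x).1, (hS N hN x).2.1⟩) g η c hη hg hd hs
  refine ⟨H, h5, fun i j p hp => (h6 i j p hp).trans (mul_le_mul_of_nonneg_right ?_ hη)⟩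
  have e1 : Real.exp (2 * (ε / 4) * (N + 2 * C.R + 1)) =
      Real.exp (ε / 2 * (2 * C.R + 1)) * Real.exp (ε / 2 * N) := by
    rw [← Real.exp_add]
    congr 1
    ring
  have e2 : Real.exp (ε * N) = Real.exp (ε / 2 * N) * Real.exp (ε / 2 * N) := by
    rw [← Real.exp_add]
    congr 1
    ring
  rw [e1, e2]
  refine le_trans (le_of_eq ?_) (mul_le_mul_of_nonneg_right h3 (Real.exp_pos _).le)
  ring

end Cov

end Vale.Agent.P267
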