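import Vale.Agent.P267S.SC2

/-! P267, solver part C: Riemann-Roch for the periodic frames. -/

open scoped Topology
open Filter Metric Set

noncomputable section

namespace Vale.Agent.P267

set_option linter.unusedSectionVars false

variable {M : Type} [TopologicalSpace M] [ChartedSpace C2 M] [T2Space M]

namespace Cov
variable {C : Cov M} {φ P : C.I → M → ℂ} {Φ : ℕ → C.I → M → ℂ} {Ψ : C.I → M → ℂ} {δ B : ℝ}
  {N : ℕ}

/-- The ratio of the periodic frame and the translated frame. -/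
def scgR (C : Cov M) (φ Ψ : C.I → M → ℂ) (N : ℕ) (j : C.I) (p : M) : ℂ :=
  Ψ j p / φ (C.sh j (C.dom N j * N)) ((C.g ^ (C.dom N j * N)) p)

/-- The average of the ratios. -/
def scgS (C : Cov M) (φ Ψ : C.I → M → ℂ) (N : ℕ) (p : M) : ℂ :=
  ∑ᶠ j : C.I, (C.rho j p : ℂ) * C.scgR φ Ψ N j p

theorem scg_R (h : C.Sys φ δ B Φ) (hN : 0 < N) (hs : B * Real.exp (-δ * (N / 2)) * B ≤ 1 / 2)
    {j : C.I} {p : M} (hp : p ∈ C.U j 2) : ‖C.scgR φ (Φ N) N j p - 1‖ ≤ 1 / 2 := by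
  have hp' := (sh_mem j (C.dom N j * N) 2 p).2 hp
  have hd := dom_bd hN j
  have hN' : (0 : ℝ) < N := by exact_mod_cast hN
  have h1 : |(((C.sh j (C.dom N j * N)).2 : ℤ) : ℝ)| ≤ N / 2 := by
    simp only [sh]
    push_cast
    exact abs_le.2 ⟨by linarith [hd.1], hd.2.le⟩
  have h2 : |(C.sh j (C.dom N j * N)).2| ≤ (N : ℤ) := by
    refine (Int.cast_le (R := ℝ)).1 ?_
    push_cast
    linarith
  have h3 := (h.per N hN).near _ h2 _ hp'
  rw [per_fr (h.per N hN).per] at h3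
  have h4 := h.tc.fr.ne _ _ hp'
  have h5 := (h.tc.fr.bd _ _ hp').2
  have hB : 0 ≤ B := zero_le_one.trans h.tc.one
  have h6 : Real.exp (-δ * (N - |(((C.sh j (C.dom N j * N)).2 : ℤ) : ℝ)|)) ≤
      Real.exp (-δ * (N / 2)) :=
    Real.exp_le_exp.2 (mul_le_mul_of_nonpos_left (by linarith) (by linarith [h.tc.pos]))
  rw [scgR, div_sub_one h4, div_eq_mul_inv, norm_mul]
  refine le_trans (mul_le_mul (h3.trans (mul_le_mul_of_nonneg_left h6 hB)) h5 (norm_nonneg _)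
    (by positivity)) hs

theorem scg_fin {p : M} {F : Finset C.I} (hF : ∀ j, p ∈ (C.ch j).source → j ∈ F) :
    C.scgS φ Ψ N p = ∑ j ∈ F, (C.rho j p : ℂ) * C.scgR φ Ψ N j p :=
  finsum_eq_sum_of_support_subset _ fun j hj => hF j (C.rho_supp fun h0 => hj (by simp [h0])).1

theorem scg_ne (h : C.Sys φ δ B Φ) (hN : 0 < N) (hs : B * Real.exp (-δ * (N / 2)) * B ≤ 1 / 2)
    (p : M) : C.scgS φ (Φ N) N p ≠ 0 := by
  obtain ⟨F, hF⟩ := C.fin_slab (C.t p) (C.t p)
  have hF' : ∀ j, p ∈ (C.ch j).source → j ∈ F := fun j hj => hF j p hj ⟨le_rfl, le_rfl⟩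
  have h1 := C.rho_sum hF'
  have h2 : C.scgS φ (Φ N) N p - 1 = ∑ j ∈ F, (C.rho j p : ℂ) * (C.scgR φ (Φ N) N j p - 1) := by
    rw [scg_fin hF']
    simp only [mul_sub, mul_one, Finset.sum_sub_distrib]
    rw [← Complex.ofReal_sum, h1, Complex.ofReal_one]
  have h3 : ‖C.scgS φ (Φ N) N p - 1‖ ≤ ∑ j ∈ F, C.rho j p * (1 / 2) := by
    rw [h2]
    refine norm_sum_le_of_le _ fun j _ => ?_
    rw [norm_mul, Complex.norm_real, Real.norm_of_nonneg (C.rho_nonneg j p)]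
    by_cases h0 : C.rho j p = 0
    · simp [h0]
    · exact mul_le_mul_of_nonneg_left (scg_R h hN hs
        ⟨(C.rho_supp h0).1, (C.rho_supp h0).2.trans_lt one_lt_two⟩) (C.rho_nonneg j p)
  rw [← Finset.sum_mul, h1] at h3
  intro h0
  rw [h0] at h3
  norm_num at h3

theorem scg_per (hN : 0 < N) (hΨ : ∀ i p, Ψ (C.sh i N) ((C.g ^ (N : ℤ)) p) = Ψ i p) (p : M) :
    C.scgS φ Ψ N ((C.g ^ (N : ℤ)) p) = C.scgS φ Ψ N p := by
  unfold scgS
  rw [← finsum_comp_equiv (Equiv.prodCongr (Equiv.refl C.ι) (Equiv.subRight (N : ℤ)))]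
  refine finsum_congr fun j => ?_
  change (C.rho (C.sh j N) ((C.g ^ (N : ℤ)) p) : ℂ) *
    C.scgR φ Ψ N (C.sh j N) ((C.g ^ (N : ℤ)) p) = _
  have e1 : C.rho (C.sh j N) ((C.g ^ (N : ℤ)) p) = C.rho j p := by
    simp only [rho, sh, ← C.gz_add, sub_add_cancel]
  have e2 : (N : ℤ) + (C.dom N j - 1) * N = C.dom N j * N := by ring
  have e3 : (C.dom N j - 1) * N + (N : ℤ) = C.dom N j * N := by ring
  rw [e1, scgR, scgR, hΨ, dom_sh_one hN, sh_sh, ← C.gz_add, e2, e3]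

theorem scg_prod {S : Set M} {E : M → M → ℂ} (hE : ∀ p ∉ S, E p = 1) {L : ℝ}
    (hL : ∀ p ∈ S, |C.t p| ≤ L) (hN : 0 < N) (hNL : L + C.R < N / 2) (m : ℤ) {j : C.I} {p : M}
    (hp : p ∈ (C.ch j).source) :
    ∏ᶠ k : ℤ, pull (C.g ^ (k * N)) E p ^ m = pull (C.g ^ (C.dom N j * N)) E p ^ m := by
  refine finprod_eq_single (fun k : ℤ => pull (C.g ^ (k * N)) E p ^ m) _ fun k hk => ?_
  have hn : (C.g ^ (k * N)) p ∉ S := by
    intro hS
    have h1 := abs_le.1 (hL _ hS)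
    have h2 := abs_le.1 (C.t_ch hp)
    have h3 := dom_bd hN j
    have hN' : (0 : ℝ) < N := by exact_mod_cast hN
    rw [C.t_gz] at h1
    push_cast at h1
    rcases lt_or_gt_of_ne hk with h4 | h4
    · have h5 : (k : ℝ) + 1 ≤ C.dom N j := by exact_mod_cast h4
      nlinarith [h1.1, h2.2, h3.1]
    · have h5 : (C.dom N j : ℝ) + 1 ≤ k := by exact_mod_cast h4
      nlinarith [h1.2, h2.1, h3.2]
  funext q
  simp only [pull, hE _ hn, Pi.pow_apply, Pi.one_apply, one_zpow]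

theorem scg_term {E : M → M → ℂ} (hE : IsBundle SmAt E) (m : ℤ) (hφ : C.Fr φ 2 B)
    (hΨ : C.Fr Ψ 2 B) (hs : ∀ i, ∀ p ∈ C.U i 2, SmAt (φ i / E p ^ m) p) {i j : C.I} {p : M}
    (hi : p ∈ C.U i 2) (hj : p ∈ C.U j 2) :
    SmAt (fun q => C.scgR φ Ψ N j q * (pull (C.g ^ (C.dom N j * N)) E p ^ m) q / Ψ i q) p := by
  have hp' := (sh_mem j (C.dom N j * N) 2 p).2 hj
  have h1 := (hs _ _ hp').inv (div_ne_zero (hφ.ne _ _ hp')
    (zpow_ne_zero m (hE.ne _).self_of_nhds))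
  have h2 := ((hΨ.hol j i p ⟨hj, hi⟩).smAt).mul ((C.sm_gz _).2 h1)
  refine h2.congr (Eventually.of_forall fun q => ?_)
  simp only [scgR, pull, Pi.mul_apply, Pi.div_apply, Pi.pow_apply,
    Function.comp_apply, inv_div]
  ring

theorem eul {n : ℕ} {S : Set M} {E : Fin n → M → M → ℂ} (H : C.Hyp S E) (e : Fin n) (m : ℤ)
    (h : C.Sys φ δ B Φ) (hs : ∀ i, ∀ p ∈ C.U i 2, SmAt (φ i / E e p ^ m) p) :
    ∀ᶠ N : ℕ in atTop, C.Eul (Φ N) N ((m - m ^ 2) / 2) := by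
  obtain ⟨L, hL⟩ := H.compact.exists_bound_of_continuousOn C.continuous_t.continuousOn
  have t1 : Tendsto (fun N : ℕ => B * Real.exp (-δ * (N / 2)) * B) atTop (𝓝 (B * 0 * B)) := by
    refine (Tendsto.const_mul B (Real.tendsto_exp_atBot.comp ?_)).mul_const B
    exact (tendsto_natCast_atTop_atTop.atTop_div_const two_pos).const_mul_atTop_of_neg
      (neg_neg_of_pos h.tc.pos)
  rw [mul_zero, zero_mul] at t1
  filter_upwards [H.euler e m, eventually_gt_atTop 0, t1.eventually (ge_mem_nhds one_half_pos),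
    (tendsto_natCast_atTop_atTop.atTop_div_const two_pos).eventually_gt_atTop (L + C.R)]
    with N hE hN hsm hNL
  have hne := scg_ne h hN hsm
  have hper := scg_per (φ := φ) hN (h.per N hN).per
  have h2 : ∀ p, p ∈ C.U (C.idx p) 2 := fun p => C.U_mono _ one_le_two (C.mem_U_idx p)
  refine ⟨(C.scgS φ (Φ N) N)⁻¹, fun p => inv_ne_zero (hne p),
    fun p => congrArg (fun z : ℂ => z⁻¹) (hper p), ?_⟩
  rw [zpow_natCast]
  refine hE _ (fun p => ?_) ?_ fun p => ?_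
  · filter_upwards [(C.isOpen_U _ 2).mem_nhds (h2 p)] with q hq
    refine ⟨mul_ne_zero ((h.fr N).ne _ _ hq) (inv_ne_zero (hne q)),
      ((h.fr N).hol _ _ q ⟨hq, h2 q⟩).congr (Eventually.of_forall fun y => ?_)⟩
    exact (mul_div_mul_right _ _ (inv_ne_zero (hne y))).symm
  · funext p q
    rw [← zpow_natCast]
    simp only [pull, Pi.mul_apply, Pi.inv_apply, idx_sh, (h.per N hN).per, hper]
  · set Q : M → ℂ := ∏ᶠ k : ℤ, pull (C.g ^ (k * N)) (E e) p ^ m with hQ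
    have hQ' : ∀ j, p ∈ (C.ch j).source → Q = pull (C.g ^ (C.dom N j * N)) (E e) p ^ m :=
      fun j hj => scg_prod (H.triv e) hL hN hNL m hj
    obtain ⟨F, hF⟩ := C.fin_slab (C.t p - 1) (C.t p + 1)
    have k1 : SmAt (∑ j ∈ F, fun q => (C.rho j q : ℂ) *
        (C.scgR φ (Φ N) N j q * Q q / Φ N (C.idx p) q)) p := by
      refine SmAt.sum fun j _ => ?_
      by_cases hj : p ∈ C.U j 2
      · rw [hQ' j hj.1]
        exact (C.rho_sm j p).mul (scg_term (H.smooth e) m h.tc.fr (h.fr N) hs (h2 p) hj)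
      · refine smAt_zero.congr ?_
        filter_upwards [(C.isCompact_cl j (r := 1) (by norm_num)).isClosed.isOpen_compl.mem_nhds
          fun k => hj ⟨k.1, k.2.trans_lt one_lt_two⟩] with q hq
        have h0 : C.rho j q = 0 := by_contra fun k => hq (C.rho_supp k)
        simp [h0]
    have k2 : SmAt (fun q => C.scgS φ (Φ N) N q * Q q / Φ N (C.idx p) q) p := by
      refine k1.congr ?_
      filter_upwards [C.continuous_t.continuousAt.eventually
        (Icc_mem_nhds (sub_one_lt (C.t p)) (lt_add_one (C.t p)))] with q hq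
      rw [scg_fin fun j hj => hF j q hj hq, Finset.sum_apply, Finset.sum_mul, Finset.sum_div]
      exact Finset.sum_congr rfl fun j _ => by ring
    have k3 : Q p ≠ 0 := by
      rw [hQ' _ (h2 p).1]
      exact zpow_ne_zero m ((H.smooth e).ne _).self_of_nhds
    refine (k2.inv (div_ne_zero (mul_ne_zero (hne p) k3) ((h.fr N).ne _ _ (h2 p)))).congr
      (Eventually.of_forall fun q => ?_)
    simp only [Pi.inv_apply, Pi.div_apply, Pi.mul_apply, inv_div]
    ring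

end Cov

end Vale.Agent.P267
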