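import Vale.Agent.P267S.SC2

/-! P267, solver part C: limits of translates of the periodic frames. -/

open scoped Topology
open Filter Metric Set

noncomputable section

namespace Vale.Agent.P267

set_option linter.unusedSectionVars false

variable {M : Type} [TopologicalSpace M] [ChartedSpace C2 M] [T2Space M]

namespace Cov
variable {C : Cov M} {φ P : C.I → M → ℂ} {Φ : ℕ → C.I → M → ℂ} {Ψ : C.I → M → ℂ} {δ B : ℝ}
  {N : ℕ}

theorem NoSec.congrC (h : C.NoSec φ) (e : ∀ i, ∀ p ∈ C.U i 1, Ψ i p = φ i p) : C.NoSec Ψ :=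
  fun s δ hs hg => h s δ (fun i p hp => (hs i p hp).congr (by
    filter_upwards [(C.isOpen_U i 1).mem_nhds hp] with q hq
    simp only [Pi.mul_apply, Pi.div_apply, e i q hq])) hg

theorem noLim (hI : C.In) (h : C.Sys φ δ B Φ) : C.NoLim Φ (5 / 4) := fun n k F hn hF => by
  have hU := Nat.hyperfilter_le_atTop
  have hn' : Tendsto n (hyperfilter ℕ) atTop := hn.mono_left hU
  have h0 : ∀ᶠ m in hyperfilter ℕ, 0 < n m := hn'.eventually_gt_atTop 0
  set d : ℕ → ℤ := fun m => (2 * k m + n m) / (2 * n m) with hd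
  set k' : ℕ → ℤ := fun m => k m - d m * n m with hk'
  have h1 : ∀ m, 0 < n m → 2 * |k' m| ≤ n m := fun m hm => by
    have e0 : (0 : ℤ) < 2 * n m := by positivity
    have e1 := Int.ediv_mul_le (2 * k m + n m) e0.ne'
    have e2 := Int.lt_ediv_add_one_mul_self (2 * k m + n m) e0
    rcases abs_cases (k' m) with e | e <;> rw [e.1] <;> simp only [hk', hd] <;> nlinarith
  have h2 : ∀ i, ∀ p ∈ C.U i 1, Tendsto (fun m => Φ (n m) (C.sh i (k' m)) ((C.g ^ k' m) p))
      (hyperfilter ℕ) (𝓝 (F i p)) := fun i p hp => by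
    refine (hF i p (C.U_mono i (by norm_num) hp)).congr' ?_
    filter_upwards [h0] with m hm
    rw [← per_fr (h.per _ hm).per (d m) (C.sh i (k' m)), sh_sh, ← C.gz_add,
      show k' m + d m * n m = k m by simp [hk'], show d m * n m + k' m = k m by simp [hk']]
    rfl
  have hm2 : ∀ i k, ∀ p ∈ C.U i 1, (C.g ^ k) p ∈ C.U (C.sh i k) 2 := fun i k p hp =>
    (sh_mem i k 2 p).2 (C.U_mono i (by norm_num) hp)
  by_cases hb : ∃ k₀, ∀ᶠ m in hyperfilter ℕ, k' m = k₀
  · obtain ⟨k₀, hk⟩ := hb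
    refine (hI.nosec _ _ _ (h.tc.shift k₀)).congrC fun i p hp => tendsto_nhds_unique (h2 i p hp) ?_
    refine ((h.tendsto (hm2 i k₀ p hp)).comp hn').congr' ?_
    filter_upwards [hk] with m hm
    simp only [hm, Function.comp]
  · have h3 : ∀ L : ℤ, ∀ᶠ m in hyperfilter ℕ, L < |k' m| := fun L => by
      by_contra hL
      rw [← Ultrafilter.eventually_not] at hL
      have h4 : ∀ᶠ m in hyperfilter ℕ, ∃ x ∈ Icc (-L) L, k' m = x :=
        hL.mono fun m hm => ⟨_, abs_le.1 (not_lt.1 hm), rfl⟩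
      obtain ⟨x, -, hx⟩ := (Ultrafilter.eventually_exists_mem_iff (finite_Icc _ _)).1 h4
      exact hb ⟨x, hx⟩
    refine (hI.nosec _ _ _ tc_one).congrC fun i p hp => tendsto_nhds_unique (h2 i p hp) ?_
    have h4 : Tendsto (fun m => min |((C.sh i (k' m)).2 : ℝ)| (n m - |((C.sh i (k' m)).2 : ℝ)|))
        (hyperfilter ℕ) atTop := by
      refine tendsto_atTop.2 fun x => ?_
      filter_upwards [h0, h3 (⌈x⌉ + |i.2|)] with m k1 k2
      have k3 : (2 : ℝ) * |(k' m : ℝ)| ≤ n m := by exact_mod_cast h1 m k1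
      have k4 : (⌈x⌉ : ℝ) + |(i.2 : ℝ)| < |(k' m : ℝ)| := by exact_mod_cast k2
      have k5 := Int.le_ceil x
      have k6 := abs_sub (i.2 : ℝ) (k' m)
      have k7 := abs_sub_abs_le_abs_sub (k' m : ℝ) i.2
      rw [abs_sub_comm] at k7
      simp only [sh, Int.cast_sub]
      exact le_min (by linarith) (by linarith)
    have h5 := (Real.tendsto_exp_atBot.comp (h4.const_mul_atTop_of_neg
      (neg_lt_zero.2 h.tc.pos))).const_mul (2 * B)
    rw [mul_zero] at h5
    refine tendsto_iff_norm_sub_tendsto_zero.2 (squeeze_zero' (.of_forall fun _ => norm_nonneg _)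
      ?_ h5)
    filter_upwards [h0, h4.eventually_ge_atTop 0] with m k1 k2
    refine h.neck k1 ?_ (hm2 i _ p hp)
    have k3 : |((C.sh i (k' m)).2 : ℝ)| ≤ n m := sub_nonneg.1 (k2.trans (min_le_right _ _))
    exact_mod_cast k3

end Cov

end Vale.Agent.P267
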