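import Vale.Agent.P267S.SC2

/-! P267, solver part C: periodisation of frames. -/

open scoped Topology
open Filter Metric Set

noncomputable section

namespace Vale.Agent.P267

set_option linter.unusedSectionVars false

variable {M : Type} [TopologicalSpace M] [ChartedSpace C2 M] [T2Space M]

namespace Cov
variable {C : Cov M} {φ P : C.I → M → ℂ} {Φ : ℕ → C.I → M → ℂ} {Ψ : C.I → M → ℂ} {δ B : ℝ}
  {N : ℕ}

theorem SCPer_fin {a : ℤ → ℂ} {u : ℤ → ℝ} (ha : ∀ k, ‖a k - 1‖ ≤ u k) (s : Finset ℤ) :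
    ‖∏ k ∈ s, a k - 1‖ ≤ Real.exp (∑ k ∈ s, u k) - 1 := by
  have h := Finset.norm_prod_one_add_sub_one_le s fun k => a k - 1
  simp only [add_sub_cancel] at h
  refine h.trans ?_
  have h2 : ∑ k ∈ s, ‖a k - 1‖ ≤ ∑ k ∈ s, u k := Finset.sum_le_sum fun k _ => ha k
  have h3 := Real.exp_le_exp.2 h2
  linarith

theorem SCPer_has {a : ℤ → ℂ} {u : ℤ → ℝ} (hu : Summable u) (ha : ∀ k, ‖a k - 1‖ ≤ u k) :
    HasProd a (∏' k, a k) := by
  have h : Summable fun k => ‖a k - 1‖ := Summable.of_nonneg_of_le (fun _ => norm_nonneg _) ha hu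
  have h2 := multipliable_one_add_of_summable h
  simp only [add_sub_cancel] at h2
  exact h2.hasProd

theorem SCPer_tail {a : ℤ → ℂ} {u : ℤ → ℝ} (hu : Summable u) (ha : ∀ k, ‖a k - 1‖ ≤ u k)
    (s : Finset ℤ) :
    ‖∏' k, a k - ∏ k ∈ s, a k‖ ≤ Real.exp (∑' k, u k) - Real.exp (∑ k ∈ s, u k) := by
  have h1 : Tendsto (fun t : Finset ℤ => ‖∏ k ∈ t, a k - ∏ k ∈ s, a k‖) atTop
      (𝓝 ‖∏' k, a k - ∏ k ∈ s, a k‖) := (Tendsto.sub_const (SCPer_has hu ha) _).norm
  refine le_of_tendsto h1 ?_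
  filter_upwards [eventually_ge_atTop s] with t ht
  have h0 : ∀ k, 0 ≤ u k := fun k => (norm_nonneg _).trans (ha k)
  have e1 : ∏ k ∈ t, a k - ∏ k ∈ s, a k = (∏ k ∈ t \ s, a k - 1) * ∏ k ∈ s, a k := by
    rw [← Finset.prod_sdiff ht]
    ring
  have h2 : ‖∏ k ∈ s, a k‖ ≤ Real.exp (∑ k ∈ s, u k) := by
    have h3 := SCPer_fin ha s
    have h4 := norm_add_le (∏ k ∈ s, a k - 1) 1
    rw [sub_add_cancel, norm_one] at h4
    linarith
  have h5 := SCPer_fin ha (t \ s)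
  have h6 : Real.exp (∑ k ∈ t \ s, u k) * Real.exp (∑ k ∈ s, u k) ≤ Real.exp (∑' k, u k) := by
    rw [← Real.exp_add, Finset.sum_sdiff ht]
    exact Real.exp_le_exp.2 (hu.sum_le_tsum t fun k _ => h0 k)
  rw [e1, norm_mul]
  have h7 := mul_le_mul h5 h2 (norm_nonneg _) ((norm_nonneg _).trans h5)
  linarith

theorem SCPer_bd {a : ℤ → ℂ} {u : ℤ → ℝ} (hu : Summable u) (ha : ∀ k, ‖a k - 1‖ ≤ u k) :
    ‖∏' k, a k‖ ≤ Real.exp (∑' k, u k) := by
  have h := SCPer_tail hu ha ∅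
  simp only [Finset.prod_empty, Finset.sum_empty, Real.exp_zero] at h
  have h4 := norm_add_le (∏' k, a k - 1) 1
  rw [sub_add_cancel, norm_one] at h4
  linarith

theorem SCPer_near {a : ℤ → ℂ} {u : ℤ → ℝ} (hu : Summable u) (ha : ∀ k, ‖a k - 1‖ ≤ u k) :
    ‖∏' k, a k - a 0‖ ≤ Real.exp (∑' k, u k) * ∑' k, if k = 0 then 0 else u k := by
  have h := SCPer_tail hu ha {0}
  simp only [Finset.prod_singleton, Finset.sum_singleton] at h
  have e := hu.tsum_eq_add_tsum_ite 0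
  have e2 : (∑' k, if k = 0 then 0 else u k) = ∑' k, u k - u 0 := by linarith
  rw [e2]
  have h1 := Real.add_one_le_exp (u 0 - ∑' k, u k)
  have h2 : Real.exp (u 0) = Real.exp (∑' k, u k) * Real.exp (u 0 - ∑' k, u k) := by
    rw [← Real.exp_add]
    congr 1
    ring
  have h3 := mul_le_mul_of_nonneg_left h1 (Real.exp_pos (∑' k, u k)).le
  linarith

theorem SCPer_inv {a : ℤ → ℂ} {u v : ℤ → ℝ} (hu : Summable u) (ha : ∀ k, ‖a k - 1‖ ≤ u k)
    (hv : Summable v) (ha' : ∀ k, ‖(a k)⁻¹ - 1‖ ≤ v k) (h0 : ∀ k, a k ≠ 0) :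
    (∏' k, a k) * ∏' k, (a k)⁻¹ = 1 := by
  have h := (SCPer_has hu ha).mul (SCPer_has hv ha')
  have e : (fun k => a k * (a k)⁻¹) = fun _ => 1 := funext fun k => mul_inv_cancel₀ (h0 k)
  rw [e] at h
  exact h.unique hasProd_one

/-- The translated factors. -/
def SCPer_a (C : Cov M) (φ : C.I → M → ℂ) (N : ℕ) (i : C.I) (p : M) (k : ℤ) : ℂ :=
  φ (C.sh i (k * N)) ((C.g ^ (k * N)) p)

theorem SCPer_tl (h : C.Tc φ δ B) (N : ℕ) {i : C.I} {p : M} (hp : p ∈ C.U i 2) (k : ℤ) :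
    ‖SCPer_a C φ N i p k - 1‖ ≤ B * Real.exp (-δ * |(i.2 : ℝ) - k * N|) := by
  have h1 := h.tl (C.sh i (k * N)) _ ((sh_mem i (k * N) 2 p).2 hp)
  have e : C.wt δ 0 (C.sh i (k * N)) = Real.exp (-δ * |(i.2 : ℝ) - k * N|) := by
    unfold wt sh
    push_cast
    rw [sub_zero]
  rw [e] at h1
  exact h1

theorem SCPer_fr (h : C.Tc φ δ B) {S : ℝ} (N : ℕ)
    (hS : ∀ x : ℤ, (Summable fun k : ℤ => Real.exp (-δ * |(x : ℝ) - k * N|)) ∧
      ∑' k : ℤ, Real.exp (-δ * |(x : ℝ) - k * N|) ≤ S) :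
    C.Fr (fun i p => ∏' k, SCPer_a C φ N i p k) 2 (Real.exp (B * B * S)) := by
  have hB := h.one
  have hi := h.inv
  have hm := h.mono h.pos le_rfl (show B ≤ B * B by nlinarith)
  have hne : ∀ i, ∀ p ∈ C.U i 2, ∀ k, SCPer_a C φ N i p k ≠ 0 := fun i p hp k =>
    h.fr.ne _ _ ((sh_mem i (k * N) 2 p).2 hp)
  have hti : ∀ i, ∀ p ∈ C.U i 2, ∀ k, ‖(SCPer_a C φ N i p k)⁻¹ - 1‖ ≤
      B * B * Real.exp (-δ * |(i.2 : ℝ) - k * N|) := fun i p hp k => SCPer_tl hi N hp k
  have hsum : ∀ i : C.I, Summable fun k : ℤ => B * B * Real.exp (-δ * |(i.2 : ℝ) - k * N|) :=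
    fun i => (hS i.2).1.mul_left _
  have hle : ∀ i : C.I, Real.exp (∑' k : ℤ, B * B * Real.exp (-δ * |(i.2 : ℝ) - k * N|)) ≤
      Real.exp (B * B * S) := by
    intro i
    rw [tsum_mul_left]
    exact Real.exp_le_exp.2 (mul_le_mul_of_nonneg_left (hS i.2).2 (by positivity))
  have hone : ∀ i, ∀ p ∈ C.U i 2,
      (∏' k, SCPer_a C φ N i p k) * ∏' k, (SCPer_a C φ N i p k)⁻¹ = 1 := fun i p hp =>
    SCPer_inv (hsum i) (SCPer_tl hm N hp) (hsum i) (hti i p hp) (hne i p hp)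
  have hinv : ∀ i, ∀ p ∈ C.U i 2,
      (∏' k, SCPer_a C φ N i p k)⁻¹ = ∏' k, (SCPer_a C φ N i p k)⁻¹ := fun i p hp =>
    inv_eq_of_mul_eq_one_right (hone i p hp)
  refine ⟨fun i p hp => left_ne_zero_of_mul_eq_one (hone i p hp), fun i j => ?_, fun i p hp =>
    ⟨(SCPer_bd (hsum i) (SCPer_tl hm N hp)).trans (hle i), ?_⟩⟩
  · set v : ℤ → ℝ := fun k => B * B * Real.exp (-δ * |(i.2 : ℝ) - k * N|) +
      B * B * Real.exp (-δ * |(j.2 : ℝ) - k * N|) with hv
    have hvs : Summable v := (hsum i).add (hsum j)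
    refine hol_unif C (l := (atTop : Filter (Finset ℤ)))
      (f := fun s => ∏ k ∈ s, (φ (C.sh i (k * N)) / φ (C.sh j (k * N))) ∘
        (C.g ^ (k * N) : M ≃ₜ M))
      ((C.isOpen_U i 2).inter (C.isOpen_U j 2)) (fun s p hp => HolAt.prod fun k _ => ?_) ?_
    · exact (C.hol_gz (k * N)).2 (h.fr.hol _ _ _
        ⟨(sh_mem i (k * N) 2 p).2 hp.1, (sh_mem j (k * N) 2 p).2 hp.2⟩)
    · rw [Metric.tendstoUniformlyOn_iff]
      intro ε hε
      have h1 : Tendsto (fun s : Finset ℤ => Real.exp (∑' k, v k) - Real.exp (∑ k ∈ s, v k))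
          atTop (𝓝 (Real.exp (∑' k, v k) - Real.exp (∑' k, v k))) :=
        tendsto_const_nhds.sub ((Real.continuous_exp.tendsto _).comp hvs.hasSum)
      rw [sub_self] at h1
      filter_upwards [h1.eventually (gt_mem_nhds hε)] with s hs p hp
      have hb : ∀ k, ‖SCPer_a C φ N i p k * (SCPer_a C φ N j p k)⁻¹ - 1‖ ≤ v k := by
        intro k
        have e : SCPer_a C φ N i p k * (SCPer_a C φ N j p k)⁻¹ - 1 =
            (SCPer_a C φ N i p k - 1) * (SCPer_a C φ N j p k)⁻¹ +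
              ((SCPer_a C φ N j p k)⁻¹ - 1) := by ring
        have h2 := SCPer_tl h N hp.1 k
        have h3 : ‖(SCPer_a C φ N j p k)⁻¹‖ ≤ B :=
          (h.fr.bd _ _ ((sh_mem j (k * N) 2 p).2 hp.2)).2
        have h4 := mul_le_mul h2 h3 (norm_nonneg _) ((norm_nonneg _).trans h2)
        have h5 := hti j p hp.2 k
        rw [e]
        refine (norm_add_le _ _).trans ?_
        rw [norm_mul]
        simp only [hv]
        linarith
      have h6 := SCPer_tail hvs hb s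
      have h7 := ((SCPer_has (hsum i) (SCPer_tl hm N hp.1)).mul
        (SCPer_has (hsum j) (hti j p hp.2))).tprod_eq
      rw [h7, ← hinv j p hp.2] at h6
      rw [dist_eq_norm, Finset.prod_apply]
      refine lt_of_le_of_lt (le_of_eq_of_le ?_ h6) hs
      simp only [Pi.div_apply, div_eq_mul_inv, Function.comp_apply, SCPer_a, Pi.mul_apply,
        Pi.inv_apply]
  · rw [hinv i p hp]
    exact (SCPer_bd (hsum i) (hti i p hp)).trans (hle i)

theorem exists_sys (h : C.Tc φ δ B) : ∃ Φ B', C.Sys φ δ B' Φ := by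
  obtain ⟨S, hS0, hS⟩ := wt_tsum h.pos
  have hB := h.one
  have hE : 1 ≤ Real.exp (B * B * S) := Real.one_le_exp (by positivity)
  have hE2 : 0 ≤ Real.exp (B * B * S) * (B * S) := by positivity
  refine ⟨fun N => if N = 0 then φ else fun i p => ∏' k, SCPer_a C φ N i p k,
    B + Real.exp (B * B * S) + Real.exp (B * B * S) * (B * S),
    h.mono h.pos le_rfl (by linarith), fun N => ?_, fun N hN => ?_⟩
  · by_cases hN : N = 0
    · simp only [if_pos hN]
      exact h.fr.monoC le_rfl (by linarith)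
    · simp only [if_neg hN]
      have hN' := Nat.pos_of_ne_zero hN
      exact (SCPer_fr h N fun x => ⟨(hS N hN' x).1, (hS N hN' x).2.1⟩).monoC le_rfl (by linarith)
  · simp only [if_neg hN.ne']
    refine ⟨fun i p => ?_, fun i hi p hp => ?_⟩
    · rw [← (Equiv.addRight (1 : ℤ)).tprod_eq fun k => SCPer_a C φ N i p k]
      refine tprod_congr fun k => ?_
      have e1 : (N : ℤ) + k * N = (k + 1) * N := by ring
      have e2 : k * (N : ℤ) + N = (k + 1) * N := by ring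
      simp only [SCPer_a, Equiv.coe_addRight]
      rw [sh_sh, ← C.gz_add, e1, e2]
    · obtain ⟨h1, h2, h3⟩ := hS N hN i.2
      have h4 := SCPer_near (h1.mul_left B) (SCPer_tl h N hp)
      have e0 : SCPer_a C φ N i p 0 = φ i p := by
        simp only [SCPer_a, zero_mul, sh_zero, zpow_zero, Homeomorph.one_apply]
      have e1 : (∑' k : ℤ, if k = 0 then 0 else B * Real.exp (-δ * |(i.2 : ℝ) - k * N|)) =
          B * ∑' k : ℤ, if k = 0 then 0 else Real.exp (-δ * |(i.2 : ℝ) - k * N|) := by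
        rw [← tsum_mul_left]
        refine tsum_congr fun k => ?_
        split_ifs
        · rw [mul_zero]
        · rfl
      rw [e0, e1, tsum_mul_left] at h4
      have h5 : Real.exp (B * ∑' k : ℤ, Real.exp (-δ * |(i.2 : ℝ) - k * N|)) ≤
          Real.exp (B * B * S) := by
        refine Real.exp_le_exp.2 ((mul_le_mul_of_nonneg_left h2 (by linarith)).trans ?_)
        nlinarith [mul_nonneg (mul_nonneg (show 0 ≤ B by linarith) (show 0 ≤ B - 1 by linarith))
          hS0.le]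
      have h6 := mul_le_mul_of_nonneg_left (h3 hi) (show 0 ≤ B by linarith)
      have h7 : 0 ≤ B * ∑' k : ℤ, if k = 0 then 0 else Real.exp (-δ * |(i.2 : ℝ) - k * N|) := by
        refine mul_nonneg (by linarith) (tsum_nonneg fun k => ?_)
        split_ifs
        · exact le_rfl
        · exact (Real.exp_pos _).le
      have h8 := mul_le_mul h5 h6 h7 (Real.exp_pos _).le
      have h9 : 0 ≤ (B + Real.exp (B * B * S)) * Real.exp (-δ * (N - |(i.2 : ℝ)|)) := by
        positivity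
      refine h4.trans (h8.trans ?_)
      linarith

end Cov

end Vale.Agent.P267
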