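import Vale.Agent.P267S.SCCore
import Vale.Agent.P267S.SCLim
import Vale.Agent.P267S.SCCorr
import Vale.Agent.P267S.SCAlt
import Vale.Agent.P267S.SCH2
import Vale.Agent.P267S.SCPer
import Vale.Agent.P267S.SCGauge

/-! P267, solver part C: the results. -/

open scoped Topology
open Filter Metric Set

noncomputable section

namespace Vale.Agent.P267

set_option linter.unusedSectionVars false

variable {M : Type} [TopologicalSpace M] [ChartedSpace C2 M] [T2Space M]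

namespace Cov
variable {C : Cov M} {φ P : C.I → M → ℂ} {Φ : ℕ → C.I → M → ℂ} {Ψ : C.I → M → ℂ} {δ B : ℝ}
  {N : ℕ}

variable {n : ℕ} {S : Set M} {E : Fin n → M → M → ℂ} {e : Fin n} {Θ a : C.I → M → ℂ} {T : ℤ}

theorem Str.tc (h : C.Str (E e) Θ a δ B T) :
    (∃ B', C.Tc (fun j p => Θ j p * Complex.exp (a j p)) δ B') ∧ ∀ i, ∀ p ∈ C.U i 2,
      SmAt ((fun q => Θ i q * Complex.exp (a i q)) / E e p) p := by
  have hm : ∀ i, C.U i 2 ⊆ C.U i (5 / 2) := fun i => C.U_mono i (by norm_num)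
  refine ⟨⟨(|B| + 1) * Real.exp (|B| + δ * |(T : ℝ)|), h.pos, ?_, h.fr.monoC (by norm_num) ?_,
    fun i p hp => ?_⟩, fun i p hp => ?_⟩
  · exact one_le_mul_of_one_le_of_one_le (by linarith [abs_nonneg B])
      (Real.one_le_exp (by have := h.pos; positivity))
  · exact (by linarith [le_abs_self B] : B ≤ |B| + 1).trans (le_mul_of_one_le_right (by positivity)
      (Real.one_le_exp (by have := h.pos; positivity)))
  · have hδ := h.pos
    have hw : 0 < C.wt δ 0 i := Real.exp_pos _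
    by_cases hi : T ≤ |i.2|
    · have h1 := (h.bd i p (hm i hp)).1
      have h2 : C.wt δ 0 i ≤ 1 :=
        Real.exp_le_one_iff.2 (by nlinarith [abs_nonneg ((i.2 : ℝ) - (0 : ℤ))])
      have h3 : ‖a i p‖ ≤ |B| * C.wt δ 0 i :=
        h1.trans (mul_le_mul_of_nonneg_right (le_abs_self B) hw.le)
      have h4 : ‖a i p‖ ≤ |B| := h3.trans (mul_le_of_le_one_right (abs_nonneg B) h2)
      rw [(h.one i hi p hp.1).1, one_mul]
      have h5 := Complex.norm_exp_sub_sum_le_norm_mul_exp (a i p) 1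
      simp only [Finset.range_one, Finset.sum_singleton, pow_zero, Nat.factorial_zero, Nat.cast_one,
        div_one, pow_one] at h5
      calc _ ≤ ‖a i p‖ * Real.exp ‖a i p‖ := h5
        _ ≤ ((|B| + 1) * C.wt δ 0 i) * Real.exp (|B| + δ * |(T : ℝ)|) :=
          mul_le_mul (by nlinarith) (Real.exp_le_exp.2 (by nlinarith [abs_nonneg (T : ℝ)]))
            (by positivity) (by positivity)
        _ = _ := by ring
    · have h1 := (h.fr.bd i p (hm i hp)).1
      have h2 : |(i.2 : ℝ)| ≤ |(T : ℝ)| := by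
        exact_mod_cast (not_le.1 hi).le.trans (le_abs_self T)
      have h3 : 1 ≤ Real.exp (|B| + δ * |(T : ℝ)|) * C.wt δ 0 i := by
        rw [wt, ← Real.exp_add]
        refine Real.one_le_exp ?_
        rw [Int.cast_zero, sub_zero]
        nlinarith [abs_nonneg B]
      calc _ ≤ |B| + 1 := by
            refine (norm_sub_le _ _).trans ?_
            rw [norm_one]
            linarith [le_abs_self B]
        _ ≤ _ := by rw [mul_assoc]; exact le_mul_of_one_le_right (by positivity) h3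
  · refine ((h.ne i p hp.1).2.mul (h.sm i p (hm i hp)).exp).congr (.of_forall fun q => ?_)
    simp only [Pi.mul_apply, Pi.div_apply]
    ring

/-- The limit theorem for a bundle with tails. -/
theorem sc_main [Nonempty M] (hI : C.In) (H : C.Hyp S E) (e : Fin n) (m : ℤ)
    (h : C.Sys φ δ B Φ) (hs : ∀ i, ∀ p ∈ C.U i 2, SmAt (φ i / E e p ^ m) p) {ε B' : ℝ}
    (hε : 0 < ε) (hP : C.Pr φ P ε B') {a b : ℂ} {p₀ : M}
    (ha : ∀ N, 0 < N → C.NoH2 (Φ N) N → C.Eul (Φ N) N ((m - m ^ 2) / 2) → C.Alt (Φ N) N a b p₀) :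
    ∃ (α : ℂ) (w : M → ℂ), Bdd w ∧ (∀ i, ∀ p ∈ C.U i 1, HolAt (φ i * (α • P i - w)) p) ∧
      (α ≠ 0 ∨ w ≠ 0) ∧ a * α = 0 ∧ (α = 0 → b * w p₀ = 0) := by
  have hl := noLim hI h
  refine core hI.liou (h.mono (lt_min h.tc.pos hε) (min_le_left _ _) (le_max_left B B'))
    ⟨hP.hol, fun i p hp => (hP.bd i p hp).trans ?_⟩ (corrAll hI h hl) ?_
  · refine mul_le_mul (le_max_right _ _) (Real.exp_le_exp.2 ?_) (Real.exp_pos _).le
      ((zero_le_one.trans h.tc.one).trans (le_max_left _ _))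
    nlinarith [min_le_right δ ε, abs_nonneg ((i.2 : ℝ) - (0 : ℤ))]
  · filter_upwards [noH2 h hl, eul H e m h hs, eventually_gt_atTop 0] with N h1 h2 h3
    exact ha N h3 h1 h2

theorem sc_const (hL : C.Liou) {f : M → ℂ} (hf : ∀ p, HolAt f p) (hb : Bdd f) (p q : M) :
    f p = f q := by
  obtain ⟨D, hD⟩ := hb
  exact hL f (D + D) hf (fun σ x y _ _ => (norm_sub_le _ _).trans (add_le_add (hD x) (hD y))) p q

theorem sc_s1 {α : ℂ} {w : M → ℂ} (hα : α ≠ 0) (hw : Bdd w)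
    (h : ∀ i, ∀ p ∈ C.U i 1, HolAt (φ i * (α • P i - w)) p) :
    ∃ w, Bdd w ∧ ∀ i, ∀ p ∈ C.U i 1, HolAt (φ i * (P i - w)) p := by
  obtain ⟨D, hD⟩ := hw
  refine ⟨α⁻¹ • w, ⟨‖α⁻¹‖ * D, fun p => ?_⟩, fun i p hp =>
    ((h i p hp).smul α⁻¹).congr (.of_forall fun q => ?_)⟩
  · rw [Pi.smul_apply, norm_smul]
    exact mul_le_mul_of_nonneg_left (hD p) (norm_nonneg _)
  · simp only [Pi.mul_apply, Pi.sub_apply, Pi.smul_apply, smul_eq_mul]
    field_simp

theorem sc_sec {w : M → ℂ} (h : ∀ i, ∀ p ∈ C.U i 1, HolAt (φ i * ((0 : ℂ) • P i - w)) p) :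
    C.SecF φ w := fun i p hp => (h i p hp).neg.congr (.of_forall fun q => by simp)

theorem exists_sec [Nonempty M] (hI : C.In) (H : C.Hyp S E) (h : C.Str (E e) Θ a δ B T) :
    ∃ s, C.SecF (fun j p => Θ j p * Complex.exp (a j p)) s ∧ Bdd s ∧ C.LimB s 1 := by
  obtain ⟨⟨B', hT⟩, hs⟩ := h.tc
  obtain ⟨Φ, B₁, hS⟩ := exists_sys hT
  obtain ⟨α, w, ⟨D, hD⟩, h2, h3, h4, -⟩ := sc_main (P := 0) (a := 1) (b := 0)
    (p₀ := Classical.arbitrary M) hI H e 1 hS (by simpa using hs) one_pos (B' := 0)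
    ⟨fun i j p _ => by simpa using holAt_zero, fun i p _ => by simp⟩
    fun N hN k1 k2 => alt_pos (hS.fr N) (hS.per N hN).per k1 (by simpa using k2) _
  rw [one_mul] at h4
  subst h4
  have h5 := sc_sec h2
  have h6 : ∀ i, ∀ p ∈ C.U i (9 / 8), p ∈ C.U i 2 := fun i => C.U_mono i (by norm_num)
  obtain ⟨c, hc⟩ := hI.limB w δ (B' * D) ⟨D, hD⟩ h.pos fun i => ⟨_, fun p hp => ⟨hT.fr.hol_to
    (h6 i p hp) (C.U_mono _ (by norm_num) (C.mem_U_idx p)) (h5 _ p (C.mem_U_idx p)), by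
      have k1 := mul_le_mul (hT.tl i p (h6 i p hp)) (hD p) (norm_nonneg _)
        ((norm_nonneg _).trans (hT.tl i p (h6 i p hp)))
      rw [← norm_mul, sub_mul, one_mul, norm_sub_rev] at k1
      exact k1.trans_eq (by ring)⟩⟩
  have hc0 : c ≠ 0 := fun h0 =>
    h3.resolve_left (not_not.2 rfl) (hI.zero _ _ _ _ hT h5 ⟨D, hD⟩ (h0 ▸ hc))
  refine ⟨c⁻¹ • w, fun i p hp => ((h5 i p hp).smul c⁻¹).congr (.of_forall fun q => ?_),
    ⟨‖c⁻¹‖ * D, fun p => ?_⟩, ?_⟩
  · simp only [Pi.mul_apply, Pi.smul_apply, smul_eq_mul]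
    ring
  · rw [Pi.smul_apply, norm_smul]
    exact mul_le_mul_of_nonneg_left (hD p) (norm_nonneg _)
  · obtain ⟨ε, D', T', hε, k⟩ := hc
    refine ⟨ε, ‖c⁻¹‖ * D', T', hε, fun p hp => ?_⟩
    rw [Pi.smul_apply, smul_eq_mul, ← inv_mul_cancel₀ hc0, ← mul_sub, norm_mul, mul_assoc]
    exact mul_le_mul_of_nonneg_left (k p hp) (norm_nonneg _)

/-- The dual of a basis bundle has no bounded section. -/
theorem sc_noinv [Nonempty M] (hI : C.In) (H : C.Hyp S E) (h : C.Str (E e) Θ a δ B T)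
    {w : M → ℂ} (hw : C.SecF (fun j p => Θ j p * Complex.exp (a j p))⁻¹ w) (hb : Bdd w) :
    w = 0 := by
  obtain ⟨⟨B', hT⟩, hs⟩ := h.tc
  obtain ⟨s, h1, h2, h3⟩ := exists_sec hI H h
  have hU : ∀ p, p ∈ C.U (C.idx p) 2 := fun p => C.U_mono _ (by norm_num) (C.mem_U_idx p)
  have h4 := sc_const hI.liou (f := s * w) (fun p => ((h1 _ p (C.mem_U_idx p)).mul
    (hw _ p (C.mem_U_idx p))).congr (by
      filter_upwards [(C.isOpen_U _ 2).mem_nhds (hU p)] with q hq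
      have := left_ne_zero_of_mul (hT.fr.ne _ q hq)
      simp only [Pi.mul_apply, Pi.inv_apply] at this ⊢
      field_simp)) (h2.mul hb)
  by_cases h5 : ∀ p, s p ≠ 0
  · refine absurd (H.indep {(e, 0)} (fun _ => 1) univ isOpen_univ (fun _ _ => subset_univ _)
      ⟨s, fun p _ => ⟨h5 p, ?_⟩⟩ _ (Finset.mem_singleton_self _)) one_ne_zero
    have k0 := (H.smooth e).ne p
    refine ((h1 _ p (C.mem_U_idx p)).smAt.div (hs _ p (hU p))
      (div_ne_zero (hT.fr.ne _ p (hU p)) k0.self_of_nhds)).congr ?_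
    filter_upwards [(C.isOpen_U _ 2).mem_nhds (hU p), k0] with q hq k1
    have := left_ne_zero_of_mul (hT.fr.ne _ q hq)
    simp only [Finset.prod_singleton, zpow_one, zpow_zero, Pi.mul_apply, Pi.div_apply, pull,
      Homeomorph.one_apply] at this ⊢
    field_simp
  · obtain ⟨p, hp⟩ := not_forall.1 h5
    obtain ⟨T', hT'⟩ := h3.half
    refine hI.zero _ _ _ _ hT.inv hw hb ⟨1, 0, T', one_pos, fun q hq => ?_⟩
    have k1 := h4 q p
    rw [Pi.mul_apply, Pi.mul_apply, not_not.1 hp, zero_mul, mul_eq_zero] at k1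
    rcases k1 with k1 | k1
    · have := hT' q hq
      rw [k1, norm_zero] at this
      norm_num at this
    · simp [k1]

theorem s1F_inv [Nonempty M] (hI : C.In) (H : C.Hyp S E) (h : C.Str (E e) Θ a δ B T) :
    C.S1F (fun j p => Θ j p * Complex.exp (a j p))⁻¹ (5 / 4) := fun P ε B₀ hε k1 k2 => by
  obtain ⟨⟨B', hT⟩, hs⟩ := h.tc
  obtain ⟨Φ, B₁, hS⟩ := exists_sys hT.inv
  obtain ⟨α, w, h1, h2, h3, -⟩ := sc_main (a := 0) (b := 0) (p₀ := Classical.arbitrary M) hI H e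
    (-1) hS (fun i p hp => ((hs i p hp).inv (div_ne_zero (hT.fr.ne i p hp)
      ((H.smooth e).ne p).self_of_nhds)).congr (.of_forall fun q => by
        simp only [Pi.inv_apply, Pi.div_apply, zpow_neg, zpow_one, inv_div,
          inv_div_inv])) hε ⟨k1, k2⟩
    fun N hN k1 k2 => alt_neg (hS.fr N) (hS.per N hN).per k1 (by simpa using k2) _
  refine sc_s1 (fun h0 => ?_) h1 h2
  subst h0
  exact h3.resolve_left (not_not.2 rfl) (sc_noinv hI H h (sc_sec h2) h1)

theorem s1F_one [Nonempty M] (hI : C.In) (H : C.Hyp S E) (hn : 0 < n) :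
    C.S1F 1 (5 / 4) := fun P ε B₀ hε k1 k2 => by
  obtain ⟨α, w, h1, h2, h3, -, h4⟩ := sc_main (a := 0) (b := 1) (p₀ := Classical.arbitrary M) hI H
    ⟨0, hn⟩ 0 sys_one (fun i p _ => by simpa using smAt_one) hε ⟨k1, k2⟩
    fun N hN k1 k2 => alt_one hN hI.liou k1 (by simpa using k2) _
  refine sc_s1 (fun h0 => ?_) h1 h2
  have h5 := h4 h0
  subst h0
  refine h3.resolve_left (not_not.2 rfl) (funext fun p => ?_)
  rw [one_mul] at h5
  exact (sc_const hI.liou (fun q => by simpa using sc_sec h2 _ q (C.mem_U_idx q)) h1 p _).trans h5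

end Cov

end Vale.Agent.P267
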