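import Vale.Agent.P267S.SM2
import Vale.Agent.P267S.SM3

/-! P267, solver part: the holomorphic structure with a tail. -/

open scoped Manifold ContDiff Topology
open Filter Metric Set

noncomputable section

namespace Vale.Agent.P267

set_option linter.unusedSectionVars false

variable {M : Type} [TopologicalSpace M] [ChartedSpace C2 M] [T2Space M]

namespace Cov
variable (C : Cov M) {n : ℕ} {S : Set M} {E : Fin n → M → M → ℂ}

theorem sm_far (hS : IsCompact S) :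
    ∃ T : ℤ, ∀ j : C.I, T ≤ |j.2| → Disjoint (C.ch j).source S := by
  obtain ⟨B, hB⟩ := hS.exists_bound_of_continuousOn C.continuous_t.continuousOn
  refine ⟨⌈B + C.R⌉ + 1, fun j hj => disjoint_left.2 fun p hp hpS => ?_⟩
  have h1 := abs_le.1 (C.t_ch hp)
  have h2 := abs_le.1 (hB p hpS)
  have h3 := Int.le_ceil (B + C.R)
  have h4 : ((⌈B + C.R⌉ + 1 : ℤ) : ℝ) ≤ |(j.2 : ℝ)| := by exact_mod_cast hj
  have h5 : |(j.2 : ℝ)| ≤ B + C.R := abs_le.2 ⟨by linarith [h1.1, h2.2], by linarith [h1.2, h2.1]⟩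
  push_cast at h4
  linarith

theorem sm_cont {e : M → M → ℂ} (he : IsBundle SmAt e) {p : M}
    (hm : SmAt (fun q => (‖e p q‖ : ℂ)) p) {φ : M → ℂ} (h : SmAt (φ / e p) p) :
    ContinuousAt (fun q => ‖φ q‖) p := by
  refine (h.continuousAt.norm.mul hm.continuousAt.norm).congr ?_
  filter_upwards [he.ne p] with q hq
  have : ‖e p q‖ ≠ 0 := norm_ne_zero_iff.2 hq
  simp [this]

theorem sm_bd {x : C.I → M → ℝ} {T : ℤ} (h : ∀ j, ∀ p ∈ (C.ch j).source, ContinuousAt (x j) p)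
    (h1 : ∀ j : C.I, T ≤ |j.2| → ∀ p ∈ (C.ch j).source, x j p = 1) :
    ∃ D, 0 ≤ D ∧ ∀ j, ∀ p ∈ C.U j (5 / 2), x j p ≤ D := by
  obtain ⟨D, h0, hD⟩ := C.bd_wt (r := 5 / 2) (x := fun j p => x j p - 1) (T := T) (fun j => by
    obtain ⟨B, hB⟩ := (C.isCompact_cl j (r := 5 / 2) (by norm_num)).exists_bound_of_continuousOn
      (f := x j) fun p hp => (h j p hp.1).continuousWithinAt
    exact ⟨B, fun p hp => by linarith [(abs_le.1 (hB p ⟨hp.1, hp.2.le⟩)).2]⟩)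
    (fun j hj p hp => by rw [h1 j hj p hp.1]; simp) 0
  refine ⟨D + 1, by linarith, fun j p hp => ?_⟩
  have h2 := hD j p hp
  have h3 := mul_le_of_le_one_right h0 (C.wt_le_one le_rfl 0 j)
  linarith

theorem sm_hol {ψ h : M → ℂ} {β : M → C2 →L[ℝ] ℂ} {p : M} (hψ : SmAt ψ p) (hh : C.Prim β h p)
    (e : ∀ᶠ q in 𝓝 p, ψ q ≠ 0 ∧ β q = (ψ q)⁻¹ • C.db ψ q) :
    HolAt (ψ * fun q => Complex.exp ((-h) q)) p := by
  refine C.hol_of_db (hψ.mul hh.1.neg.exp) ?_
  filter_upwards [e, hh.2, C.sm_ev hψ, C.sm_ev hh.1] with q h1 h2 h3 h4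
  rw [C.db_mul h3 h4.neg.exp, C.db_comp h4.neg (Complex.hasDerivAt_exp _), C.db_neg, h2, h1.2,
    smul_neg, smul_neg, smul_smul, smul_smul, mul_right_comm, mul_inv_cancel₀ h1.1, one_mul,
    neg_add_cancel]

theorem str_exists (H : C.Hyp S E) (hF : C.Framed S E) {δ K : ℝ} (hδ : 0 < δ)
    (h2 : C.S2 1 3 (5 / 2) δ K) (i : Fin n) : ∃ Φ a B T, C.Str (E i) Φ a δ B T := by
  choose Φ hΦ hΦ' using hF i
  obtain ⟨T, hT⟩ := C.sm_far H.compact
  have hone : ∀ j : C.I, T ≤ |j.2| → ∀ p ∈ (C.ch j).source, Φ j p = 1 := fun j hj p _ => by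
    rw [hΦ' j (hT j hj)]; rfl
  have hsm : ∀ j l, ∀ p ∈ (C.ch j).source ∩ (C.ch l).source, SmAt (Φ j / Φ l) p := by
    intro j l p hp
    have h0 := (H.smooth i).ne p
    refine ((hΦ j p hp.1).2.div (hΦ l p hp.2).2
      (div_ne_zero (hΦ l p hp.2).1 h0.self_of_nhds)).congr ?_
    filter_upwards [h0] with q hq
    simp only [Pi.div_apply]
    rw [div_div_div_cancel_right₀ hq]
  obtain ⟨D, α, hD, hα⟩ := C.conn (fun j p hp => (hΦ j p hp).1) hsm hone δ
  obtain ⟨f, hf, hf'⟩ := h2 0 D α hD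
  have hp : ∀ j l, ∀ p ∈ C.U j (5 / 2) ∩ C.U l (5 / 2),
      C.Prim (fun q => α j q - α l q) (f j - f l) p := fun j l p hp =>
    (hf' j l p hp).congr (Eventually.of_forall fun q => by simp [df])
      (Eventually.of_forall fun q => by simp)
  obtain ⟨a, B, hB, a1, a2, a3, a4⟩ := C.normal (A := |K * D| + D) (by norm_num) hδ.le
    (fun j p hp => (hf j p hp).trans (mul_le_mul_of_nonneg_right
      (by linarith [le_abs_self (K * D), hD.pos]) (C.wt_pos _ _ _).le))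
    (fun j p hp => (hD.bd j p (C.U_mono j (by norm_num) hp)).trans (mul_le_mul
      (by linarith [abs_nonneg (K * D)]) (C.wt_mono (by linarith) _ _) (C.wt_pos _ _ _).le
      (by linarith [abs_nonneg (K * D), hD.pos]))) hp
  have hc : ∀ j, ∀ p ∈ (C.ch j).source, ContinuousAt (fun q => ‖Φ j q‖) p := fun j p hp =>
    sm_cont (H.smooth i) (H.metric i p) (hΦ j p hp).2
  obtain ⟨D1, d1, hD1⟩ := C.sm_bd (x := fun j q => ‖Φ j q‖) hc
    fun j hj p hp => by rw [hone j hj p hp, norm_one]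
  obtain ⟨D2, d2, hD2⟩ := C.sm_bd (x := fun j q => ‖Φ j q‖⁻¹)
    (fun j p hp => (hc j p hp).inv₀ (norm_ne_zero_iff.2 (hΦ j p hp).1))
    fun j hj p hp => by rw [hone j hj p hp, norm_one, inv_one]
  have he : 0 < Real.exp B := Real.exp_pos B
  have hab : ∀ j, ∀ p ∈ C.U j (5 / 2), ‖a j p‖ ≤ B := fun j p hp =>
    (a2 j p hp).1.trans (mul_le_of_le_one_right hB (C.wt_le_one hδ.le 0 j))
  refine ⟨Φ, a, B + (D1 + D2) * Real.exp B, T, hδ, hΦ, fun j hj p hp => ⟨hone j hj p hp,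
    H.triv i p (disjoint_left.1 (hT j hj) hp)⟩, a1, fun j p hp => ?_, a3,
    fun j p hp => mul_ne_zero (hΦ j p hp.1).1 (Complex.exp_ne_zero _), fun j l p hp' => ?_,
    fun j p hp => ⟨?_, ?_⟩⟩
  · have h1 : B * C.wt δ 0 j ≤ (B + (D1 + D2) * Real.exp B) * C.wt δ 0 j :=
      mul_le_mul_of_nonneg_right (le_add_of_nonneg_right (by positivity)) (C.wt_pos _ _ _).le
    exact ⟨(a2 j p hp).1.trans h1, (a2 j p hp).2.trans h1⟩
  · refine (C.sm_hol (hsm j l p ⟨hp'.1.1, hp'.2.1⟩) (hp j l p hp') ?_).congr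
      (Eventually.of_forall fun q => ?_)
    · filter_upwards [(C.ch j).open_source.mem_nhds hp'.1.1,
        (C.ch l).open_source.mem_nhds hp'.2.1] with q h1 h3
      exact ⟨div_ne_zero (hΦ j q h1).1 (hΦ l q h3).1, hα j l q ⟨h1, h3⟩⟩
    · rw [← a4 j l]
      simp only [Pi.mul_apply, Pi.div_apply, Pi.sub_apply, Complex.exp_sub]
      rw [mul_div_mul_comm]
  · have h1 : ‖Complex.exp (a j p)‖ ≤ Real.exp B :=
      (Complex.norm_exp_le_exp_norm _).trans (Real.exp_le_exp.2 (hab j p hp))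
    have h3 := mul_le_mul (hD1 j p hp) h1 (norm_nonneg _) d1
    rw [norm_mul]
    nlinarith
  · have h1 : ‖Complex.exp (-a j p)‖ ≤ Real.exp B :=
      (Complex.norm_exp_le_exp_norm _).trans (Real.exp_le_exp.2 (by simpa using hab j p hp))
    have h3 := mul_le_mul (hD2 j p hp) h1 (norm_nonneg _) d2
    rw [mul_inv, ← Complex.exp_neg, norm_mul, norm_inv]
    nlinarith

end Cov

end Vale.Agent.P267
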