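import Vale.Agent.P267S.ST2
import Vale.Agent.P267S.SA
import Vale.Agent.P267S.SC
import Vale.Agent.P267S.SM
import Vale.Agent.P267S.S2c
import Vale.Agent.P267S.Frm

/-! P267, solver part: the assembly. -/

open scoped Manifold ContDiff Topology
open Filter Metric Set

noncomputable section

namespace Vale.Agent.P267

set_option linter.unusedSectionVars false

variable {M : Type} [TopologicalSpace M] [ChartedSpace C2 M] [T2Space M] [ConnectedSpace M]

namespace Cov
variable {C : Cov M}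

theorem s2_tl (hK : C.NoK) {F : C.I → M → ℂ} {r r' B δ : ℝ} (hF : C.Fr F r B) (hT : C.Tl F r)
    (hδ : 0 < δ) (h1 : 1 < r') (h2 : r' < r) (h3 : r ≤ 3) : ∃ K, 0 ≤ K ∧ C.S2 F r r' δ K := by
  obtain ⟨K, h0, h⟩ := C.s2 (G := fun _ => F) (fun _ => hF)
    (noLim_tl hK hF (h1.trans h2) hT) hδ h1 h2 h3
  exact ⟨K, h0, h.exists.choose_spec⟩

theorem solve_of (hK : C.NoK) (h1 : C.S1F 1 (5 / 4)) {v : M → M → ℂ} {q : M → ℂ}
    (hv : C.Tail v) (hq : Sec v q) (hb : Bdd q) (hl : C.LimB q 1) : C.Solve v q := by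
  obtain ⟨F, B, hF, hT, hR⟩ := hv.rep
  refine sv_core hv.hol hF hR hq hb hl.ne_zero (fun δ hδ => s2_tl hK
    (sv_mono (sv_inv hF) (by norm_num)) (sv_tl_mono (sv_tl hF hT) (by norm_num)) hδ
    (by norm_num) (by norm_num) (by norm_num))
    (C.dolM (by norm_num) (by norm_num) (by norm_num)) h1 fun w ε A k1 k2 k3 => ?_
  exact limA_near (T := 0) k1 k2 fun i _ => k3 i

theorem in_of (hK : C.NoK) : C.In := by
  refine ⟨fun f o hf h p q => ?_, fun φ δ B h => noSec_tl hK h.fr one_lt_two ⟨δ, B, h.pos, h.tl⟩,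
    fun G B δ hG hN hδ => ?_, fun s ε B k1 k2 k3 => limB_near (T := 0) k1 k2 fun i _ => k3 i,
    fun φ δ B s h => zero_of_limB h.fr one_lt_two ⟨δ, B, h.pos, h.tl⟩⟩
  · obtain ⟨c, hc⟩ := C.liou hf (o := o) fun p q hpq => h ((C.t p + C.t q) / 2) p q
      (by rw [abs_le] at hpq ⊢; constructor <;> linarith [hpq.1, hpq.2])
      (by rw [abs_le] at hpq ⊢; constructor <;> linarith [hpq.1, hpq.2])
    rw [hc, hc]
  · obtain ⟨K, -, h⟩ := C.s2c hG hN hδ (r' := 9 / 8) (by norm_num) (by norm_num) (by norm_num)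
    exact ⟨K, h⟩

/-- The solver. -/
theorem solver (C : Cov M) {n : ℕ} {S : Set M} {E : Fin n → M → M → ℂ} (H : C.Hyp S E)
    (hF : C.Framed S E) (hn : 0 < n) : ∃ u s, C.Out E u s := by
  have hK : C.NoK := H.noK
  have hI := in_of hK
  obtain ⟨K, -, h2⟩ := s2_tl hK (fr_one 3) (tl_one 3) one_pos (r' := 5 / 2) (by norm_num)
    (by norm_num) le_rfl
  choose Φ a B T h using C.str_exists H hF one_pos h2
  choose s s1 s2 s3 using fun i => exists_sec hI H (h i)
  refine ⟨fun i => C.bun fun j q => Φ i j q * Complex.exp (a i j q), s,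
    fun i => (h i).tail (H.smooth i) (H.metric i), fun i => (h i).iso, fun i => st_sec (s1 i),
    s2, s3, fun f => C.hol_const, fun v hv q hq hb => ?_, fun i => ?_,
    fun v hv q => solve_of hK (s1F_one hI H hn) hv⟩
  · obtain ⟨F, B, -, hT, hR⟩ := hv.rep
    exact (lim_tl one_le_two hT (st_secF hv.hol hR one_le_two hq) hb).1
  · have k := sv_mono (h i).fr (r' := 2) (by norm_num)
    exact s1_of (C.dolM (by norm_num) (by norm_num) (by norm_num)) (st_bun k one_le_two).inv
      (sv_inv k) (st_rep_inv (st_rep k one_le_two)) (s1F_inv hI H (h i))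

end Cov

end Vale.Agent.P267
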