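import Vale.Agent.P267S.Cal
import Vale.Agent.P272.B1

/-! P267, solver part: the Cauchy transform with bounds. -/

open scoped Manifold ContDiff Topology ENNReal Real
open Filter Metric Set MeasureTheory

noncomputable section

namespace Vale.Agent.P267

open Vale.Agent.P272

set_option linter.unusedSectionVars false

variable {m : Fin 2} {K K' : C2 → ℂ} {c : C2} {ρ : ℝ}

theorem CT_app (F : C2 → ℂ) (z v : C2) :
    dbar F z v = 2⁻¹ * (fderiv ℝ F z v + Complex.I * fderiv ℝ F z (Complex.I • v)) := by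
  simp [dbar, mul_add]

theorem CT_hs (h0 : ∀ w, ρ ≤ ‖w m - c m‖ → K w = 0) (R : ℝ) : ∃ R' : ℝ, ∀ (p : C2) (t : ℂ),
    ‖p‖ < R → R' < ‖t‖ → (fun q : C2 × ℂ => K (B1S m q)) (p, t) = 0 := by
  refine ⟨R + ‖c m‖ + ρ, fun p t hp ht => h0 _ ?_⟩
  have h1 : ‖p m‖ ≤ ‖p‖ := norm_le_pi_norm p m
  have h2 : ‖t‖ ≤ ‖p m + t - c m‖ + ‖p m - c m‖ := by
    simpa using norm_sub_le (p m + t - c m) (p m - c m)
  rw [B1S_apply, Pi.add_apply, Pi.single_eq_same]
  linarith [norm_sub_le (p m) (c m)]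

theorem CT_hd (hK : ContDiff ℝ ∞ K) (q v : C2 × ℂ) :
    fderiv ℝ (fun q : C2 × ℂ => K (B1S m q)) q v = fderiv ℝ K (B1S m q) (B1S m v) :=
  congrArg (fun L => L v) ((hK.differentiable (by simp) (B1S m q)).hasFDerivAt.comp q
    (B1S m).hasFDerivAt).fderiv

theorem CT_int (hK : Continuous K) (h0 : ∀ w, ρ ≤ ‖w m - c m‖ → K w = 0) (z : C2) :
    Integrable fun t : ℂ => t⁻¹ * K (z + Pi.single m t) := by
  obtain ⟨R', hR⟩ := CT_hs h0 (‖z‖ + 1)
  exact B0_int B1_locInt (R := R') (hK.comp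
    ((B1S m).continuous.comp (Continuous.prodMk_right z))) fun t ht => hR z t (lt_add_one _) ht

theorem cT_sm (hK : ContDiff ℝ ∞ K) (h0 : ∀ w, ρ ≤ ‖w m - c m‖ → K w = 0) :
    ContDiff ℝ ∞ (cT m K) :=
  contDiff_const.mul (B0_smooth B1_locInt (hK.comp (B1S m).contDiff) (CT_hs h0))

theorem dbar_cT (hK : ContDiff ℝ ∞ K) (h0 : ∀ w, ρ ≤ ‖w m - c m‖ → K w = 0) (z v : C2) :
    dbar (cT m K) z v = cT m (fun w => dbar K w v) z := by
  have hG : ContDiff ℝ ∞ fun q : C2 × ℂ => K (B1S m q) := hK.comp (B1S m).contDiff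
  have hI : ∀ v : C2, Integrable fun t : ℂ => t⁻¹ * fderiv ℝ K (z + Pi.single m t) v := by
    intro v
    obtain ⟨R', hR⟩ := B0_supp (g := fun q : C2 × ℂ => K (B1S m q)) (CT_hs h0) (‖z‖ + 1)
    refine B0_int B1_locInt (R := R') (((hK.continuous_fderiv (by simp)).comp
      ((B1S m).continuous.comp (Continuous.prodMk_right z))).clm_apply continuous_const)
      fun t ht => ?_
    have h1 := CT_hd (m := m) hK (z, t) (v, 0)
    rw [hR z t (lt_add_one _) ht, B1S_apply, B1S_apply, Pi.single_zero, add_zero] at h1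
    exact h1.symm
  have hf : ∀ v : C2, fderiv ℝ (cT m K) z v =
      -(π : ℂ)⁻¹ * ∫ t : ℂ, t⁻¹ * fderiv ℝ K (z + Pi.single m t) v := fun v => by
    rw [show cT m K = fun p => -(π : ℂ)⁻¹ * ∫ t : ℂ, t⁻¹ * K (B1S m (p, t)) from rfl,
      fderiv_const_mul ((B0_smooth B1_locInt hG (CT_hs h0)).differentiable (by simp) z),
      smul_apply, B0_fderiv B1_locInt hG (CT_hs h0), smul_eq_mul]
    simp only [CT_hd hK, B1S_apply, Pi.single_zero, add_zero]
  have e : ∫ t : ℂ, t⁻¹ * dbar K (z + Pi.single m t) v =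
      2⁻¹ * ((∫ t : ℂ, t⁻¹ * fderiv ℝ K (z + Pi.single m t) v) +
        Complex.I * ∫ t : ℂ, t⁻¹ * fderiv ℝ K (z + Pi.single m t) (Complex.I • v)) := by
    rw [← integral_const_mul, ← integral_add (hI _) ((hI _).const_mul _), ← integral_const_mul]
    refine integral_congr_ae (Eventually.of_forall fun t => ?_)
    simp only [CT_app]
    ring
  rw [CT_app, hf, hf, cT, e]
  ring

theorem cT_dbar (hK : ContDiff ℝ ∞ K) (h0 : ∀ w, ρ ≤ ‖w m - c m‖ → K w = 0) (z : C2) :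
    cT m (fun w => dbar K w (ee m)) z = K z := by
  have hG : ContDiff ℝ ∞ fun q : C2 × ℂ => K (B1S m q) := hK.comp (B1S m).contDiff
  have h1 : ContDiff ℝ ∞ fun t : ℂ => K (B1S m (z, t)) := hG.comp (contDiff_prodMk_right z)
  obtain ⟨R', hR⟩ := CT_hs h0 (‖z‖ + 1)
  have h2 := B0_pomp (h1.of_le (by simp))
    (HasCompactSupport.intro (isCompact_closedBall (0 : ℂ) R') fun x hx =>
      hR z x (lt_add_one _) (not_le.1 fun h => hx (mem_closedBall_zero_iff.2 h)))
  have h3 : ∀ u v : ℂ, fderiv ℝ (fun t : ℂ => K (B1S m (z, t))) u v =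
      fderiv ℝ K (z + Pi.single m u) (Pi.single m v) := by
    intro u v
    have h4 := (HasFDerivAt.comp (f := fun t : ℂ => (z, t)) u
      (hG.differentiable (by simp) (z, u)).hasFDerivAt
      (hasFDerivAt_prodMk_right (𝕜 := ℝ) z u)).fderiv
    refine (congrArg (fun L => L v) h4).trans ?_
    simp only [ContinuousLinearMap.comp_apply, ContinuousLinearMap.inr_apply, CT_hd hK, B1S_apply,
      zero_add]
  simp only [h3] at h2
  simp only [smul_eq_mul, B1S_apply, Pi.single_zero, add_zero] at h2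
  have h6 : ∀ t : ℂ, t⁻¹ * dbar K (z + Pi.single m t) (ee m) =
      2⁻¹ * (t⁻¹ * (fderiv ℝ K (z + Pi.single m t) (Pi.single m 1) +
        Complex.I * fderiv ℝ K (z + Pi.single m t) (Pi.single m Complex.I))) := by
    intro t
    rw [CT_app, ← Pi.single_smul, smul_eq_mul, mul_one]
    ring
  have hπ : (π : ℂ) ≠ 0 := Complex.ofReal_ne_zero.2 Real.pi_ne_zero
  simp only [cT, h6]
  rw [integral_const_mul, h2]
  field_simp

theorem cT_sub (hK : Continuous K) (h0 : ∀ w, ρ ≤ ‖w m - c m‖ → K w = 0) (hK' : Continuous K')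
    (h0' : ∀ w, ρ ≤ ‖w m - c m‖ → K' w = 0) (z : C2) :
    cT m (K - K') z = cT m K z - cT m K' z := by
  simp only [cT, Pi.sub_apply, mul_sub]
  rw [integral_sub (CT_int hK h0 z) (CT_int hK' h0' z), mul_sub]

theorem cT_congr {z : C2} (h : ∀ t : ℂ, K (z + Pi.single m t) = K' (z + Pi.single m t)) :
    cT m K z = cT m K' z := by
  simp only [cT, h]

theorem cT_zero (z : C2) : cT m 0 z = 0 := by
  simp [cT]

theorem CT_pt (h0 : ∀ w, ρ ≤ ‖w m - c m‖ → K w = 0) {z : C2} (hz : z ∈ ball c ρ) :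
    ‖cT m K z‖ₑ ≤ ENNReal.ofReal π⁻¹ * ∫⁻ t : ℂ,
      (ball (0 : ℂ) (2 * ρ)).indicator (fun t => ‖t⁻¹‖ₑ) t *
        (ball c ρ).indicator (fun w => ‖K w‖ₑ) (z + Pi.single m t) := by
  rw [cT, enorm_mul, enorm_neg, ← ofReal_norm, norm_inv, Complex.norm_real,
    Real.norm_of_nonneg Real.pi_pos.le]
  refine mul_le_mul_right ((enorm_integral_le_lintegral_enorm _).trans
    (lintegral_mono fun t => ?_)) _
  rcases le_or_gt ρ ‖(z + Pi.single m t : C2) m - c m‖ with h | h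
  · simp [h0 _ h]
  · have hρ : 0 < ρ := pos_of_mem_ball hz
    have h1 : ∀ i, ‖z i - c i‖ < ρ := (pi_norm_lt_iff hρ).1 (mem_ball_iff_norm.1 hz)
    have h2 : z + Pi.single m t ∈ ball c ρ := by
      refine mem_ball_iff_norm.2 ((pi_norm_lt_iff hρ).2 fun i => ?_)
      by_cases hi : i = m
      · rw [hi]
        exact h
      · rw [Pi.sub_apply, Pi.add_apply, Pi.single_eq_of_ne hi, add_zero]
        exact h1 i
    have h3 : t ∈ ball (0 : ℂ) (2 * ρ) := by
      rw [Pi.add_apply, Pi.single_eq_same] at h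
      have h4 : ‖t‖ ≤ ‖z m + t - c m‖ + ‖z m - c m‖ := by
        simpa using norm_sub_le (z m + t - c m) (z m - c m)
      exact mem_ball_zero_iff.2 (by linarith [h1 m])
    rw [indicator_of_mem h2, indicator_of_mem h3, enorm_mul]

theorem CT_cs {X : Type} [MeasurableSpace X] {μ : Measure X} {κ G : X → ℝ≥0∞}
    (hκ : Measurable κ) (hG : Measurable G) :
    (∫⁻ t, κ t * G t ∂μ) ^ 2 ≤ (∫⁻ t, κ t ∂μ) * ∫⁻ t, κ t * G t ^ 2 ∂μ := by
  have e : ∀ x : ℝ≥0∞, (x ^ (1 / 2 : ℝ)) ^ 2 = x := fun x => by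
    rw [← ENNReal.rpow_natCast, ← ENNReal.rpow_mul]
    norm_num
  have e' : ∀ x : ℝ≥0∞, (x ^ 2) ^ (1 / 2 : ℝ) = x := fun x => by
    rw [← ENNReal.rpow_natCast, ← ENNReal.rpow_mul]
    norm_num
  have h := ENNReal.lintegral_mul_norm_pow_le (μ := μ) hκ.aemeasurable
    (hκ.mul (hG.pow_const 2)).aemeasurable (p := 1 / 2) (q := 1 / 2) (by norm_num) (by norm_num)
    (by norm_num)
  have h1 : ∀ t, κ t ^ (1 / 2 : ℝ) * (κ t * G t ^ 2) ^ (1 / 2 : ℝ) = κ t * G t := fun t => by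
    rw [← ENNReal.mul_rpow_of_nonneg _ _ (by norm_num), ← mul_assoc, ← sq, ← mul_pow, e']
  simp only [Pi.mul_apply, h1] at h
  refine (pow_le_pow_left' h 2).trans_eq ?_
  rw [mul_pow, e, e]

/-- Bounds for the Cauchy transform. -/
theorem cT_bd (ρ : ℝ) : ∃ A : ℝ, 0 ≤ A ∧ ∀ (m : Fin 2) (c : C2) (K : C2 → ℂ), Continuous K →
    (∀ w, ρ ≤ ‖w m - c m‖ → K w = 0) →
      (∀ D : ℝ, (∀ w ∈ ball c ρ, ‖K w‖ ≤ D) → ∀ z ∈ ball c ρ, ‖cT m K z‖ ≤ A * D) ∧
      n2 (ball c ρ) (cT m K) ≤ ENNReal.ofReal A ^ 2 * n2 (ball c ρ) K := by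
  have pt := fun (m : Fin 2) (c : C2) (K : C2 → ℂ) => CT_pt (m := m) (c := c) (K := K) (ρ := ρ)
  have hκ : Measurable ((ball (0 : ℂ) (2 * ρ)).indicator fun t => ‖t⁻¹‖ₑ) :=
    measurable_inv.enorm.indicator measurableSet_ball
  have ha : ∫⁻ t, (ball (0 : ℂ) (2 * ρ)).indicator (fun t => ‖t⁻¹‖ₑ) t ≠ ⊤ := by
    rw [lintegral_indicator measurableSet_ball]
    exact ((B1_locInt.integrableOn_isCompact (isCompact_closedBall 0 (2 * ρ))).mono_set
      ball_subset_closedBall).2.ne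
  generalize ((ball (0 : ℂ) (2 * ρ)).indicator fun t => ‖t⁻¹‖ₑ) = κ at *
  have hA : ENNReal.ofReal (π⁻¹ * (∫⁻ t, κ t).toReal) = ENNReal.ofReal π⁻¹ * ∫⁻ t, κ t := by
    rw [ENNReal.ofReal_mul (by positivity), ENNReal.ofReal_toReal ha]
  refine ⟨π⁻¹ * (∫⁻ t, κ t).toReal, by positivity, fun m c K hK h0 => ⟨fun D hD z hz => ?_, ?_⟩⟩
  · have D0 : 0 ≤ D := (norm_nonneg _).trans (hD z hz)
    rw [← ENNReal.ofReal_le_ofReal_iff (by positivity), ENNReal.ofReal_mul' D0, hA,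
      ofReal_norm, mul_assoc, ← lintegral_mul_const _ hκ]
    refine (pt m c K h0 hz).trans (mul_le_mul_right (lintegral_mono fun t =>
      mul_le_mul_right (indicator_apply_le' (fun h => ?_) fun _ => zero_le) _) _)
    rw [← ofReal_norm]
    exact ENNReal.ofReal_le_ofReal (hD _ h)
  · have hG : Measurable ((ball c ρ).indicator fun w => ‖K w‖ₑ) :=
      hK.measurable.enorm.indicator measurableSet_ball
    have e : n2 (ball c ρ) K = ∫⁻ w, (ball c ρ).indicator (fun w => ‖K w‖ₑ) w ^ 2 := by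
      rw [n2, ← lintegral_indicator measurableSet_ball]
      refine lintegral_congr fun w => ?_
      by_cases h : w ∈ ball c ρ <;> simp [h]
    have p := fun z => pt m c K h0 (z := z)
    rw [e, hA]
    generalize ((ball c ρ).indicator fun w => ‖K w‖ₑ) = G at *
    have hm : Measurable fun q : C2 × ℂ => κ q.2 * G (q.1 + Pi.single m q.2) ^ 2 :=
      (hκ.comp measurable_snd).mul ((hG.comp (B1S m).continuous.measurable).pow_const 2)
    calc n2 (ball c ρ) (cT m K) ≤ ∫⁻ z in ball c ρ, (ENNReal.ofReal π⁻¹ ^ 2 * ∫⁻ t, κ t) *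
          ∫⁻ t, κ t * G (z + Pi.single m t) ^ 2 := by
          refine setLIntegral_mono' measurableSet_ball fun z hz =>
            (pow_le_pow_left' (p z hz) 2).trans ?_
          rw [mul_pow, mul_assoc]
          exact mul_le_mul_right (CT_cs hκ (hG.comp ((B1S m).continuous.comp
            (Continuous.prodMk_right z)).measurable)) _
      _ ≤ ∫⁻ z : C2, (ENNReal.ofReal π⁻¹ ^ 2 * ∫⁻ t, κ t) *
          (∫⁻ t, κ t * G (z + Pi.single m t) ^ 2) := setLIntegral_le_lintegral _ _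
      _ = (ENNReal.ofReal π⁻¹ ^ 2 * ∫⁻ t, κ t) *
          ∫⁻ t, ∫⁻ z : C2, κ t * G (z + Pi.single m t) ^ 2 := by
          rw [lintegral_const_mul' _ _ (ENNReal.mul_ne_top
            (ENNReal.pow_ne_top ENNReal.ofReal_ne_top) ha)]
          exact congrArg _ (lintegral_lintegral_swap hm.aemeasurable)
      _ = _ := by
          have e2 : ∀ t : ℂ, ∫⁻ z : C2, κ t * G (z + Pi.single m t) ^ 2 = κ t * ∫⁻ z, G z ^ 2 :=
            fun t => (lintegral_add_right_eq_self (fun z => κ t * G z ^ 2) _).trans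
              (lintegral_const_mul _ (hG.pow_const 2))
          simp only [e2]
          rw [lintegral_mul_const _ hκ]
          ring

end Vale.Agent.P267
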