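import Vale.Agent.P267S.Defs

/-! P267, solver part: objects of the square integrable theory. -/

open scoped Manifold ContDiff Topology ENNReal Real
open Filter Metric Set MeasureTheory

noncomputable section

namespace Vale.Agent.P267

set_option linter.unusedSectionVars false

/-- The Cauchy transform in the variable `m`. -/
def cT (m : Fin 2) (K : C2 → ℂ) (z : C2) : ℂ :=
  -(π : ℂ)⁻¹ * ∫ t : ℂ, t⁻¹ * K (z + Pi.single m t)

variable {M : Type} [TopologicalSpace M] [ChartedSpace C2 M]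

namespace Cov
variable (C : Cov M)

/-- The form on `M` with the expression `b` in the chart `i`. -/
def pb (i : C.I) (b : C2 → C2 →L[ℝ] ℂ) (p : M) : C2 →L[ℝ] ℂ :=
  (b (C.ch i p)).comp
    ((fderiv ℂ (C.ch i ∘ (C.ch (C.idx p)).symm) (C.ch (C.idx p) p)).restrictScalars ℝ)

/-- The sum of the local forms `b i`. -/
def glue (F : C.I → M → ℂ) (r₀ : ℝ) (b : C.I → C2 → C2 →L[ℝ] ℂ) (p : M) : C2 →L[ℝ] ℂ :=
  ∑ᶠ i, (C.U i r₀).indicator (fun q => (F i q)⁻¹ • C.pb i (b i) q) p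

/-- What the Riesz theorem gives. -/
structure Rz (F : C.I → M → ℂ) (r r₀ δ : ℝ) (c : ℤ) (A : ℝ) (α : C.I → M → C2 →L[ℝ] ℂ)
    (b : C.I → C2 → C2 →L[ℝ] ℂ) : Prop where
  anti : ∀ i z, Anti (b i z)
  mem : ∀ i a, MemLp (fun z => b i z (ee a)) 2 volume
  bd : ∀ i, n2 univ (b i) ≤ ENNReal.ofReal (A * C.wt δ c i) ^ 2
  eq : ∀ η, C.Tst F r η → ∀ S : Finset C.I, (∀ i ∉ S, ∀ p ∈ C.U i r, η p = 0) →
    ∑ l ∈ S, ∫ z in ball (0 : C2) r₀, w2 (C.cmp (C.ch l) (α l) z)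
      (dbar (C.du F ((fun q => (C.rho l q : ℂ)) * η) l) z) =
    ∑ i ∈ S, ∫ z in ball (0 : C2) r₀, w2 (b i z) (dbar (C.du F η i) z)

/-- The form `α j - F j • β` in the chart `j`. -/
def om (F : C.I → M → ℂ) (α : C.I → M → C2 →L[ℝ] ℂ) (β : M → C2 →L[ℝ] ℂ) (j : C.I) :
    C2 → C2 →L[ℝ] ℂ := C.cmp (C.ch j) fun q => α j q - F j q • β q

/-- The forms `α j - F j • β` are square integrable. -/
structure Wb (F : C.I → M → ℂ) (r δ : ℝ) (c : ℤ) (A : ℝ) (α : C.I → M → C2 →L[ℝ] ℂ)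
    (β : M → C2 →L[ℝ] ℂ) : Prop where
  anti : ∀ j, ∀ z ∈ ball (0 : C2) r, Anti (C.om F α β j z)
  mem : ∀ j a, MemLp (fun z => C.om F α β j z (ee a)) 2 (volume.restrict (ball 0 r))
  bd : ∀ j, n2 (ball 0 r) (C.om F α β j) ≤ ENNReal.ofReal (A * C.wt δ c j) ^ 2

/-- The forms `α j - F j • β` are weakly closed. -/
def Wc (F : C.I → M → ℂ) (r : ℝ) (α : C.I → M → C2 →L[ℝ] ℂ) (β : M → C2 →L[ℝ] ℂ) : Prop :=
  ∀ j (τ : C2 → ℂ), ContDiff ℝ ∞ τ → HasCompactSupport τ → tsupport τ ⊆ ball 0 r →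
    ∫ z in ball (0 : C2) r, w2 (C.om F α β j z) (dbar τ z) = 0

end Cov

end Vale.Agent.P267
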