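import Vale.Agent.P267S.SM1
import Vale.Agent.P267S.CBase

/-! P267, solver part H: forms of top degree, the parametrix and the dual estimate. -/

open scoped Manifold ContDiff Topology BoundedContinuousFunction Real
open Filter Metric Set MeasureTheory

noncomputable section

namespace Vale.Agent.P267

/-- Smooth functions that vanish outside the closed polydisc of radius `ρ`. -/
def DD (ρ : ℝ) : Submodule ℂ (C2 →ᵇ ℂ) where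
  carrier := {G | ContDiff ℝ ∞ G ∧ ∀ z, ρ < ‖z‖ → G z = 0}
  add_mem' h h' := ⟨h.1.add h'.1, fun z hz => by simp [h.2 z hz, h'.2 z hz]⟩
  zero_mem' := ⟨contDiff_const, fun _ _ => rfl⟩
  smul_mem' c _ h := ⟨h.1.const_smul c, fun z hz => by simp [h.2 z hz]⟩

/-- The coefficient of the exterior derivative of a form of type (0,1). -/
def cu (A : Fin 2 → C2 → ℂ) (z : C2) : ℂ := dbar (A 1) z (ee 0) - dbar (A 0) z (ee 1)

/-- The Cauchy transform in the variable `m`. -/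
def ct (m : Fin 2) (K : C2 → ℂ) (z : C2) : ℂ :=
  -(π : ℂ)⁻¹ * ∫ t : ℂ, t⁻¹ * K (z + Pi.single m t)

/-- The double Cauchy integral. -/
def cc (g : C2 → ℂ) (z : C2) : ℂ := ∫ w, g w * ((z 0 - w 0)⁻¹ * (z 1 - w 1)⁻¹)

/-- A parametrix whose remainder has a holomorphic transpose. -/
structure Par (a b c : ℝ) (K : DD 1 →ₗ[ℂ] DD b) : Prop where
  one : 1 < a
  pos : 0 ≤ c
  prim : ∀ g : DD 1, ∃ A : Fin 2 → DD b, (∀ k, ‖A k‖ ≤ c * ‖g‖) ∧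
    ∀ z, cu (fun k => (A k).1) z = (g.1 - (K g).1) z
  dual : ∀ (l : DD b →ₗ[ℂ] ℂ) (m : ℝ), 0 ≤ m → (∀ H, ‖l H‖ ≤ m * ‖H‖) → ∃ s : C2 → ℂ,
    AnalyticOnNhd ℂ s (ball 0 a) ∧ (∀ z ∈ ball (0 : C2) a, ‖s z‖ ≤ c * m) ∧
      ∀ g : DD 1, l (K g) = ∫ z, g.1 z * s z

/-- A bounded smooth function from a function with compact support. -/
theorem exists_DD {ρ m : ℝ} {G : C2 → ℂ} (h : ContDiff ℝ ∞ G) (h0 : ∀ z, ρ < ‖z‖ → G z = 0)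
    (hm : ∀ z, ‖G z‖ ≤ m) : ∃ g : DD ρ, ⇑g.1 = G ∧ ‖g‖ ≤ m :=
  ⟨⟨BoundedContinuousFunction.ofNormedAddCommGroup G h.continuous m hm, h, h0⟩, rfl,
    BoundedContinuousFunction.norm_ofNormedAddCommGroup_le _ ((norm_nonneg _).trans (hm 0)) hm⟩

theorem DD.le {ρ : ℝ} (g : DD ρ) (z : C2) : ‖g.1 z‖ ≤ ‖g‖ := g.1.norm_coe_le_norm z

variable {M : Type} [TopologicalSpace M] [ChartedSpace C2 M]

namespace Cov
variable (C : Cov M)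

/-- The frame for forms of type (0,2) with values in the bundle. -/
def fk (F : C.I → M → ℂ) (i : C.I) (p : M) : ℂ := F i p * (starRingEnd ℂ) (C.kf i p)

open Classical in
/-- The form of type (0,2) with the expression `G` in the chart `i`. -/
def pu (F : C.I → M → ℂ) (i : C.I) : (C2 →ᵇ ℂ) →ₗ[ℂ] (M → ℂ) where
  toFun G p := if p ∈ (C.ch i).source then G (C.ch i p) / C.fk F i p else 0
  map_add' G H := by
    funext p
    simp only [Pi.add_apply, BoundedContinuousFunction.add_apply]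
    split_ifs <;> simp [add_div]
  map_smul' c G := by
    funext p
    simp only [Pi.smul_apply, BoundedContinuousFunction.smul_apply, RingHom.id_apply, smul_eq_mul]
    split_ifs <;> simp [mul_div_assoc]

theorem pu_of_mem (F : C.I → M → ℂ) {i : C.I} (G : C2 →ᵇ ℂ) {p : M} (h : p ∈ (C.ch i).source) :
    C.pu F i G p = G (C.ch i p) / C.fk F i p := if_pos h

theorem pu_of_not (F : C.I → M → ℂ) {i : C.I} (G : C2 →ᵇ ℂ) {p : M} (h : p ∉ (C.ch i).source) :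
    C.pu F i G p = 0 := if_neg h

/-- Smooth forms of type (0,2) with values in the bundle. -/
def Sm2 (F : C.I → M → ℂ) (r : ℝ) (E : M → ℂ) : Prop :=
  ∀ i, ∀ p ∈ C.U i r, SmAt (C.fk F i * E) p

/-- Smooth forms of type (0,1) with values in the bundle. -/
def Sm1 (F : C.I → M → ℂ) (r : ℝ) (η : M → C2 →L[ℝ] ℂ) : Prop :=
  ∀ i, ∀ p ∈ C.U i r, C.SmF (fun q => F i q • η q) p

/-- The local forms `β i` have the exterior derivative `E`. -/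
def Cu (F : C.I → M → ℂ) (r : ℝ) (β : C.I → M → C2 →L[ℝ] ℂ) (E : M → ℂ) : Prop :=
  ∀ i, ∀ p ∈ C.U i r, C.curl (C.ch i) (β i) (C.ch i p) = C.fk F i p * E p

/-- Finite families of test functions. -/
abbrev YY := C.I →₀ DD 1

/-- The weighted norm. -/
def nY (δ : ℝ) (c : ℤ) (y : C.YY) : ℝ := y.sum fun i g => ‖g‖ / C.wt δ c i

/-- The sum of a family. -/
def Sg (F : C.I → M → ℂ) : C.YY →ₗ[ℂ] (M → ℂ) :=
  Finsupp.lsum ℂ fun i => C.pu F i ∘ₗ (DD 1).subtype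

/-- The exact form given by the parametrix. -/
def Tg (F : C.I → M → ℂ) {b : ℝ} (K : DD 1 →ₗ[ℂ] DD b) : C.YY →ₗ[ℂ] (M → ℂ) :=
  Finsupp.lsum ℂ fun i => C.pu F i ∘ₗ ((DD 1).subtype - (DD b).subtype ∘ₗ K)

theorem Sg_single (F : C.I → M → ℂ) (i : C.I) (g : DD 1) :
    C.Sg F (Finsupp.single i g) = C.pu F i g.1 := by simp [Sg]

theorem Tg_single (F : C.I → M → ℂ) {b : ℝ} (K : DD 1 →ₗ[ℂ] DD b) (i : C.I) (g : DD 1) :
    C.Tg F K (Finsupp.single i g) = C.pu F i (g.1 - (K g).1) := by simp [Tg]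

/-- The dual estimate. -/
def APd (F : C.I → M → ℂ) {b : ℝ} (K : DD 1 →ₗ[ℂ] DD b) (δ : ℝ) (c : ℤ) (K₀ : ℝ) : Prop :=
  ∀ (l : (M → ℂ) →ₗ[ℂ] ℂ) (L : ℝ),
    (∀ i (g : DD 1), ‖l (C.pu F i g.1)‖ ≤ L * (‖g‖ / C.wt δ c i)) →
    (∀ i (g : DD 1), ‖l (C.pu F i (g.1 - (K g).1))‖ ≤ ‖g‖ / C.wt δ c i) →
    ∀ i (g : DD 1), ‖l (C.pu F i g.1)‖ ≤ K₀ * (‖g‖ / C.wt δ c i)

/-- Approximate solvability. -/
def APX (F : C.I → M → ℂ) {b : ℝ} (K : DD 1 →ₗ[ℂ] DD b) (δ : ℝ) (c : ℤ) (K₀ : ℝ) : Prop :=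
  ∀ y : C.YY, ∃ u y' : C.YY, C.Sg F y = C.Tg F K u + C.Sg F y' ∧
    C.nY δ c u ≤ K₀ * C.nY δ c y ∧ C.nY δ c y' ≤ C.nY δ c y / 2

/-- Translated frames. -/
def hsh (k : ℤ) (F : C.I → M → ℂ) : C.I → M → ℂ := fun i p => F (i.1, i.2 - k) ((C.g ^ k) p)

/-- A normalised functional that violates the dual estimate. -/
def Bad (F : C.I → M → ℂ) {b : ℝ} (K : DD 1 →ₗ[ℂ] DD b) (δ ε : ℝ) : Prop :=
  ∃ l : (M → ℂ) →ₗ[ℂ] ℂ, (∀ i (g : DD 1), ‖l (C.pu F i g.1)‖ ≤ ‖g‖ / C.wt δ 0 i) ∧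
    (∀ i (g : DD 1), ‖l (C.pu F i (g.1 - (K g).1))‖ ≤ ε * (‖g‖ / C.wt δ 0 i)) ∧
    ∃ (x : C.ι) (g : DD 1), ‖g‖ / 2 < ‖l (C.pu F (x, 0) g.1)‖

/-- The overlap of two charts, seen in the first. -/
def Ov (i j : C.I) : Set C2 := {z | ‖z‖ < 1 ∧ (C.ch i).symm z ∈ C.U j 1}

/-- The transition function of the dual bundle. -/
def rt (F : C.I → M → ℂ) (i j : C.I) (z : C2) : ℂ :=
  (F j * C.kf i / (F i * C.kf j)) ((C.ch i).symm z)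

/-- An approximate section of the dual bundle. -/
structure Wk (F : C.I → M → ℂ) (δ a c₁ c₂ ε : ℝ) (s : C.I → C2 → ℂ) : Prop where
  an : ∀ i, AnalyticOnNhd ℂ (s i) (ball 0 a)
  bd : ∀ i, ∀ z ∈ ball (0 : C2) a, ‖s i z‖ ≤ c₁ / C.wt δ 0 i
  ne : ∃ (x : C.ι) (z : C2), ‖z‖ ≤ 1 ∧ c₂ ≤ ‖s (x, 0) z‖
  cmp : ∀ i j (g : DD 1), tsupport g.1 ⊆ C.Ov i j →
    ‖∫ z, g.1 z * (s i z - C.rt F i j z * s j (C.ch j ((C.ch i).symm z)))‖ ≤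
      ε * (1 / C.wt δ 0 i + 1 / C.wt δ 0 j) * ‖g‖

/-- Approximate global solutions. -/
def Seq (F : C.I → M → ℂ) (r δ : ℝ) (c : ℤ) (t : ℝ) (α : C.I → M → C2 →L[ℝ] ℂ) : Prop :=
  ∃ (η : ℕ → M → C2 →L[ℝ] ℂ) (τ : ℕ → ℝ), (∀ m, C.Sm1 F r (η m)) ∧
    (∀ j, ∀ p ∈ C.U j r, ‖F j p • η 0 p‖ ≤ t * C.wt δ c j) ∧
    (∀ m j, ∀ p ∈ C.U j r, ‖F j p • η (m + 1) p - F j p • η m p‖ ≤ τ m * C.wt δ c j) ∧
    (∀ m, 0 ≤ τ m) ∧ (∀ m, ∑ k ∈ Finset.range m, τ k ≤ t) ∧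
    ∀ j, ∀ ε > 0, ∀ᶠ m in atTop, ∀ p ∈ C.U j r,
      ‖C.curl (C.ch j) (fun q => α j q - F j q • η m q) (C.ch j p)‖ ≤ ε

end Cov

end Vale.Agent.P267
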