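import Vale.Agent.P267S.HB
import Vale.Agent.P267S.SA4

/-! P267, solver part H: pushing test functions to the manifold. -/

open scoped Manifold ContDiff Topology BoundedContinuousFunction Real
open Filter Metric Set MeasureTheory

noncomputable section

namespace Vale.Agent.P267

set_option linter.unusedSectionVars false

variable {M : Type} [TopologicalSpace M] [ChartedSpace C2 M] [T2Space M]

namespace Cov
variable (C : Cov M) {F : C.I → M → ℂ} {r B δ a b c₀ : ℝ} {p : M} {i j : C.I}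

theorem kf_rat : ∃ c : ℝ, 0 ≤ c ∧ ∀ i j : C.I, ∀ p ∈ C.U i 3, p ∈ C.U j 3 →
    ‖C.kf i p‖ ≤ c * ‖C.kf j p‖ := by
  obtain ⟨D, h0, h⟩ := C.sa_kf_bd
  refine ⟨D * D, by positivity, fun i j p hi hj => ?_⟩
  calc ‖C.kf i p‖ = ‖C.kf i p‖ * ‖(C.kf j p)⁻¹‖ * ‖C.kf j p‖ := by
        rw [mul_assoc, ← norm_mul _ (C.kf j p), inv_mul_cancel₀ (C.kf_ne hj.1), norm_one, mul_one]
    _ ≤ _ := by gcongr; exacts [(h i p hi).1, (h j p hj).2]

theorem kf_low : ∃ c : ℝ, 0 ≤ c ∧ ∀ i : C.I, ∀ p ∈ C.U i 3, ‖(C.kf i p)⁻¹‖ ≤ c :=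
  C.sa_kf_bd.imp fun _ h => ⟨h.1.le, fun i p hp => (h.2 i p hp).2⟩

theorem fk_ne (hF : C.Fr F r B) (hp : p ∈ C.U i r) : C.fk F i p ≠ 0 :=
  mul_ne_zero (hF.ne i p hp) ((map_ne_zero _).2 (C.kf_ne hp.1))

theorem fk_sm (hF : C.Fr F r B) (hi : p ∈ C.U i r) (hj : p ∈ C.U j r) :
    SmAt (C.fk F j / C.fk F i) p := by
  refine ((hF.hol j i p ⟨hj, hi⟩).smAt.mul (C.kf_hol hj.1 hi.1).smAt.conj).congr
    (Eventually.of_forall fun q => ?_)
  simp only [Pi.mul_apply, Pi.div_apply, fk, map_div₀, mul_div_mul_comm]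

theorem hp_zero (H : DD b) (h : ¬(p ∈ (C.ch i).source ∧ ‖C.ch i p‖ ≤ b)) :
    C.pu F i H.1 p = 0 := by
  by_cases hs : p ∈ (C.ch i).source
  · rw [C.pu_of_mem F _ hs, H.2.2 _ (not_le.1 fun k => h ⟨hs, k⟩), zero_div]
  · exact C.pu_of_not F _ hs

theorem hp_symm (h : j ∈ C.nb i) : i ∈ C.nb j := by
  have h1 := Finset.mem_Icc.1 (Finset.mem_product.1 h).2
  exact Finset.mem_product.2 ⟨Finset.mem_univ _, Finset.mem_Icc.2 ⟨by omega, by omega⟩⟩

theorem pu_sm (hF : C.Fr F r B) (hb : b < r) (hr : r ≤ 3) (i : C.I) (H : DD b) :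
    C.Sm2 F r (C.pu F i H.1) := by
  intro j p hj
  by_cases hi : p ∈ C.U i r
  · refine ((C.fk_sm hF hi hj).mul ((C.isCh i).sm_fun hi.1 (F := H.1)
      (Eventually.of_forall fun _ => H.2.1.contDiffAt))).congr ?_
    filter_upwards [(C.ch i).open_source.mem_nhds hi.1] with q hq
    simp only [Pi.mul_apply, Pi.div_apply, Function.comp_apply, C.pu_of_mem F _ hq]
    ring
  · refine smAt_zero.congr ?_
    filter_upwards [(C.isCompact_cl i (r := b) (by linarith)).isClosed.isOpen_compl.mem_nhds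
      fun k => hi ⟨k.1, k.2.trans_lt hb⟩] with q hq
    rw [Pi.mul_apply, C.hp_zero H hq, mul_zero, Pi.zero_apply]

theorem pu_bd : ∃ c : ℝ, 0 ≤ c ∧ ∀ (F : C.I → M → ℂ) (r B b : ℝ), C.Fr F r B → b < r → r ≤ 3 →
    ∀ i j (H : DD b), ∀ p ∈ C.U j r, ‖C.fk F j p * C.pu F i H.1 p‖ ≤ c * B ^ 2 * ‖H‖ := by
  obtain ⟨D, h0, h⟩ := C.sa_kf_bd
  refine ⟨D * D, by positivity, fun F r B b hF hb hr i j H p hj => ?_⟩
  by_cases k : p ∈ (C.ch i).source ∧ ‖C.ch i p‖ ≤ b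
  · have hi : p ∈ C.U i r := ⟨k.1, k.2.trans_lt hb⟩
    have hB : 0 ≤ B := (norm_nonneg _).trans (hF.bd j p hj).1
    rw [C.pu_of_mem F _ k.1]
    calc _ = ‖C.kf j p‖ * ‖(C.kf i p)⁻¹‖ * (‖F j p‖ * ‖(F i p)⁻¹‖) * ‖H.1 (C.ch i p)‖ := by
          simp only [fk, norm_mul, norm_div, norm_inv, Complex.norm_conj]
          ring
      _ ≤ D * D * (B * B) * ‖H‖ := by
          gcongr
          exacts [(h j p (C.U_mono j hr hj)).1, (h i p (C.U_mono i hr hi)).2, (hF.bd j p hj).1,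
            (hF.bd i p hi).2, DD.le H _]
      _ = _ := by ring
  · rw [C.hp_zero H k, mul_zero, norm_zero]
    positivity

theorem piece (hF : C.Fr F r B) (h1 : 1 < r) (hr : r ≤ 3) {E : M → ℂ} (hE : C.Sm2 F r E)
    (j : C.I) {m : ℝ} (h0 : 0 ≤ m) (hm : ∀ p ∈ C.U j r, ‖C.fk F j p * E p‖ ≤ m) :
    ∃ g : DD 1, ‖g‖ ≤ m ∧ C.pu F j g.1 = fun p => (C.rho j p : ℂ) * E p := by
  obtain ⟨f, hf⟩ : ∃ f : M → ℂ, f = fun q => (C.rho j q : ℂ) * (C.fk F j * E) q := ⟨_, rfl⟩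
  have a1 : ∀ z, 1 < ‖z‖ → (ball (0 : C2) 4).indicator (f ∘ (C.ch j).symm) z = 0 := fun z hz =>
    indicator_apply_eq_zero.2 fun h4 => by
      have b1 : C.rho j ((C.ch j).symm z) = 0 := by_contra fun k => hz.not_ge
        ((C.symm_mem_U j le_rfl (mem_ball_zero_iff.1 h4)).2 ▸ (C.rho_supp k).2)
      simp [hf, b1]
  have a2 : ContDiff ℝ ∞ ((ball (0 : C2) 4).indicator (f ∘ (C.ch j).symm)) := by
    refine contDiff_iff_contDiffAt.2 fun z => ?_
    by_cases h4 : ‖z‖ < 4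
    · obtain ⟨b1, b2⟩ := C.symm_mem_U j le_rfl h4
      have b3 := ((C.isCh j).sm _ b1.1 f).1 (hf ▸ C.rho_mul_sm h1 (hE j _))
      rw [b2] at b3
      refine b3.self_of_nhds.congr_of_eventuallyEq ?_
      filter_upwards [isOpen_ball.mem_nhds (mem_ball_zero_iff.2 h4)] with w hw
      exact indicator_of_mem hw _
    · refine (contDiffAt_const (c := (0 : ℂ))).congr_of_eventuallyEq ?_
      filter_upwards [(isOpen_lt continuous_const continuous_norm).mem_nhds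
        (show 1 < ‖z‖ by linarith [not_lt.1 h4])] with w hw
      exact a1 w hw
  have a3 : ∀ q, ‖f q‖ ≤ m := fun q => by
    by_cases k : C.rho j q = 0
    · simpa [hf, k] using h0
    · rw [hf, ← one_mul m]
      exact (norm_mul_le _ _).trans (mul_le_mul (C.rho_le j q) (hm q (C.rho_U h1 k))
        (norm_nonneg _) zero_le_one)
  obtain ⟨g, b1, b2⟩ := exists_DD a2 a1 (m := m) fun z =>
    (norm_indicator_le_norm_self _ _).trans (a3 _)
  refine ⟨g, b2, funext fun p => ?_⟩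
  by_cases hs : p ∈ (C.ch j).source
  · rw [C.pu_of_mem F _ hs, b1, indicator_of_mem (C.ch_target j ▸ (C.ch j).map_source hs),
      Function.comp_apply, (C.ch j).left_inv hs, hf]
    by_cases k : C.rho j p = 0
    · simp [k]
    · have b3 := C.fk_ne hF (C.rho_U h1 k)
      simp only [Pi.mul_apply]
      field_simp
  · rw [C.pu_of_not F _ hs, show C.rho j p = 0 from by_contra fun k => hs (C.rho_supp k).1]
    simp

theorem pu_dec (B : ℝ) (hδ : 0 ≤ δ) : ∃ c : ℝ, 0 ≤ c ∧ ∀ (F : C.I → M → ℂ) (r b : ℝ),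
    C.Fr F r B → 1 < r → b < r → r ≤ 3 → ∀ (l : (M → ℂ) →ₗ[ℂ] ℂ) (κ : ℤ),
    (∀ i (g : DD 1), ‖l (C.pu F i g.1)‖ ≤ ‖g‖ / C.wt δ κ i) →
    ∀ i (H : DD b), ‖l (C.pu F i H.1)‖ ≤ c / C.wt δ κ i * ‖H‖ := by
  obtain ⟨c, h0, hc⟩ := C.pu_bd
  obtain ⟨N, hN⟩ := C.card_nb
  obtain ⟨L, h1, hL⟩ := C.wt_nb hδ
  refine ⟨N * (L * (c * B ^ 2)), by positivity, fun F r b hF hr hb h3 l κ hl i H => ?_⟩
  choose g g1 g2 using fun j => C.piece hF hr h3 (C.pu_sm hF hb h3 i H) j (by positivity)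
    (hc F r B b hF hb h3 i j H)
  have e : C.pu F i H.1 = ∑ j ∈ C.nb i, C.pu F j (g j).1 := by
    funext p
    simp only [Finset.sum_apply, g2, ← Finset.sum_mul]
    by_cases hs : p ∈ (C.ch i).source
    · rw [C.sum_rho fun l hl => C.mem_nb hs hl, one_mul]
    · rw [C.pu_of_not F _ hs, mul_zero]
  have w := C.wt_pos δ κ
  rw [e, map_sum]
  refine (norm_sum_le _ _).trans ((Finset.sum_le_card_nsmul _ _
    (L * (c * B ^ 2 * ‖H‖) / C.wt δ κ i) fun j hj => (hl j _).trans ?_).trans (le_of_eq ?_))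
  · rw [div_le_div_iff₀ (w j) (w i), mul_comm L, mul_assoc _ L]
    exact mul_le_mul (g1 j) (hL κ j i (C.hp_symm hj)) (w i).le (by positivity)
  · rw [hN, nsmul_eq_mul]
    ring

theorem sg_bd (B : ℝ) (hδ : 0 ≤ δ) : ∃ c : ℝ, 0 ≤ c ∧ ∀ (F : C.I → M → ℂ) (r : ℝ),
    C.Fr F r B → 1 < r → r ≤ 3 → ∀ (κ : ℤ) (y : C.YY) (j : C.I), ∀ p ∈ C.U j r,
    ‖C.fk F j p * C.Sg F y p‖ ≤ c * C.nY δ κ y * C.wt δ κ j := by
  obtain ⟨c, h0, hc⟩ := C.pu_bd
  obtain ⟨L, h1, hL⟩ := C.wt_nb hδ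
  refine ⟨c * B ^ 2 * L, by positivity, fun F r hF hr h3 κ y j p hp => ?_⟩
  have w := C.wt_pos δ κ
  rw [mul_right_comm]
  refine C.nY_ind κ (q := fun y => ‖C.fk F j p * C.Sg F y p‖) ?_ (fun x y => ?_)
    (fun i g => ?_) y
  · rw [LinearMap.map_zero, Pi.zero_apply, mul_zero, norm_zero]
  · rw [LinearMap.map_add, Pi.add_apply, mul_add]
    exact norm_add_le _ _
  · have a := (w i).ne'
    have a' := (w j).le
    have b0 : 0 ≤ c * B ^ 2 := by positivity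
    have b1 : 0 ≤ ‖g‖ / C.wt δ κ i := div_nonneg (norm_nonneg g) (w i).le
    rw [C.Sg_single]
    by_cases hs : p ∈ (C.ch i).source
    · refine (hc F r B 1 hF hr h3 i j g p hp).trans ?_
      rw [mul_assoc _ L, mul_assoc (c * B ^ 2)]
      refine mul_le_mul_of_nonneg_left ?_ b0
      exact (mul_div_cancel₀ _ a).ge.trans
        (mul_le_mul_of_nonneg_right (hL κ j i (C.mem_nb hp.1 hs)) b1)
    · rw [C.pu_of_not F _ hs, mul_zero, norm_zero]
      exact mul_nonneg (mul_nonneg (mul_nonneg b0 (zero_le_one.trans h1)) a') b1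

theorem pieces (hδ : 0 < δ) : ∃ c : ℝ, 0 ≤ c ∧ ∀ (F : C.I → M → ℂ) (r B : ℝ),
    C.Fr F r B → 1 < r → r ≤ 3 → ∀ (κ : ℤ) (E : M → ℂ) (m : ℝ), 0 ≤ m → C.Sm2 F r E →
    (∀ j, ∀ p ∈ C.U j r, ‖C.fk F j p * E p‖ ≤ m * C.wt (2 * δ) κ j) →
    ∃ d : ℕ → C.YY, (∀ n, ∑ k ∈ Finset.range n, C.nY δ κ (d k) ≤ c * m) ∧
      ∀ j, ∀ᶠ n in atTop, ∀ p ∈ C.U j r, ∑ k ∈ Finset.range n, C.Sg F (d k) p = E p := by
  classical
  have q0 := Real.exp_nonneg (-δ)
  have q1 := summable_geometric_of_lt_one q0 (Real.exp_lt_one_iff.2 (neg_neg_of_pos hδ))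
  refine ⟨Fintype.card C.ι * 2 * ∑' k, Real.exp (-δ) ^ k,
    mul_nonneg (by positivity) (tsum_nonneg fun k => pow_nonneg q0 k),
    fun F r B hF hr h3 κ E m hm hE hb => ?_⟩
  have w := C.wt_pos δ κ
  choose g g1 g2 using fun j => C.piece hF hr h3 hE j
    (mul_nonneg hm (C.wt_pos (2 * δ) κ j).le) (hb j)
  obtain ⟨W, hW⟩ : ∃ W : ℕ → Finset C.I, W = fun k : ℕ => Finset.univ ×ˢ {κ + k, κ - k} := ⟨_, rfl⟩
  have a1 : ∀ k j, j ∈ W k ↔ (j.2 - κ).natAbs = k := fun k j => by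
    simp only [hW, Finset.mem_product, Finset.mem_univ, true_and, Finset.mem_insert,
      Finset.mem_singleton]
    omega
  have a2 : ∀ k, ((W k).card : ℝ) ≤ Fintype.card C.ι * 2 := fun k => by
    rw [hW, Finset.card_product, Finset.card_univ]
    exact_mod_cast Nat.mul_le_mul_left _ Finset.card_le_two
  refine ⟨fun k => ∑ j ∈ W k, Finsupp.single j (g j), fun n => ?_, fun j => ?_⟩
  · calc _ ≤ ∑ k ∈ Finset.range n, Fintype.card C.ι * 2 * m * Real.exp (-δ) ^ k := by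
          refine Finset.sum_le_sum fun k _ => (Finset.le_sum_of_subadditive _ (C.nY_zero κ).le
            (C.nY_add κ) _ _).trans ((Finset.sum_le_card_nsmul _ _ (m * Real.exp (-δ) ^ k)
              fun j hj => ?_).trans ?_)
          · have b1 : C.wt δ κ j = Real.exp (-δ) ^ k := by
              rw [wt, ← Real.exp_nat_mul, ← (a1 k j).1 hj, Nat.cast_natAbs, mul_comm]
              push_cast
              rfl
            have b2 : C.wt (2 * δ) κ j = C.wt δ κ j * C.wt δ κ j := by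
              rw [wt, wt, ← Real.exp_add]
              congr 1
              ring
            rw [C.nY_single, div_le_iff₀ (w j), ← b1, mul_assoc, ← b2]
            exact g1 j
          · rw [nsmul_eq_mul, mul_assoc _ m]
            exact mul_le_mul_of_nonneg_right (a2 k) (by positivity)
      _ ≤ Fintype.card C.ι * 2 * m * ∑' k, Real.exp (-δ) ^ k := by
          rw [← Finset.mul_sum]
          exact mul_le_mul_of_nonneg_left (q1.sum_le_tsum _ fun k _ => pow_nonneg q0 k)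
            (by positivity)
      _ = _ := by ring
  · filter_upwards [(eventually_all_finset (C.nb j)).2 fun l _ =>
      eventually_gt_atTop (l.2 - κ).natAbs] with n hn p hp
    simp only [map_sum, C.Sg_single, Finset.sum_apply, g2]
    rw [← Finset.sum_biUnion fun k _ k' _ hk => Finset.disjoint_left.2 fun l b1 b2 =>
      hk (((a1 k l).1 b1).symm.trans ((a1 k' l).1 b2)), ← Finset.sum_mul,
      C.sum_rho fun l hl => Finset.mem_biUnion.2
        ⟨_, Finset.mem_range.2 (hn l (C.mem_nb hp.1 hl)), (a1 _ l).2 rfl⟩, one_mul]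

end Cov

end Vale.Agent.P267
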