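import Vale.Agent.P267S.HC
import Vale.Agent.P267S.HP

/-! P267, solver part H: the form of top degree attached to the data. -/

open scoped Manifold ContDiff Topology BoundedContinuousFunction Real
open Filter Metric Set MeasureTheory

noncomputable section

namespace Vale.Agent.P267

set_option linter.unusedSectionVars false

variable {M : Type} [TopologicalSpace M] [ChartedSpace C2 M] [T2Space M]

namespace Cov
variable (C : Cov M) {F : C.I → M → ℂ} {r B δ a b c₀ : ℝ} {p : M} {i j : C.I}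

/-- The global form of type (0,1). -/
def he_z (F : C.I → M → ℂ) (α : C.I → M → C2 →L[ℝ] ℂ) (q : M) : C2 →L[ℝ] ℂ :=
  ∑ l ∈ C.nb (C.idx q), (C.rho l q : ℂ) • ((F l q)⁻¹ • α l q)

/-- The corrected local forms. -/
def he_b (F : C.I → M → ℂ) (α : C.I → M → C2 →L[ℝ] ℂ) (i : C.I) (q : M) : C2 →L[ℝ] ℂ :=
  α i q - F i q • C.he_z F α q

section
variable {α : C.I → M → C2 →L[ℝ] ℂ} {κ : ℤ} {D : ℝ}

theorem he_z_eq (hp : p ∈ (C.ch i).source) : F i p • C.he_z F α p =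
    ∑ l ∈ C.nb i, (C.rho l p : ℂ) • ((F i p / F l p) • α l p) := by
  unfold he_z
  rw [C.sum_nb (fun l => (F l p)⁻¹ • α l p) (fun l hl => C.mem_nb (C.ac_src p) hl)
    (fun l hl => C.mem_nb hp hl), Finset.smul_sum]
  refine Finset.sum_congr rfl fun l _ => ?_
  rw [smul_comm, smul_smul (F i p), div_eq_mul_inv]

theorem he_b_eq (hp : p ∈ (C.ch i).source) : C.he_b F α i p =
    ∑ l ∈ C.nb i, (C.rho l p : ℂ) • C.df F α i l p := by
  unfold he_b df
  rw [C.he_z_eq hp]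
  simp only [smul_sub, Finset.sum_sub_distrib]
  rw [← Finset.sum_smul, C.sum_rho (fun l hl => C.mem_nb hp hl), one_smul]

omit [TopologicalSpace M] [ChartedSpace C2 M] [T2Space M] in
theorem he_zero (x : C2 →L[ℝ] ℂ) : ((0 : ℝ) : ℂ) • x = 0 := by
  ext v
  simp

theorem he_ev (hp : p ∈ C.U i r) : ∀ᶠ q in 𝓝 p, q ∈ C.U i r := (C.isOpen_U i r).mem_nhds hp

theorem he_t_sm (hF : C.Fr F r B) (hD : C.Dat F r δ κ D α) (hi : p ∈ C.U i r) (hj : p ∈ C.U j r) :
    C.SmF (fun q => (F i q / F j q) • α j q) p :=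
  SmF.smul (hF.hol i j p ⟨hi, hj⟩).smAt (hD.sm j p hj)

theorem he_df_sm (hF : C.Fr F r B) (hD : C.Dat F r δ κ D α) (hi : p ∈ C.U i r)
    (hj : p ∈ C.U j r) : C.SmF (C.df F α i j) p :=
  (hD.sm i p hi).sub (C.he_t_sm hF hD hi hj)

theorem he_sm1 (hF : C.Fr F r B) (h1 : 1 < r) (hD : C.Dat F r δ κ D α) :
    C.Sm1 F r (C.he_z F α) := by
  intro i p hp
  refine (C.smF_sum (C.nb i) (β := fun l q => (C.rho l q : ℂ) • ((F i q / F l q) • α l q))
    fun l _ => C.rho_smul_smF h1 fun hl => C.he_t_sm hF hD hp hl).congr ?_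
  filter_upwards [C.he_ev hp] with q hq using (C.he_z_eq hq.1).symm

theorem he_b_sm (hF : C.Fr F r B) (h1 : 1 < r) (hD : C.Dat F r δ κ D α) (hp : p ∈ C.U i r) :
    C.SmF (C.he_b F α i) p :=
  (hD.sm i p hp).sub (C.he_sm1 hF h1 hD i p hp)

theorem he_df_curl (hD : C.Dat F r δ κ D α) (hi : p ∈ C.U i r) (hj : p ∈ C.U j r) :
    C.curl (C.ch i) (C.df F α i j) (C.ch i p) = 0 := by
  obtain ⟨a, ha⟩ := hD.cl i j p ⟨hi, hj⟩
  exact (ha.curl (C.isCh i) hi.1).self_of_nhds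

theorem he_tr (hF : C.Fr F r B) (h1 : 1 < r) (hD : C.Dat F r δ κ D α) (hi : p ∈ C.U i r)
    (hj : p ∈ C.U j r) : C.curl (C.ch i) (C.he_b F α i) (C.ch i p) =
      C.fk F i p * (C.curl (C.ch j) (C.he_b F α j) (C.ch j p) / C.fk F j p) := by
  have hb := C.he_b_sm hF h1 hD hj
  have hh := hF.hol i j p ⟨hi, hj⟩
  have e : C.he_b F α i =ᶠ[𝓝 p] fun q => C.df F α i j q + (F i / F j) q • C.he_b F α j q := by
    filter_upwards [C.he_ev hj] with q hq
    simp only [he_b, df, Pi.div_apply, smul_sub, smul_smul, div_mul_cancel₀ _ (hF.ne j q hq)]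
    abel
  have e2 := curl_tr hi.1 hj.1 hb
  rw [curl_congr hi.1 e, curl_add (C.isCh i) hi.1 (C.he_df_sm hF hD hi hj) (SmF.smul hh.smAt hb),
    C.he_df_curl hD hi hj, zero_add, curl_hol (C.isCh i) hi.1 hh hb]
  have n1 := hF.ne j p hj
  have n2 : (starRingEnd ℂ) (C.kf j p) ≠ 0 := by simpa using C.kf_ne hj.1
  simp only [fk, Pi.div_apply]
  field_simp
  linear_combination F i p * e2

theorem he_t_bd (hF : C.Fr F r B) (hD : C.Dat F r δ κ D α) {L : ℝ}
    (hL : C.wt (2 * δ) κ j ≤ L * C.wt (2 * δ) κ i) (hi : p ∈ C.U i r) (hj : p ∈ C.U j r) :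
    ‖(F i p / F j p) • α j p‖ ≤ B ^ 2 * L * (D * C.wt (2 * δ) κ i) := by
  have a1 := (hF.bd i p hi).1
  have a2 := (hF.bd j p hj).2
  have hB : 0 ≤ B := (norm_nonneg _).trans a1
  have a3 : ‖α j p‖ ≤ D * (L * C.wt (2 * δ) κ i) :=
    (hD.bd j p hj).trans (mul_le_mul_of_nonneg_left hL hD.pos)
  rw [norm_smul, div_eq_mul_inv, norm_mul]
  calc _ ≤ B * B * (D * (L * C.wt (2 * δ) κ i)) :=
        mul_le_mul (mul_le_mul a1 a2 (norm_nonneg _) hB) a3 (norm_nonneg _) (mul_nonneg hB hB)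
    _ = _ := by ring

theorem he_sum_le {V : Type} [SeminormedAddCommGroup V] {W : Finset C.I} {x : C.I → V} {t : ℝ}
    (h : ∀ l ∈ W, ‖x l‖ ≤ t) : ‖∑ l ∈ W, x l‖ ≤ W.card * t := by
  refine (norm_sum_le _ _).trans ?_
  simpa using Finset.sum_le_card_nsmul W (fun l => ‖x l‖) t h

end

/-- `ζ q = ∑ l ∈ nb (idx q), rho l q • (F l q)⁻¹ • α l q` (`sum_nb`: on `U i r` one may sum over
`nb i`), so `α i - F i • ζ = ∑ l ∈ nb i, rho l • df F α i l` on `U i r`, whose curl is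
`∑ w2 (db (rho l)) (df F α i l)` (`curl_smul`, `Prim.curl`, `rho_ev`, `db_rho`, `cmp_norm`).
`E p = curl (ch (idx p)) (α (idx p) - F (idx p) • ζ) / fk F (idx p) p`; `curl_hol`, `curl_tr`,
`Dat.cl` give `Cu`, and `curl_sm` gives `Sm2`. -/
theorem data (B : ℝ) (hδ : 0 ≤ δ) : ∃ c : ℝ, 0 ≤ c ∧ ∀ (F : C.I → M → ℂ) (r : ℝ),
    C.Fr F r B → 1 < r → r ≤ 3 → ∀ κ D α, C.Dat F r δ κ D α →
    ∃ (ζ : M → C2 →L[ℝ] ℂ) (E : M → ℂ), C.Sm1 F r ζ ∧ C.Sm2 F r E ∧
      C.Cu F r (fun i q => α i q - F i q • ζ q) E ∧ ∀ i, ∀ p ∈ C.U i r,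
        ‖F i p • ζ p‖ ≤ c * D * C.wt (2 * δ) κ i ∧
          ‖C.fk F i p * E p‖ ≤ c * D * C.wt (2 * δ) κ i := by
  obtain ⟨m, hm⟩ := C.card_nb
  obtain ⟨L, hL1, hL⟩ := C.wt_nb (δ := 2 * δ) (by linarith)
  obtain ⟨L₀, h0, hL₀⟩ := C.db_rho
  obtain ⟨L₁, h1', hL₁⟩ := C.cmp_norm
  have hL0 : 0 ≤ L := by linarith
  refine ⟨m * (B ^ 2 * L) + m * (2 * (L₁ * L₀) * (L₁ * (1 + B ^ 2 * L))), by positivity,
    fun F r hF h1 hr κ D α hD => ?_⟩
  have cu : C.Cu F r (C.he_b F α) fun p =>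
      C.curl (C.ch (C.idx p)) (C.he_b F α (C.idx p)) (C.ch (C.idx p) p) / C.fk F (C.idx p) p :=
    fun i p hp => C.he_tr hF h1 hD hp (C.U_mono _ h1.le (C.mem_U_idx p))
  refine ⟨C.he_z F α, _, C.he_sm1 hF h1 hD, fun i p hp => ?_, cu, fun i p hp => ?_⟩
  · refine (curl_sm (C.isCh i) hp.1 (C.he_b_sm hF h1 hD hp)).congr ?_
    filter_upwards [C.he_ev hp] with q hq using cu i q hq
  have hw : 0 ≤ D * C.wt (2 * δ) κ i := mul_nonneg hD.pos (C.wt_pos _ _ _).le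
  have p1 : 0 ≤ m * (B ^ 2 * L) * (D * C.wt (2 * δ) κ i) := by positivity
  have p2 : 0 ≤ m * (2 * (L₁ * L₀) * (L₁ * (1 + B ^ 2 * L))) * (D * C.wt (2 * δ) κ i) := by
    positivity
  constructor
  · have : ‖F i p • C.he_z F α p‖ ≤ (C.nb i).card * (B ^ 2 * L * (D * C.wt (2 * δ) κ i)) := by
      rw [C.he_z_eq hp.1]
      refine C.he_sum_le fun l hl => ?_
      by_cases h : C.rho l p = 0
      · rw [h, he_zero, norm_zero]
        positivity
      · rw [norm_smul]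
        exact (mul_le_of_le_one_left (norm_nonneg _) (C.rho_le l p)).trans
          (C.he_t_bd hF hD (hL κ i l hl) hp (C.rho_U h1 h))
    rw [hm] at this
    nlinarith
  · have e : C.he_b F α i =ᶠ[𝓝 p] fun q => ∑ l ∈ C.nb i, (C.rho l q : ℂ) • C.df F α i l q := by
      filter_upwards [C.he_ev hp] with q hq using C.he_b_eq hq.1
    have : ‖C.curl (C.ch i) (C.he_b F α i) (C.ch i p)‖ ≤ (C.nb i).card *
        (2 * (L₁ * L₀) * (L₁ * (1 + B ^ 2 * L)) * (D * C.wt (2 * δ) κ i)) := by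
      rw [curl_congr hp.1 e, curl_sum (C.isCh i) hp.1 (C.nb i)
        (γ := fun l q => (C.rho l q : ℂ) • C.df F α i l q)
        fun l _ => C.rho_smul_smF h1 fun hl => C.he_df_sm hF hD hp hl]
      refine C.he_sum_le fun l hl => ?_
      by_cases h : p ∈ C.U l r
      · have hp3 : p ∈ C.U i 3 := C.U_mono _ hr hp
        rw [curl_smul (C.isCh i) hp.1 (C.rho_sm l p) (C.he_df_sm hF hD hp h),
          C.he_df_curl hD hp h, mul_zero, zero_add]
        have b1 := (hL₁ i (C.db fun q => (C.rho l q : ℂ)) p hp3).1.trans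
          (mul_le_mul_of_nonneg_left (hL₀ l p) h1'.le)
        have b2 : ‖C.df F α i l p‖ ≤ (1 + B ^ 2 * L) * (D * C.wt (2 * δ) κ i) := by
          have c1 := hD.bd i p hp
          have c2 := C.he_t_bd hF hD (hL κ i l hl) hp h
          have c3 := norm_sub_le (α i p) ((F i p / F l p) • α l p)
          unfold df
          linarith
        have b3 := (hL₁ i (C.df F α i l) p hp3).1.trans (mul_le_mul_of_nonneg_left b2 h1'.le)
        refine (w2_le _ _).trans ?_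
        calc _ ≤ 2 * (L₁ * L₀) * (L₁ * ((1 + B ^ 2 * L) * (D * C.wt (2 * δ) κ i))) :=
              mul_le_mul (mul_le_mul_of_nonneg_left b1 zero_le_two) b3 (norm_nonneg _)
                (by positivity)
          _ = _ := by ring
      · have e0 : (fun q => (C.rho l q : ℂ) • C.df F α i l q) =ᶠ[𝓝 p]
            fun q => α i q - α i q := by
          filter_upwards [C.rho_ev h1 h] with q hq
          rw [hq, he_zero, sub_self]
        rw [curl_congr hp.1 e0, curl_sub (C.isCh i) hp.1 (hD.sm i p hp) (hD.sm i p hp), sub_self,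
          norm_zero]
        positivity
    rw [hm, cu i p hp] at this
    nlinarith

end Cov

end Vale.Agent.P267
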