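import Vale.Agent.P267S.HDefs

/-! P267, solver part H: the transpose of the remainder is holomorphic. -/

open scoped Manifold ContDiff Topology BoundedContinuousFunction Real
open Filter Metric Set MeasureTheory

noncomputable section

namespace Vale.Agent.P267

theorem hk2_U {a' : ℝ} (ha : 0 < a') (k : Fin 2) : ∃ U : C2 →ᵇ ℂ, ‖U‖ ≤ a'⁻¹ ∧
    ∀ z : C2, a' ≤ ‖z k‖ → U z = (z k)⁻¹ := by
  have hM : ∀ z : C2, 0 < max ‖z k‖ a' := fun z => ha.trans_le (le_max_right _ _)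
  have hc : Continuous fun z : C2 =>
      (starRingEnd ℂ) (z k) / (((max ‖z k‖ a') ^ 2 : ℝ) : ℂ) := by
    refine (Complex.continuous_conj.comp (continuous_apply k)).div ?_ fun z => ?_
    · exact Complex.continuous_ofReal.comp
        ((((continuous_apply k).norm).max continuous_const).pow 2)
    · exact Complex.ofReal_ne_zero.2 (pow_pos (hM z) 2).ne'
  have hb : ∀ z : C2, ‖(starRingEnd ℂ) (z k) / (((max ‖z k‖ a') ^ 2 : ℝ) : ℂ)‖ ≤ a'⁻¹ := by
    intro z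
    rw [norm_div, Complex.norm_conj, Complex.norm_real, Real.norm_of_nonneg (sq_nonneg _),
      div_le_iff₀ (pow_pos (hM z) 2)]
    have h1 : ‖z k‖ ≤ max ‖z k‖ a' := le_max_left _ _
    have h2 : 1 ≤ a'⁻¹ * max ‖z k‖ a' := by
      rw [← div_eq_inv_mul, le_div_iff₀ ha, one_mul]; exact le_max_right _ _
    have h3 := hM z
    nlinarith
  refine ⟨BoundedContinuousFunction.ofNormedAddCommGroup _ hc a'⁻¹ hb,
    BoundedContinuousFunction.norm_ofNormedAddCommGroup_le _ (inv_pos.2 ha).le hb, fun z hz => ?_⟩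
  show (starRingEnd ℂ) (z k) / (((max ‖z k‖ a') ^ 2 : ℝ) : ℂ) = _
  rw [max_eq_left hz, Complex.inv_def, Complex.normSq_eq_norm_sq, div_eq_mul_inv,
    Complex.ofReal_inv]

theorem hk2_V {a a' : ℝ} (ha : 0 < a) (haa : a < a') (k : Fin 2) : ∃ V : C2 → (C2 →ᵇ ℂ),
    AnalyticOnNhd ℂ V (ball 0 a) ∧ (∀ w ∈ ball (0 : C2) a, ‖V w‖ ≤ (a' - a)⁻¹) ∧
    ∀ w ∈ ball (0 : C2) a, ∀ z : C2, a' ≤ ‖z k‖ → V w z = (z k - w k)⁻¹ := by
  have ha' : 0 < a' := ha.trans haa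
  obtain ⟨U, hU, hUz⟩ := hk2_U ha' k
  have hw : ∀ w ∈ ball (0 : C2) a, ‖w k‖ ≤ a := fun w h =>
    (norm_le_pi_norm w k).trans (mem_ball_zero_iff.1 h).le
  have hq : a * a'⁻¹ < 1 := by rw [← div_eq_mul_inv, div_lt_one ha']; exact haa
  have hn : ∀ w ∈ ball (0 : C2) a, ‖w k • U‖ ≤ a * a'⁻¹ := fun w h => by
    rw [norm_smul]; exact mul_le_mul (hw w h) hU (norm_nonneg _) ha.le
  have hu : ∀ w ∈ ball (0 : C2) a, IsUnit (1 - w k • U) := fun w h =>
    (Units.oneSub (w k • U) ((hn w h).trans_lt hq)).isUnit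
  have hp : ∀ w ∈ ball (0 : C2) a, ∀ z,
      Ring.inverse (1 - w k • U) z = (1 - w k * U z)⁻¹ := fun w h z => by
    have h1 := congrArg (fun F : C2 →ᵇ ℂ => F z) (Ring.inverse_mul_cancel _ (hu w h))
    simp only [BoundedContinuousFunction.mul_apply, BoundedContinuousFunction.sub_apply,
      BoundedContinuousFunction.smul_apply, BoundedContinuousFunction.coe_one, Pi.one_apply,
      smul_eq_mul] at h1
    exact eq_inv_of_mul_eq_one_left h1
  refine ⟨fun w => U * Ring.inverse (1 - w k • U), fun w h => ?_, fun w h => ?_,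
    fun w h z hz => ?_⟩
  · have h1 : AnalyticAt ℂ (fun w : C2 => (1 : C2 →ᵇ ℂ) - w k • U) w :=
      analyticAt_const.sub
        (((ContinuousLinearMap.proj k : C2 →L[ℂ] ℂ).analyticAt w).smul analyticAt_const)
    exact analyticAt_const.mul
      (AnalyticAt.comp (g := Ring.inverse) (analyticOnNhd_inverse _ (hu w h)) h1)
  · refine (BoundedContinuousFunction.norm_le (inv_pos.2 (sub_pos.2 haa)).le).2 fun z => ?_
    have h1 : ‖U z‖ ≤ a'⁻¹ := (U.norm_coe_le_norm z).trans hU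
    have h2 : ‖w k * U z‖ ≤ a * a'⁻¹ := by
      rw [norm_mul]; exact mul_le_mul (hw w h) h1 (norm_nonneg _) ha.le
    have h3 : 1 - a * a'⁻¹ ≤ ‖1 - w k * U z‖ := by
      have := norm_sub_norm_le (1 : ℂ) (w k * U z)
      rw [norm_one] at this
      linarith
    rw [BoundedContinuousFunction.mul_apply, hp w h, norm_mul, norm_inv]
    have h4 : ‖1 - w k * U z‖⁻¹ ≤ (1 - a * a'⁻¹)⁻¹ := inv_anti₀ (sub_pos.2 hq) h3
    refine (mul_le_mul h1 h4 (inv_nonneg.2 (norm_nonneg _)) (inv_pos.2 ha').le).trans_eq ?_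
    rw [← mul_inv, mul_sub, mul_one, mul_comm a, mul_inv_cancel_left₀ ha'.ne']
  · have h0 : z k ≠ 0 := norm_pos_iff.1 (ha'.trans_le hz)
    show (U * Ring.inverse (1 - w k • U)) z = _
    rw [BoundedContinuousFunction.mul_apply, hp w h, hUz z hz, ← mul_inv, mul_sub, mul_one,
      mul_comm (w k), mul_inv_cancel_left₀ h0]

/-- Extend `l` to `Λ` on `C2 →ᵇ ℂ` (`LinearMap.mkContinuous`, `exists_extension_norm_eq`). In the
Banach algebra `C2 →ᵇ ℂ` let `U k z = conj (z k) / max ‖z k‖ a' ^ 2`, of norm at most `a'⁻¹` and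
equal to `(z k)⁻¹` where `ψ ≠ 0`; `κ w = ψ * U 0 * U 1 * Ring.inverse (1 - w 0 • U 0) *
Ring.inverse (1 - w 1 • U 1)` is analytic on the ball `a` (`analyticAt_inverse`,
`Units.oneSub`) and bounded, `κ w z = ψ z * (z 0 - w 0)⁻¹ * (z 1 - w 1)⁻¹`. Put `s = Λ ∘ κ`;
`H = ∫ g w • κ w` (evaluation is a continuous linear map), `ContinuousLinearMap.integral_comp_comm`.
-/
theorem hk2 {a a' b : ℝ} (ha : 1 < a) (haa : a < a') (ψ : DD b)
    (hψ : ∀ z, ψ.1 z ≠ 0 → a' ≤ ‖z 0‖ ∧ a' ≤ ‖z 1‖) : ∃ c : ℝ, 0 ≤ c ∧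
    ∀ (l : DD b →ₗ[ℂ] ℂ) (m : ℝ), 0 ≤ m → (∀ H, ‖l H‖ ≤ m * ‖H‖) → ∃ s : C2 → ℂ,
      AnalyticOnNhd ℂ s (ball 0 a) ∧ (∀ z ∈ ball (0 : C2) a, ‖s z‖ ≤ c * m) ∧
        ∀ (g : DD 1) (H : DD b), (∀ z, H.1 z = ψ.1 z * cc g.1 z) →
          l H = ∫ z, g.1 z * s z := by
  have ha0 : 0 < a := one_pos.trans ha
  obtain ⟨V, hVa, hVn, hVz⟩ := hk2_V ha0 haa 0
  obtain ⟨W, hWa, hWn, hWz⟩ := hk2_V ha0 haa 1
  have hd : 0 ≤ (a' - a)⁻¹ := (inv_pos.2 (sub_pos.2 haa)).le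
  obtain ⟨κ, hκ⟩ : ∃ κ : C2 → (C2 →ᵇ ℂ), κ = fun w => ψ.1 * (V w * W w) := ⟨_, rfl⟩
  have hκa : AnalyticOnNhd ℂ κ (ball 0 a) := fun w h => by
    rw [hκ]; exact analyticAt_const.mul ((hVa w h).mul (hWa w h))
  have hκn : ∀ w ∈ ball (0 : C2) a, ‖κ w‖ ≤ ‖ψ.1‖ * ((a' - a)⁻¹ * (a' - a)⁻¹) := fun w h => by
    rw [hκ]
    exact (norm_mul_le _ _).trans (mul_le_mul_of_nonneg_left ((norm_mul_le _ _).trans
      (mul_le_mul (hVn w h) (hWn w h) (norm_nonneg _) hd)) (norm_nonneg _))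
  have hκz : ∀ w ∈ ball (0 : C2) a, ∀ z,
      κ w z = ψ.1 z * ((z 0 - w 0)⁻¹ * (z 1 - w 1)⁻¹) := fun w h z => by
    rw [hκ]
    show ψ.1 z * (V w z * W w z) = _
    by_cases h0 : ψ.1 z = 0
    · rw [h0, zero_mul, zero_mul]
    · rw [hVz w h z (hψ z h0).1, hWz w h z (hψ z h0).2]
  refine ⟨‖ψ.1‖ * ((a' - a)⁻¹ * (a' - a)⁻¹), by positivity, fun l m hm hl => ?_⟩
  obtain ⟨Λ, hΛ, hΛn⟩ := exists_extension_norm_eq (DD b) (l.mkContinuous m hl)
  have hΛm : ‖Λ‖ ≤ m := hΛn.trans_le (l.mkContinuous_norm_le hm hl)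
  refine ⟨fun w => Λ (κ w), fun w h => (Λ.analyticAt _).comp (hκa w h), fun w h => ?_,
    fun g H hH => ?_⟩
  · refine (Λ.le_opNorm _).trans ?_
    rw [mul_comm _ m]
    exact mul_le_mul hΛm (hκn w h) (norm_nonneg _) hm
  · have hc : Continuous fun w => g.1 w • κ w := by
      refine continuous_iff_continuousAt.2 fun w => ?_
      by_cases h : w ∈ ball (0 : C2) a
      · exact g.1.continuous.continuousAt.smul (hκa w h).continuousAt
      · have h1 : 1 < ‖w‖ := ha.trans_le (not_lt.1 fun h' => h (mem_ball_zero_iff.2 h'))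
        refine (continuousAt_const (y := (0 : C2 →ᵇ ℂ))).congr ?_
        filter_upwards [(isOpen_lt continuous_const continuous_norm).mem_nhds h1] with v hv
        rw [g.2.2 v hv, zero_smul]
    have hi : Integrable fun w => g.1 w • κ w := by
      refine hc.integrable_of_hasCompactSupport
        (HasCompactSupport.intro (isCompact_closedBall (0 : C2) 1) fun w h => ?_)
      rw [g.2.2 w (not_le.1 fun h' => h (mem_closedBall_zero_iff.2 h')), zero_smul]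
    have hE : H.1 = ∫ w, g.1 w • κ w := by
      ext z
      have h1 := ((BoundedContinuousFunction.evalCLM ℂ z :
        (C2 →ᵇ ℂ) →L[ℂ] ℂ).integral_comp_comm hi).symm
      refine (hH z).trans (Eq.trans ?_ h1.symm)
      rw [cc, ← integral_const_mul]
      refine integral_congr_ae (Eventually.of_forall fun w => ?_)
      show _ = g.1 w * κ w z
      by_cases h : w ∈ ball (0 : C2) a
      · rw [hκz w h]; ring
      · have h1 : 1 < ‖w‖ := ha.trans_le (not_lt.1 fun h' => h (mem_ball_zero_iff.2 h'))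
        simp only [g.2.2 w h1, zero_mul, mul_zero]
    have h2 : l H = Λ H.1 := (hΛ H).symm
    rw [h2, hE, ← Λ.integral_comp_comm hi]
    simp only [map_smul, smul_eq_mul]

end Vale.Agent.P267
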