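import Vale.Agent.P267S.HD

/-! P267, solver part H: limits of almost holomorphic functions. -/

open scoped Manifold ContDiff Topology BoundedContinuousFunction Real
open Filter Metric Set MeasureTheory

noncomputable section

namespace Vale.Agent.P267

theorem hw_zero {h : ℕ → C2 → ℂ} {H : C2 → ℂ} {ρ : ℝ} (hρ : 0 < ρ)
    (hs : ∀ m, ContDiffOn ℝ ∞ (h m) (ball 0 ρ))
    (hc : ∀ ε > 0, ∀ᶠ m in atTop, ∀ z ∈ ball 0 ρ, ‖h m z - H z‖ ≤ ε ∧ ‖dbar (h m) z‖ ≤ ε) :
    AnalyticAt ℂ H 0 := by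
  obtain ⟨c, c0, S, S0, hS⟩ := dolS (half_pos hρ) (half_lt_self hρ)
  have hb : ball (0 : C2) (ρ / 2) ⊆ ball 0 ρ := ball_subset_ball (half_le_self hρ.le)
  have h1 : ∀ m, ∀ z ∈ ball (0 : C2) ρ, ContDiffAt ℝ ∞ (h m) z := fun m z hz =>
    (hs m).contDiffAt (isOpen_ball.mem_nhds hz)
  let A : ℕ → Fin 2 → C2 → ℂ := fun m k w => dbar (h m) w (ee k)
  have hA : ∀ m k, ContDiffOn ℝ ∞ (A m k) (ball 0 ρ) := fun m k z hz =>
    (AD_sm (h1 m z hz) _).contDiffWithinAt
  have h2 : ∀ m, ∀ z ∈ ball (0 : C2) ρ, ‖cu (A m) z‖ ≤ 0 := fun m z hz => by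
    have e : ∀ k, A m k = P271.dzb (ee k) (h m) := fun k => funext fun w => dbar_apply _ _ _
    rw [cu, e, e, dbar_apply, dbar_apply, P272.B1_bb (h1 m z hz), sub_self, norm_zero]
  have h3 : ∀ m, DifferentiableOn ℂ (fun w => h m w - S (A m) w) (ball 0 (ρ / 2)) := by
    intro m z hz
    have k1 := (h1 m z (hb hz)).differentiableAt (by simp)
    have k2 := ((hS _ (hA m)).1.contDiffAt (x := z)).differentiableAt (by simp)
    refine (ac_cd (k1.sub k2) ?_).differentiableWithinAt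
    ext1 v
    rw [AD_anti (fun c v => dbar_smul _ z v c)]
    refine Finset.sum_eq_zero fun k _ => mul_eq_zero_of_right _ ?_
    have k3 := (hS _ (hA m)).2.1 0 (h2 m) k z hz
    rw [mul_zero, norm_le_zero_iff, sub_eq_zero] at k3
    exact (dbar_sub k1 k2 _).trans (sub_eq_zero.2 k3.symm)
  have h4 : ∀ ε > 0, ∀ᶠ m in atTop, ∀ z ∈ ball (0 : C2) (ρ / 2),
      ‖h m z - S (A m) z - H z‖ ≤ (1 + c) * ε := fun ε hε => (hc ε hε).mono fun m hm z hz => by
    have k1 := (hS _ (hA m)).2.2 0 (fun _ => contDiffOn_const) ε (fun k w hw => by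
      have := (dbar (h m) w).le_opNorm (ee k)
      rw [Pi.norm_single, norm_one, mul_one] at this
      simpa using this.trans (hm w hw).2) z hz
    rw [S0, Pi.zero_apply, sub_zero] at k1
    have k2 := norm_sub_le (h m z - H z) (S (A m) z)
    rw [sub_right_comm] at k2
    linarith [(hm z (hb hz)).1]
  obtain ⟨m₀, hm₀⟩ := (hc 1 one_pos).exists
  obtain ⟨B, hB⟩ := (isCompact_closedBall (0 : C2) (ρ / 2)).exists_bound_of_continuousOn
    ((hs m₀).continuousOn.mono (closedBall_subset_ball (half_lt_self hρ)))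
  obtain ⟨u, u1, u2⟩ := cb_montel (hyperfilter ℕ) (f := fun m w => h m w - S (A m) w)
    (C := B + 1 + (1 + c) * 1) isOpen_ball
    (((h4 1 one_pos).filter_mono Nat.hyperfilter_le_atTop).mono fun m hm => ⟨h3 m, fun z hz => by
      have k1 := norm_add_le (h m z - S (A m) z - H z) (H z)
      have k2 := norm_sub_le (h m₀ z) (h m₀ z - H z)
      rw [sub_add_cancel] at k1
      rw [sub_sub_cancel] at k2
      linarith [hm z hz, hB z (ball_subset_closedBall hz), (hm₀ z (hb hz)).1]⟩)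
  refine (u1 0 (mem_ball_self (half_pos hρ))).congr ?_
  filter_upwards [ball_mem_nhds (0 : C2) (half_pos hρ)] with z hz
  refine tendsto_nhds_unique (u2 z hz _ tendsto_const_nhds)
    (Tendsto.mono_left (Metric.tendsto_nhds.2 fun ε hε => ?_) Nat.hyperfilter_le_atTop)
  filter_upwards [h4 (ε / (2 + c)) (by positivity)] with m hm
  rw [dist_eq_norm]
  refine (hm z hz).trans_lt ?_
  rw [mul_div_assoc', div_lt_iff₀ (by positivity)]
  nlinarith

/-- Translate to `z₀ = 0`; `h m - S (dbar (h m))` is holomorphic on the ball `ρ / 2` (`dolS`,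
`cu (dbar (h m)) = 0` by `P272.B1_bb`, `analyticAt_of_dbar`, `AD_anti` with `dbar_smul`) and tends
uniformly to `H`; `cb_montel` along `hyperfilter ℕ` or `TendstoLocallyUniformlyOn` slices. -/
theorem weier {h : ℕ → C2 → ℂ} {H : C2 → ℂ} {z₀ : C2} {ρ : ℝ} (hρ : 0 < ρ)
    (hs : ∀ m, ContDiffOn ℝ ∞ (h m) (ball z₀ ρ))
    (hc : ∀ ε > 0, ∀ᶠ m in atTop, ∀ z ∈ ball z₀ ρ, ‖h m z - H z‖ ≤ ε ∧ ‖dbar (h m) z‖ ≤ ε) :
    AnalyticAt ℂ H z₀ := by
  have hm : ∀ z ∈ ball (0 : C2) ρ, z₀ + z ∈ ball z₀ ρ := fun z hz => by simpa using hz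
  have h1 := hw_zero (h := fun m w => h m (z₀ + w)) (H := fun w => H (z₀ + w)) hρ
    (fun m => (hs m).comp (contDiffOn_const.add contDiffOn_id) hm) fun ε hε =>
      (hc ε hε).mono fun m k z hz => by
        have e : dbar (fun w => h m (z₀ + w)) z = dbar (h m) (z₀ + z) := by
          simp only [dbar, fderiv_comp_add_left]
        rw [e]
        exact k _ (hm z hz)
  have h2 := h1.comp_of_eq (f := fun w => w - z₀) (x := z₀)
    (analyticAt_id.sub analyticAt_const) (sub_self _)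
  simpa [Function.comp_def] using h2

/-- Test against a product bump `g ≥ 0` of size at most one supported in a small ball of radius
`σ`: `‖D z₀‖ ∫ g ≤ ε + (2 Mb / ρ) σ ∫ g` (`P278F.norm_sub_le_of_bound`, `exists_DD`; a bump:
`h_cut` or `exists_contDiff_tsupport_subset`). -/
theorem hl {z₀ : C2} {ρ η : ℝ} (Mb : ℝ) (hρ : 0 < ρ) (hη : 0 < η)
    (h1 : ball z₀ ρ ⊆ ball 0 1) : ∃ ε > 0, ∀ D : C2 → ℂ, DifferentiableOn ℂ D (ball z₀ ρ) →
      (∀ z ∈ ball z₀ ρ, ‖D z‖ ≤ Mb) →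
      (∀ g : DD 1, tsupport g.1 ⊆ ball z₀ ρ → ‖∫ z, g.1 z * D z‖ ≤ ε * ‖g‖) → ‖D z₀‖ ≤ η := by
  obtain ⟨σ, σ0, σ1, σ2⟩ : ∃ σ > 0, σ < ρ ∧ 2 * |Mb| / ρ * σ ≤ η / 2 := by
    have k : 0 < 2 * |Mb| / ρ + 1 := by positivity
    refine ⟨min (ρ / 2) (η / 2 / (2 * |Mb| / ρ + 1)), by positivity,
      (min_le_left _ _).trans_lt (half_lt_self hρ), ?_⟩
    refine (mul_le_mul_of_nonneg_left (min_le_right _ _) (by positivity)).trans ?_
    rw [mul_div_assoc', div_le_iff₀ k]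
    nlinarith
  let b : ContDiffBump z₀ := ⟨σ / 2, σ, half_pos σ0, half_lt_self σ0⟩
  have hI : 0 < ∫ z, b z := b.integral_pos
  have hsm : ContDiff ℝ ∞ fun z => (b z : ℂ) := Complex.ofRealCLM.contDiff.comp b.contDiff
  have ht : tsupport (fun z => (b z : ℂ)) ⊆ closedBall z₀ σ :=
    (tsupport_comp_subset (g := Complex.ofReal) rfl b).trans b.tsupport_eq.le
  have ht' := ht.trans (closedBall_subset_ball σ1)
  obtain ⟨g, g1, g2⟩ := exists_DD (ρ := 1) (m := 1) hsm (fun z hz =>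
    image_eq_zero_of_notMem_tsupport (f := fun z => (b z : ℂ)) fun k =>
      hz.not_gt (mem_ball_zero_iff.1 (h1 (ht' k))))
    fun z => by
      rw [Complex.norm_real, Real.norm_of_nonneg b.nonneg]
      exact b.le_one
  refine ⟨η / 2 * ∫ z, b z, by positivity, fun D hD hM hg => ?_⟩
  have k1 := hg g (g1 ▸ ht')
  rw [g1] at k1
  have hcs : HasCompactSupport fun z => (b z : ℂ) := (isCompact_closedBall z₀ σ).of_isClosed_subset
    (isClosed_tsupport _) ht
  have k2 : Integrable fun z => (b z : ℂ) * D z :=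
    ((hsm.continuous.continuousOn.mul hD.continuousOn).continuous_of_tsupport_subset isOpen_ball
      (tsupport_mul_subset_left.trans ht')).integrable_of_hasCompactSupport hcs.mul_right
  have k3 : Integrable fun z => (b z : ℂ) * D z₀ :=
    (hsm.continuous.integrable_of_hasCompactSupport hcs).mul_const _
  have k4 : ‖∫ z, ((b z : ℂ) * D z - b z * D z₀)‖ ≤ ∫ z, b z * (η / 2) := by
    refine norm_integral_le_of_norm_le (b.integrable.mul_const _) (.of_forall fun z => ?_)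
    rw [← mul_sub, norm_mul, Complex.norm_real, Real.norm_of_nonneg b.nonneg]
    by_cases hz : z ∈ closedBall z₀ σ
    · refine mul_le_mul_of_nonneg_left ((P278F.norm_sub_le_of_bound hD (fun w hw =>
        (hM w hw).trans (le_abs_self _)) (closedBall_subset_ball σ1 hz)).trans ?_) b.nonneg
      exact (mul_le_mul_of_nonneg_left (mem_closedBall_iff_norm.1 hz) (by positivity)).trans σ2
    · rw [b.zero_of_le_dist (le_of_not_ge hz), zero_mul, zero_mul]
  rw [integral_sub k2 k3, integral_mul_const, integral_mul_const, integral_complex_ofReal] at k4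
  have k5 := norm_sub_le (∫ z, (b z : ℂ) * D z) ((∫ z, (b z : ℂ) * D z) - (∫ z, b z : ℝ) * D z₀)
  rw [sub_sub_cancel, norm_mul, Complex.norm_real, Real.norm_of_nonneg hI.le] at k5
  have k6 := mul_le_mul_of_nonneg_left g2 (mul_pos (half_pos hη) hI).le
  refine le_of_mul_le_mul_left ?_ hI
  linarith

set_option linter.unusedSectionVars false

variable {M : Type} [TopologicalSpace M] [ChartedSpace C2 M] [T2Space M]

namespace Cov
variable (C : Cov M) {F : C.I → M → ℂ} {r B δ a b c₀ : ℝ} {p : M} {i j : C.I}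

/-- Use the chart `idx p`, `cmp_db`, `cmp_norm`. -/
theorem weierM {h : ℕ → M → ℂ} {H : M → ℂ} {W : Set M} (hW : W ∈ 𝓝 p)
    (hs : ∀ m, ∀ q ∈ W, SmAt (h m) q)
    (hc : ∀ ε > 0, ∀ᶠ m in atTop, ∀ q ∈ W, ‖h m q - H q‖ ≤ ε ∧ ‖C.db (h m) q‖ ≤ ε) :
    HolAt H p := by
  obtain ⟨L, L0, hL⟩ := C.cmp_norm
  have hp := C.mem_U_idx p
  obtain ⟨ρ, hρ, h1⟩ := Metric.eventually_nhds_iff_ball.1
    ((((C.ch _).tendsto_symm hp.1).eventually hW).and
      (isOpen_ball.eventually_mem (mem_ball_zero_iff.2 (hp.2.trans (by norm_num : (1 : ℝ) < 3)))))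
  have h2 := fun z hz => C.symm_mem_U (C.idx p) (by norm_num : (3 : ℝ) ≤ 4)
    (mem_ball_zero_iff.1 (h1 z hz).2)
  refine ((C.isCh _).hol p hp.1 H).2 (weier (h := fun m => h m ∘ (C.ch (C.idx p)).symm) hρ
    (fun m z hz => ?_) fun ε hε => ?_)
  · have := (((C.isCh _).sm _ (h2 z hz).1.1 _).1 (hs m _ (h1 z hz).1)).self_of_nhds
    rw [(h2 z hz).2] at this
    exact this.contDiffWithinAt
  · filter_upwards [hc ε hε, hc (ε / L) (div_pos hε L0)] with m k1 k2 z hz
    refine ⟨(k1 _ (h1 z hz).1).1, ?_⟩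
    have k3 := (hL _ (C.db (h m)) _ (h2 z hz).1).1
    rw [C.cmp_db (C.isCh _) (h2 z hz).1.1 (hs m _ (h1 z hz).1), (h2 z hz).2] at k3
    exact k3.trans ((le_div_iff₀' L0).1 (k2 _ (h1 z hz).1).2)

end Cov

end Vale.Agent.P267
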