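import Vale.Agent.P267S.Defs
import Vale.Agent.P267S.CBase

/-! P267, solver part A: definitions. -/

open scoped Manifold ContDiff Topology
open Filter Metric Set

noncomputable section

namespace Vale.Agent.P267

set_option linter.unusedSectionVars false

variable {M : Type} [TopologicalSpace M] [ChartedSpace C2 M]

/-- The pointwise limit along an ultrafilter. -/
def ulim {ι : Type} (𝒰 : Ultrafilter ι) (s : ι → M → ℂ) (q : M) : ℂ :=
  limUnder (𝒰 : Filter ι) fun k => s k q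

namespace Cov
variable (C : Cov M)

/-- Exponential growth of the oscillation with rate `c`. -/
def Og (f : M → ℂ) (c : ℝ) : Prop :=
  ∃ B, ∀ p q, |C.t p - C.t q| ≤ 2 → ‖f p - f q‖ ≤ B * Real.exp (c * |C.t p|)

/-- The maximum principle on discs in the direction of the drift. -/
def Sub (s : M → ℂ) (θ : ℝ) (b : M → ℝ) : Prop :=
  ∀ p (l : ℝ), 0 ≤ l → ∃ q, |C.t q - C.t p| ≤ 2 * C.R + 1 ∧
    ‖s p‖ * Real.exp (l * θ) ≤ Real.exp (b p) * (‖s q‖ * Real.exp (l * (C.t q - C.t p)))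

/-- Families that are bounded on every slab. -/
def Lb {ι : Type} (𝒰 : Ultrafilter ι) (s : ι → M → ℂ) : Prop :=
  ∀ T : ℝ, ∃ D : ℝ, ∀ᶠ k in (𝒰 : Filter ι), ∀ p, |C.t p| ≤ T → ‖s k p‖ ≤ D

/-- Families of chart functions that tend to zero uniformly on every chart. -/
def Sml {ι : Type} (𝒰 : Ultrafilter ι) (F : ι → C.I → M → ℂ) : Prop :=
  ∀ i (ε : ℝ), 0 < ε → ∀ᶠ k in (𝒰 : Filter ι), ∀ p ∈ C.U i 1, ‖F k i p‖ ≤ ε

end Cov

end Vale.Agent.P267
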