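import Vale.Agent.P267S.SA0

/-! P267, solver part A: approximate eigenvectors. -/

open scoped Manifold ContDiff Topology
open Filter Metric Set

noncomputable section

namespace Vale.Agent.P267

set_option linter.unusedSectionVars false

theorem sa_op {V : Type} [NormedAddCommGroup V] [NormedSpace ℂ V] [CompleteSpace V]
    [Nontrivial V] (T : V →L[ℂ] V) : ∃ μ : ℂ, ‖μ‖ ≤ ‖T‖ ∧ ∀ ε : ℝ, 0 < ε →
      ∃ x, ‖x‖ = 1 ∧ ‖T x - μ • x‖ ≤ ε := by
  obtain ⟨μ, hμ⟩ : (frontier (spectrum ℂ T)).Nonempty :=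
    nonempty_frontier_iff.2 ⟨spectrum.nonempty T, (spectrum.isCompact T).ne_univ⟩
  have h1 : μ ∈ spectrum ℂ T := (spectrum.isClosed T).frontier_subset hμ
  refine ⟨μ, spectrum.norm_le_norm_of_mem h1, fun ε hε => ?_⟩
  by_contra! h
  have h2 : ∀ x, ε * ‖x‖ ≤ ‖T x - μ • x‖ := fun x => by
    rcases eq_or_ne x 0 with rfl | hx
    · simp
    have h0 : (0 : ℝ) < ‖x‖ := norm_pos_iff.2 hx
    have h3 := h ((‖x‖⁻¹ : ℝ) • x) (by rw [norm_smul, norm_inv, norm_norm, inv_mul_cancel₀ h0.ne'])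
    rw [T.map_smul_of_tower, smul_comm μ, ← smul_sub, norm_smul, norm_inv, norm_norm,
      lt_inv_mul_iff₀ h0, mul_comm] at h3
    exact h3.le
  rw [frontier_eq_closure_inter_closure] at hμ
  obtain ⟨ν, hν, hd⟩ := Metric.mem_closure_iff.1 hμ.2 (ε / 4) (by positivity)
  obtain ⟨A, hA⟩ := spectrum.notMem_iff.1 hν
  rw [dist_eq_norm] at hd
  have h3 : ‖((A⁻¹ : (V →L[ℂ] V)ˣ) : V →L[ℂ] V)‖ ≤ 2 / ε := by
    refine ContinuousLinearMap.opNorm_le_bound _ (by positivity) fun y => ?_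
    obtain ⟨x, hx⟩ : ∃ x, x = ((A⁻¹ : (V →L[ℂ] V)ˣ) : V →L[ℂ] V) y := ⟨_, rfl⟩
    have h4 : (A : V →L[ℂ] V) x = y := by
      rw [hx, ← mul_apply_eq_comp, A.mul_inv, one_apply_eq_self]
    have h5 : T x - μ • x = -(y + (μ - ν) • x) := by
      rw [← h4, hA, Algebra.algebraMap_eq_smul_one, sub_apply, smul_apply, one_apply_eq_self,
        sub_smul]
      abel
    have h6 := h2 x
    rw [h5, norm_neg] at h6
    have h7 := h6.trans ((norm_add_le _ _).trans (add_le_add le_rfl ((norm_smul_le _ _).trans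
      (mul_le_mul_of_nonneg_right hd.le (norm_nonneg _)))))
    rw [← hx, div_mul_eq_mul_div, le_div_iff₀ hε]
    nlinarith [norm_nonneg x, norm_nonneg y]
  refine spectrum.mem_iff.1 h1 ?_
  have h4 : ‖algebraMap ℂ (V →L[ℂ] V) (μ - ν)‖ < ‖((A⁻¹ : (V →L[ℂ] V)ˣ) : V →L[ℂ] V)‖⁻¹ := by
    rw [norm_algebraMap']
    refine hd.trans_le (le_trans ?_ (inv_anti₀ (Units.norm_pos _) h3))
    rw [inv_div]
    linarith
  have h5 := (A.add _ h4).isUnit
  rw [Units.val_add, hA, map_sub] at h5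
  rwa [show algebraMap ℂ (V →L[ℂ] V) μ - T = algebraMap ℂ (V →L[ℂ] V) ν - T +
    (algebraMap ℂ (V →L[ℂ] V) μ - algebraMap ℂ (V →L[ℂ] V) ν) by abel]

theorem sa_eig {X : Type} (g : X → X) (w : X → ℝ) (hw : ∀ x, 0 < w x) {K : ℝ}
    (hK : ∀ x, w (g x) ≤ K * w x) (P : Submodule ℂ (X → ℂ)) (hg : ∀ s ∈ P, s ∘ g ∈ P)
    (hc : ∀ (s : ℕ → X → ℂ) (s₀ : X → ℂ) (B : ℝ), (∀ n, s n ∈ P) →
      (∀ n x, ‖s n x‖ ≤ B * w x) → (∀ x, Tendsto (fun n => s n x) atTop (𝓝 (s₀ x))) → s₀ ∈ P)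
    {s : X → ℂ} (hs : s ∈ P) (h0 : s ≠ 0) {B : ℝ} (hB : ∀ x, ‖s x‖ ≤ B * w x) :
    ∃ μ : ℂ, ‖μ‖ ≤ K ∧ ∀ ε : ℝ, 0 < ε → ∃ r ∈ P, (∀ x, ‖r x‖ ≤ w x) ∧
      (∃ x, w x / 2 ≤ ‖r x‖) ∧ ∀ x, ‖r (g x) - μ * r x‖ ≤ ε * w x := by
  have w0 : ∀ x, (w x : ℂ) ≠ 0 := fun x => Complex.ofReal_ne_zero.2 (hw x).ne'
  have wn : ∀ x (c : ℂ), ‖w x * c‖ = ‖c‖ * w x := fun x c => by
    rw [norm_mul, Complex.norm_real, Real.norm_of_nonneg (hw x).le, mul_comm]
  have ap : ∀ (x : lp (fun _ : X => ℂ) ⊤) p, ‖x p‖ ≤ ‖x‖ := lp.norm_apply_le_norm ENNReal.top_ne_zero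
  obtain ⟨p₀, hp₀⟩ := Function.ne_iff.1 h0
  have : Nonempty X := ⟨p₀⟩
  have K0 : 0 ≤ K := (mul_nonneg_iff_of_pos_right (hw p₀)).1 ((hw _).le.trans (hK p₀))
  have mk : ∀ (f : X → ℂ) (C : ℝ), (∀ x, ‖f x‖ ≤ C * w x) →
      ∃ y : lp (fun _ : X => ℂ) ⊤, ‖y‖ ≤ C ∧ ∀ p, w p * y p = f p := fun f C h => by
    have h1 : ∀ p, ‖f p / w p‖ ≤ C := fun p => by
      rw [norm_div, Complex.norm_real, Real.norm_of_nonneg (hw p).le, div_le_iff₀ (hw p)]
      exact h p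
    exact ⟨⟨fun p => f p / w p, memℓp_infty ⟨C, forall_mem_range.2 h1⟩⟩,
      lp.norm_le_of_forall_le' C h1, fun p => mul_div_cancel₀ _ (w0 p)⟩
  have me : ∀ {f f' : X → ℂ}, f = f' → f' ∈ P → f ∈ P := fun e h => e ▸ h
  let V : Submodule ℂ (lp (fun _ : X => ℂ) ⊤) :=
    { carrier := {x | (fun p => w p * x p) ∈ P}
      add_mem' := fun {a b} ha hb => me (f := fun p => w p * (a + b) p)
        (funext fun p => mul_add (w p : ℂ) (a p) (b p)) (P.add_mem ha hb)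
      zero_mem' := me (f := fun p => w p * 0) (funext fun p => mul_zero (w p : ℂ)) P.zero_mem
      smul_mem' := fun c a ha => me (f := fun p => w p * (c • a) p)
        (funext fun p => mul_left_comm (w p : ℂ) c (a p)) (P.smul_mem c ha) }
  have hV : IsClosed (V : Set (lp (fun _ : X => ℂ) ⊤)) := IsSeqClosed.isClosed fun u x hu hx => by
    obtain ⟨C, hC⟩ := hx.norm.bddAbove_range
    refine hc (fun n p => w p * u n p) _ C hu (fun n p => (wn _ _).trans_le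
      (mul_le_mul_of_nonneg_right ((ap _ p).trans (hC ⟨n, rfl⟩)) (hw p).le)) fun p => ?_
    refine Tendsto.const_mul _ (tendsto_iff_norm_sub_tendsto_zero.2 (squeeze_zero
      (fun _ => norm_nonneg _) (fun n => ap (u n - x) p) (tendsto_iff_norm_sub_tendsto_zero.1 hx)))
  have : CompleteSpace V := hV.completeSpace_coe
  have ext : ∀ {a b : V}, (∀ p, w p * a.1 p = w p * b.1 p) → a = b := fun h =>
    Subtype.ext (lp.ext (funext fun p => mul_left_cancel₀ (w0 p) (h p)))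
  have : Nontrivial V := by
    obtain ⟨y, -, hy⟩ := mk s B hB
    refine ⟨⟨y, show _ ∈ P from funext hy ▸ hs⟩, 0, fun e => hp₀ ?_⟩
    rw [← hy, show y = 0 from congrArg Subtype.val e]
    simp
  have hT : ∀ x : V, ∃ y : V, ‖y‖ ≤ K * ‖x‖ ∧ ∀ p, w p * y.1 p = w (g p) * x.1 (g p) := fun x => by
    obtain ⟨y, h1, h2⟩ := mk (fun p => w (g p) * x.1 (g p)) (K * ‖x‖) fun p => (wn _ _).trans_le
      ((mul_le_mul (ap _ _) (hK p) (hw _).le (norm_nonneg _)).trans_eq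
        ((mul_assoc _ _ _).symm.trans (congrArg (· * w p) (mul_comm _ _))))
    exact ⟨⟨y, show _ ∈ P from funext h2 ▸ hg _ x.2⟩, h1, h2⟩
  choose T h1 h2 using hT
  let L : V →ₗ[ℂ] V :=
    { toFun := T
      map_add' := fun a b => ext fun p => by simp [h2, mul_add]
      map_smul' := fun c a => ext fun p => by
        simp only [h2, RingHom.id_apply, Submodule.coe_smul, lp.coeFn_smul, Pi.smul_apply,
          smul_eq_mul, mul_left_comm _ c] }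
  obtain ⟨μ, h3, h4⟩ := sa_op (L.mkContinuous K h1)
  refine ⟨μ, h3.trans (L.mkContinuous_norm_le K0 h1), fun ε hε => ?_⟩
  obtain ⟨x, h5, h6⟩ := h4 ε hε
  refine ⟨fun p => w p * x.1 p, x.2, fun p => (wn _ _).trans_le
    (mul_le_of_le_one_left (hw p).le ((ap _ p).trans h5.le)), ?_, fun p => ?_⟩
  · by_contra! h
    have h7 : ‖x.1‖ ≤ 1 / 2 := lp.norm_le_of_forall_le' _ fun p => by
      have h8 := h p
      rw [wn] at h8
      nlinarith [hw p]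
    exact absurd (h5.symm.trans_le h7) (by norm_num)
  · beta_reduce
    rw [← h2, mul_left_comm, ← mul_sub, wn]
    exact mul_le_mul_of_nonneg_right ((ap (T x - μ • x).1 p).trans h6) (hw p).le

end Vale.Agent.P267
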