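import Vale.Agent.P267S.SA0

/-! P267, solver part A: elementary lemmas. -/

open scoped Manifold ContDiff Topology
open Filter Metric Set

noncomputable section

namespace Vale.Agent.P267

set_option linter.unusedSectionVars false

/-- Choice of a point of almost maximal size. -/
theorem sa_peak {X : Type} (τ φ : X → ℝ) (h0 : ∀ x, 0 ≤ φ x) {c l B : ℝ} (hc : 0 ≤ c)
    (hl : 0 ≤ l) (hτ : ∀ x, 0 ≤ τ x) (hB : ∀ x, φ x ≤ B * Real.exp (c * τ x))
    (h : ¬ ∃ D, ∀ x, φ x * Real.exp (l * τ x) ≤ D) (N : ℝ) :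
    ∃ x, N ≤ τ x ∧ 1 ≤ φ x * Real.exp (l * τ x) ∧
      ∀ y, φ y ≤ 2 * φ x * Real.exp ((c + 2 * l) * |τ y - τ x|) := by
  push Not at h
  obtain ⟨x₀, hx₀⟩ := h (2 * max 1 (|B| * Real.exp ((c + l) * N)))
  have u1 : ∀ y, φ y * Real.exp (l * τ y) ≤ |B| * Real.exp ((c + l) * τ y) := fun y => by
    rw [add_mul, Real.exp_add, ← mul_assoc]
    exact mul_le_mul_of_nonneg_right ((hB y).trans
      (mul_le_mul_of_nonneg_right (le_abs_self B) (Real.exp_pos _).le)) (Real.exp_pos _).le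
  let ψ : X → ℝ := fun y => φ y * Real.exp (l * τ y) * Real.exp (-((c + l) * |τ y - τ x₀|))
  have hcl : 0 ≤ c + l := add_nonneg hc hl
  have bd : BddAbove (range ψ) := by
    refine ⟨|B| * Real.exp ((c + l) * τ x₀), ?_⟩
    rintro _ ⟨y, rfl⟩
    refine (mul_le_mul_of_nonneg_right (u1 y) (Real.exp_pos _).le).trans ?_
    rw [mul_assoc, ← Real.exp_add]
    refine mul_le_mul_of_nonneg_left (Real.exp_le_exp.2 ?_) (abs_nonneg B)
    nlinarith [mul_le_mul_of_nonneg_left (le_abs_self (τ y - τ x₀)) hcl]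
  have m0 : φ x₀ * Real.exp (l * τ x₀) ≤ iSup ψ := by
    simpa [ψ] using le_ciSup bd x₀
  have a1 := le_max_left 1 (|B| * Real.exp ((c + l) * N))
  have a2 := le_max_right 1 (|B| * Real.exp ((c + l) * N))
  have : Nonempty X := ⟨x₀⟩
  obtain ⟨x, hx⟩ := exists_lt_of_lt_ciSup (f := ψ) (b := iSup ψ / 2) (by linarith)
  have b1 : ψ x ≤ φ x * Real.exp (l * τ x) :=
    mul_le_of_le_one_right (mul_nonneg (h0 x) (Real.exp_pos _).le)
      (Real.exp_le_one_iff.2 (neg_nonpos.2 (mul_nonneg hcl (abs_nonneg _))))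
  refine ⟨x, le_of_not_gt fun hN => ?_, by linarith, fun y => ?_⟩
  · have := mul_le_mul_of_nonneg_left
      (Real.exp_le_exp.2 (mul_le_mul_of_nonneg_left hN.le hcl)) (abs_nonneg B)
    linarith [u1 x]
  · have c1 : ψ y ≤ 2 * ψ x := by linarith [le_ciSup bd y]
    have c2 : φ y = ψ y * Real.exp ((c + l) * |τ y - τ x₀| - l * τ y) := by
      simp only [ψ, mul_assoc, ← Real.exp_add]
      rw [show l * τ y + -((c + l) * |τ y - τ x₀|) + ((c + l) * |τ y - τ x₀| - l * τ y) = 0 by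
        ring, Real.exp_zero, mul_one]
    rw [c2]
    refine (mul_le_mul_of_nonneg_right c1 (Real.exp_pos _).le).trans ?_
    simp only [ψ, mul_assoc, ← Real.exp_add]
    refine mul_le_mul_of_nonneg_left (mul_le_mul_of_nonneg_left (Real.exp_le_exp.2 ?_) (h0 x))
      zero_le_two
    have c3 := abs_sub_le (τ y) (τ x) (τ x₀)
    nlinarith [mul_le_mul_of_nonneg_left c3 hcl,
      mul_le_mul_of_nonneg_left (neg_abs_le (τ y - τ x)) hl]

theorem sa_unif {X : Type} [TopologicalSpace X] {K : Set X} (hK : IsCompact K)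
    {Q : ℝ → X → Prop} (hm : ∀ a b x, 0 < a → a ≤ b → Q b x → Q a x)
    (h : ∀ x ∈ K, ∃ a, 0 < a ∧ ∀ᶠ y in 𝓝 x, Q a y) : ∃ a, 0 < a ∧ ∀ x ∈ K, Q a x := by
  refine hK.induction_on (p := fun S => ∃ a, 0 < a ∧ ∀ x ∈ S, Q a x)
    ⟨1, one_pos, fun _ hx => hx.elim⟩ (fun _ _ hs ⟨a, ha, h1⟩ => ⟨a, ha, fun x hx => h1 x (hs hx)⟩)
    ?_ fun x hx => ?_
  · rintro s t ⟨a, ha, h1⟩ ⟨b, hb, h2⟩
    exact ⟨min a b, lt_min ha hb, fun x hx => hx.elim
      (fun h3 => hm _ _ x (lt_min ha hb) (min_le_left _ _) (h1 x h3))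
      fun h3 => hm _ _ x (lt_min ha hb) (min_le_right _ _) (h2 x h3)⟩
  · obtain ⟨a, ha, h1⟩ := h x hx
    exact ⟨_, mem_nhdsWithin_of_mem_nhds h1, a, ha, fun _ hy => hy⟩

theorem sa2_taylor {τ : C2 → ℝ} {z : C2} (hτ : ContDiffAt ℝ 2 τ z) :
    (fun x => τ x - fderiv ℝ τ z (x - z) - 2⁻¹ * fderiv ℝ (fderiv ℝ τ) z (x - z) (x - z) - τ z)
      =o[𝓝 z] fun x => ‖x - z‖ ^ 2 := by
  obtain ⟨δ, hδ, hd⟩ := Metric.eventually_nhds_iff_ball.1 (hτ.eventually (by simp))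
  have sy := hτ.isSymmSndFDerivAt (by simp)
  have hQ := ((hτ.fderiv_right (m := 1) (by norm_num)).differentiableAt one_ne_zero).hasFDerivAt
  have key := (convex_ball z δ).isLittleO_pow_succ (n := 1) (mem_ball_self hδ)
    (f := fun x => τ x - fderiv ℝ τ z (x - z) - 2⁻¹ * fderiv ℝ (fderiv ℝ τ) z (x - z) (x - z))
    (f' := fun x => fderiv ℝ τ x - fderiv ℝ τ z - fderiv ℝ (fderiv ℝ τ) z (x - z))
    (fun x hx => ?_) ?_
  · rw [nhdsWithin_eq_nhds.2 (ball_mem_nhds z hδ)] at key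
    simpa using key
  · have d0 : HasFDerivAt (fun y : C2 => y - z) (ContinuousLinearMap.id ℝ C2) x :=
      (hasFDerivAt_id x).sub_const z
    have d1 := ((hd x hx).differentiableAt two_ne_zero).hasFDerivAt
    have d2 := (fderiv ℝ τ z).hasFDerivAt.comp x d0
    have d3 := (((fderiv ℝ (fderiv ℝ τ) z).hasFDerivAt.comp x d0).clm_apply d0).const_mul 2⁻¹
    refine (((d1.fun_sub d2).fun_sub d3).congr_fderiv ?_).hasFDerivWithinAt
    ext1 w
    simp [sy.eq w]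
    ring
  · simpa using hQ.isLittleO.mono nhdsWithin_le_nhds

/-- The Levi polynomial on a line. -/
theorem sa_lev {τ : C2 → ℝ} {z v : C2} (hτ : ContDiffAt ℝ 2 τ z) (hv : 0 < lev τ z v) :
    ∃ a b : ℂ, ∀ᶠ r in 𝓝[>] (0 : ℝ), ∃ θ : ℝ, 0 < θ ∧ ∀ ζ : ℂ, ‖ζ‖ = r →
      τ z + (a * ζ + b * ζ ^ 2).re + θ ≤ τ (z + ζ • v) := by
  have sy := (hτ.isSymmSndFDerivAt (by simp)).eq (Complex.I • v) v
  have ta := (sa2_taylor hτ).def (c := lev τ z v / 8 / (‖v‖ ^ 2 + 1)) (by positivity)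
  have tz : Tendsto (fun ζ : ℂ => z + ζ • v) (𝓝 0) (𝓝 z) :=
    Continuous.tendsto' (by fun_prop) _ _ (by simp)
  obtain ⟨δ, hδ, hd⟩ := Metric.eventually_nhds_iff.1 (tz.eventually ta)
  rw [lev] at hv hd
  generalize fderiv ℝ (fderiv ℝ τ) z = Q at *
  generalize fderiv ℝ τ z = D at *
  refine ⟨D v - Complex.I * D (Complex.I • v), ((Q v v - Q (Complex.I • v) (Complex.I • v)) / 4 : ℝ) -
    Complex.I * (Q v (Complex.I • v) / 2 : ℝ), ?_⟩
  filter_upwards [Ioo_mem_nhdsGT hδ] with r hr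
  refine ⟨(Q v v + Q (Complex.I • v) (Complex.I • v)) / 8 * r ^ 2,
    mul_pos (by linarith) (pow_pos hr.1 2), fun ζ hζ => ?_⟩
  have h1 := hd (y := ζ) (by rw [dist_zero_right, hζ]; exact hr.2)
  have e1 : ζ • v = ζ.re • v + ζ.im • Complex.I • v := by
    conv_lhs => rw [← Complex.re_add_im ζ]
    rw [add_smul, mul_smul, Complex.coe_smul, Complex.coe_smul]
  have e2 : r ^ 2 = ζ.re ^ 2 + ζ.im ^ 2 := by
    rw [← hζ, Complex.sq_norm, Complex.normSq_apply]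
    ring
  rw [add_sub_cancel_left, norm_pow, norm_norm, norm_smul, hζ, Real.norm_eq_abs] at h1
  have h2 : (Q v v + Q (Complex.I • v) (Complex.I • v)) / 8 / (‖v‖ ^ 2 + 1) * (r * ‖v‖) ^ 2 ≤
      (Q v v + Q (Complex.I • v) (Complex.I • v)) / 8 * r ^ 2 := by
    rw [div_mul_eq_mul_div, div_le_iff₀ (by positivity), mul_assoc]
    exact mul_le_mul_of_nonneg_left (by nlinarith [sq_nonneg r]) (by linarith)
  have h3 := (neg_le_neg (h1.trans h2)).trans (neg_abs_le _)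
  generalize τ (z + ζ • v) = y at h3 ⊢
  simp only [e1, map_add, map_smul, ContinuousLinearMap.add_apply, ContinuousLinearMap.smul_apply,
    smul_eq_mul, sy] at h3
  simp only [sq, Complex.add_re, Complex.mul_re, Complex.mul_im, Complex.sub_re, Complex.sub_im,
    Complex.ofReal_re, Complex.ofReal_im, Complex.I_re, Complex.I_im] at e2 h3 ⊢
  rw [e2] at h3 ⊢
  linarith

end Vale.Agent.P267
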