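import Vale.Agent.P267S.SA2

/-! P267, solver part A: discs. -/

open scoped Manifold ContDiff Topology
open Filter Metric Set

noncomputable section

namespace Vale.Agent.P267

set_option linter.unusedSectionVars false

variable {M : Type} [TopologicalSpace M] [ChartedSpace C2 M] [T2Space M]

namespace Cov
variable (C : Cov M)

theorem sa_loc (p₀ : M) {W : Set M} (hW : W ∈ 𝓝 p₀) : ∃ θ : ℝ, 0 < θ ∧ ∀ᶠ p in 𝓝 p₀,
    ∀ (l : ℝ) (h : M → ℂ), 0 ≤ l → (∀ q ∈ W, HolAt h q) → ∃ q ∈ W,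
      ‖h p‖ * Real.exp (l * θ) ≤ ‖h q‖ * Real.exp (l * (C.t q - C.t p)) := by
  have hp := (C.mem_U_idx p₀).1
  generalize C.idx p₀ = i at hp
  obtain ⟨τ, hτ⟩ : ∃ τ, τ = C.t ∘ (C.ch i).symm := ⟨_, rfl⟩
  have h0 := (C.ch i).map_source hp
  have e1 : fderiv ℝ τ = fderiv ℝ (C.t ∘ (C.e i.1).symm) := funext fun z => by
    refine (congrArg (fderiv ℝ · z) (funext fun w => ?_)).trans (fderiv_add_const ((-i.2 : ℤ) : ℝ))
    simp only [hτ, Function.comp_apply, C.ch_symm, C.t_gz]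
  obtain ⟨v, hv⟩ := C.drift i.1 _ (C.ch_target i ▸ h0)
  have h1 : ContDiffAt ℝ 2 τ (C.ch i p₀) := hτ ▸ Complex.reCLM.contDiff.contDiffAt.comp _
    ((((C.isCh i).sm p₀ hp _).1 (C.t_sm p₀)).self_of_nhds.of_le (by norm_cast))
  obtain ⟨a, b, h2⟩ := sa_lev (v := v) h1 (by rwa [lev, e1])
  obtain ⟨ε, hε, h3⟩ := Metric.mem_nhds_iff.1 (inter_mem ((C.ch i).open_target.mem_nhds h0)
    ((C.ch i).tendsto_symm hp hW))
  have h4 : ∀ᶠ r in 𝓝[>] (0 : ℝ), r * ‖v‖ < ε / 2 := nhdsWithin_le_nhds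
    (ContinuousAt.eventually_lt (by fun_prop) continuousAt_const (by simpa using hε))
  obtain ⟨r, ⟨⟨θ, hθ, h5⟩, h6⟩, hr⟩ := ((h2.and h4).and self_mem_nhdsWithin).exists
  have h7 : ∀ z ∈ ball (C.ch i p₀) (ε / 2), ∀ ζ : ℂ, ‖ζ‖ ≤ r →
      z + ζ • v ∈ (C.ch i).target ∧ (C.ch i).symm (z + ζ • v) ∈ W := fun z hz ζ hζ => h3 (by
    have := dist_triangle (z + ζ • v) z (C.ch i p₀)
    rw [dist_self_add_left, norm_smul] at this
    rw [mem_ball] at hz ⊢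
    linarith [mul_le_mul_of_nonneg_right hζ (norm_nonneg v)])
  have h8 : ∀ᶠ z in 𝓝 (C.ch i p₀), ∀ ζ ∈ sphere (0 : ℂ) r,
      τ z + (a * ζ + b * ζ ^ 2).re + θ / 2 < τ (z + ζ • v) :=
    (isCompact_sphere 0 r).eventually_forall_of_forall_eventually fun ζ hζ => by
      rw [mem_sphere_zero_iff_norm] at hζ
      have c : ContinuousAt τ (C.ch i p₀ + ζ • v) := hτ ▸ C.continuous_t.continuousAt.comp
        ((C.ch i).continuousAt_symm (h7 _ (mem_ball_self (half_pos hε)) ζ hζ.le).1)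
      refine ContinuousAt.eventually_lt (((h1.continuousAt.comp_of_eq continuousAt_fst rfl).add
        (by fun_prop)).add continuousAt_const) (c.comp_of_eq (by fun_prop) rfl) ?_
      linarith [h5 ζ hζ]
  refine ⟨θ / 2, half_pos hθ, ?_⟩
  filter_upwards [(C.ch i).open_source.mem_nhds hp, ((C.ch i).continuousAt hp).eventually h8,
    (C.ch i).continuousAt hp (ball_mem_nhds _ (half_pos hε))] with p k1 k2 k3 l h hl hh
  obtain ⟨ζ, hζ, k4⟩ := Complex.exists_mem_frontier_isMaxOn_norm (f := fun ζ : ℂ =>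
    h ((C.ch i).symm (C.ch i p + ζ • v)) * Complex.exp (l * (a * ζ + b * ζ ^ 2)))
    isBounded_ball (nonempty_ball.2 hr) (DifferentiableOn.diffContOnCl fun ζ hζ => by
      obtain ⟨k5, k6⟩ := h7 _ k3 ζ (mem_closedBall_zero_iff.1 (closure_ball_subset_closedBall hζ))
      have k7 := ((C.isCh i).hol _ ((C.ch i).map_target k5) h).1 (hh _ k6)
      rw [(C.ch i).right_inv k5] at k7
      exact ((k7.differentiableAt.comp (f := fun ζ : ℂ => C.ch i p + ζ • v) ζ (by fun_prop)).mul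
        (by fun_prop)).differentiableWithinAt)
  rw [frontier_ball _ (ne_of_gt hr)] at hζ
  refine ⟨_, (h7 _ k3 ζ (mem_sphere_zero_iff_norm.1 hζ).le).2, ?_⟩
  have k5 := k4 (subset_closure (mem_ball_self hr))
  have k6 := k2 ζ hζ
  simp only [mem_ofPred_eq, Function.comp_apply, zero_smul, add_zero, (C.ch i).left_inv k1, mul_zero,
    norm_mul, Complex.norm_exp, Complex.re_ofReal_mul, zero_pow two_ne_zero, Complex.zero_re,
    Real.exp_zero, mul_one] at k5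
  simp only [hτ, Function.comp_apply, (C.ch i).left_inv k1] at k6
  refine (mul_le_mul_of_nonneg_right k5 (Real.exp_pos _).le).trans ?_
  rw [mul_assoc, ← Real.exp_add, ← mul_add]
  exact mul_le_mul_of_nonneg_left (Real.exp_le_exp.2 (mul_le_mul_of_nonneg_left (by linarith) hl))
    (norm_nonneg _)

theorem sa_disc {r : ℝ} (hr : 1 < r) : ∃ θ : ℝ, 0 < θ ∧ ∀ (i : C.I), ∀ p ∈ C.U i 1,
    ∀ (l : ℝ) (h : M → ℂ), 0 ≤ l → (∀ q ∈ C.U i r, HolAt h q) → ∃ q ∈ C.U i r,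
      ‖h p‖ * Real.exp (l * θ) ≤ ‖h q‖ * Real.exp (l * (C.t q - C.t p)) := by
  let Q : C.ι → ℝ → M → Prop := fun a θ p => ∀ (l : ℝ) (h : M → ℂ), 0 ≤ l →
    (∀ q ∈ C.U (a, 0) r, HolAt h q) → ∃ q ∈ C.U (a, 0) r,
      ‖h p‖ * Real.exp (l * θ) ≤ ‖h q‖ * Real.exp (l * (C.t q - C.t p))
  have hm : ∀ a θ θ' p, 0 < θ → θ ≤ θ' → Q a θ' p → Q a θ p := fun a θ θ' p _ h1 h2 l h hl hh =>
    (h2 l h hl hh).imp fun q hq => ⟨hq.1, (mul_le_mul_of_nonneg_left (Real.exp_le_exp.2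
      (mul_le_mul_of_nonneg_left h1 hl)) (norm_nonneg _)).trans hq.2⟩
  have h1 : ∀ a, ∀ᶠ θ in 𝓝[>] (0 : ℝ), ∀ p ∈ C.U (a, 0) 1, Q a θ p := fun a => by
    obtain ⟨θ, hθ, h2⟩ := sa_unif (C.isCompact_cl (a, 0) (r := 1) (by norm_num)) (hm a)
      fun p hp => C.sa_loc p ((C.isOpen_U (a, 0) r).mem_nhds ⟨hp.1, hp.2.trans_lt hr⟩)
    filter_upwards [Ioc_mem_nhdsGT hθ] with θ' h3 p hp
    exact hm a _ _ p h3.1 h3.2 (h2 p ⟨hp.1, hp.2.le⟩)
  obtain ⟨θ, h2, hθ⟩ := ((eventually_all.2 h1).and self_mem_nhdsWithin).exists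
  refine ⟨θ, hθ, fun i p hp l h hl hh => ?_⟩
  have k : ∀ q ∈ C.U (i.1, 0) r, (C.g ^ (-i.2)) q ∈ C.U i r := fun q hq => by
    simpa only [sub_neg_eq_add, zero_add] using (C.U_shift (i.1, 0) (-i.2) r q).2 hq
  obtain ⟨q, hq, h3⟩ := h2 i.1 ((C.g ^ i.2) p)
    (by simpa only [sub_self] using (C.U_shift i i.2 1 p).2 hp) l (h ∘ (C.g ^ (-i.2) : M ≃ₜ M)) hl
    fun q hq => (C.hol_gz _).2 (hh _ (k q hq))
  refine ⟨_, k q hq, ?_⟩
  rw [Function.comp_apply, ← C.gz_add, neg_add_cancel, zpow_zero, Homeomorph.one_apply,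
    C.t_gz] at h3
  rwa [C.t_gz, Int.cast_neg, ← sub_eq_add_neg, sub_sub, add_comm]

end Cov

end Vale.Agent.P267
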