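import Vale.Agent.P267S.SA1
import Vale.Agent.P267S.SA6

/-! P267, solver part A: no two-forms of exponential growth. -/

open scoped Manifold ContDiff Topology
open Filter Metric Set

noncomputable section

namespace Vale.Agent.P267

set_option linter.unusedSectionVars false

variable {M : Type} [TopologicalSpace M] [ChartedSpace C2 M] [T2Space M]

namespace Cov
variable {C : Cov M} {s : M → ℂ} {c : ℝ}

theorem sa7_pull (hs : C.SecF C.kf s) (k : ℤ) : C.SecF C.kf (s ∘ (C.g ^ k : M ≃ₜ M)) :=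
  fun i p hp => ((C.hol_gz k).2 (hs _ _ ((C.U_shift i k 1 p).2 hp))).congr
    (Eventually.of_forall fun q => by
      simp only [Function.comp_apply, Pi.mul_apply, kf, ← C.gz_add, sub_add_cancel])

/-- The two-forms. -/
def sa7P (C : Cov M) : Submodule ℂ (M → ℂ) where
  carrier := {s | C.SecF C.kf s}
  add_mem' h h' i p hp := mul_add (C.kf i) _ _ ▸ (h i p hp).add (h' i p hp)
  zero_mem' i p _ := (mul_zero (C.kf i)).symm ▸ holAt_zero
  smul_mem' a _ h i p hp := (mul_smul_comm a (C.kf i) _).symm ▸ (h i p hp).smul a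

theorem sa7_lim {σ : ℕ → M → ℂ} {B : ℝ} (hσ : ∀ n, C.SecF C.kf (σ n))
    (hb : ∀ n p, ‖σ n p‖ ≤ B * Real.exp (|c| * |C.t p|)) :
    (∀ p, Tendsto (fun n => σ n p) (hyperfilter ℕ) (𝓝 (ulim (hyperfilter ℕ) σ p))) ∧
      C.SecF C.kf (ulim (hyperfilter ℕ) σ) ∧ ∀ p, ∀ w : ℕ → M, Tendsto w (hyperfilter ℕ) (𝓝 p) →
        Tendsto (fun n => ‖σ n (w n)‖) (hyperfilter ℕ) (𝓝 ‖ulim (hyperfilter ℕ) σ p‖) := by
  have l : C.Lb (hyperfilter ℕ) σ := fun T => ⟨|B| * Real.exp (|c| * T),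
    Eventually.of_forall fun n p hp => (hb n p).trans (mul_le_mul (le_abs_self B)
      (Real.exp_le_exp.2 (mul_le_mul_of_nonneg_left hp (abs_nonneg c))) (Real.exp_pos _).le
      (abs_nonneg B))⟩
  exact ⟨l.tendsto, C.montelK (hyperfilter ℕ) (F := fun _ _ => 0) l
    (fun i ε hε => Eventually.of_forall fun n p _ => by simpa using hε.le)
    fun i => Eventually.of_forall fun n p hp => by simpa using hσ n i p hp⟩

theorem sa7_w (x p : M) : ‖((Real.exp (-(|c| * |C.t x|)) : ℝ) : ℂ)‖ *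
    Real.exp (|c| * |C.t ((C.g ^ ⌊C.t x⌋) p)|) ≤ Real.exp |c| * Real.exp (|c| * |C.t p|) := by
  rw [Complex.norm_real, Real.norm_of_nonneg (Real.exp_pos _).le, ← Real.exp_add, ← Real.exp_add,
    Real.exp_le_exp, C.t_gz]
  have h1 := Int.floor_le (C.t x)
  have h2 := Int.lt_floor_add_one (C.t x)
  have h3 : |C.t p + ⌊C.t x⌋| ≤ |C.t p| + |C.t x| + 1 := by
    rw [abs_le]
    constructor <;> linarith [le_abs_self (C.t p), neg_abs_le (C.t p), le_abs_self (C.t x),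
      neg_abs_le (C.t x)]
  nlinarith [mul_le_mul_of_nonneg_left h3 (abs_nonneg c)]

theorem sa_kap_zero (H : C.NoK) (hs : C.SecF C.kf s) (hg : C.Gr s c) : s = 0 := by
  by_contra h0
  obtain ⟨B, hB⟩ := hg
  have hu : (hyperfilter ℕ : Filter ℕ) ≤ atTop := Nat.hyperfilter_le_atTop
  obtain ⟨μ, -, hμ⟩ := sa_eig (K := Real.exp |c|) (B := |B|) C.g
    (fun p => Real.exp (|c| * |C.t p|)) (fun _ => Real.exp_pos _) (fun p => by
      rw [← Real.exp_add, Real.exp_le_exp, C.shift]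
      nlinarith [mul_le_mul_of_nonneg_left ((abs_add_le (C.t p) 1).trans_eq (by rw [abs_one]))
        (abs_nonneg c)]) C.sa7P (fun r hr => zpow_one C.g ▸ sa7_pull hr 1)
    (fun σ s₀ B hσ hb hl => by
      obtain ⟨h1, h2, -⟩ := sa7_lim hσ hb
      rw [show s₀ = ulim (hyperfilter ℕ) σ from
        funext fun p => tendsto_nhds_unique ((hl p).mono_left hu) (h1 p)]
      exact h2) hs h0 fun p => (hB p).trans (mul_le_mul (le_abs_self B) (Real.exp_le_exp.2
        (mul_le_mul_of_nonneg_right (le_abs_self c) (abs_nonneg _))) (Real.exp_pos _).le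
        (abs_nonneg B))
  choose r hr h1 h2 h3 using fun n : ℕ => hμ (1 / ((n : ℝ) + 1)) Nat.one_div_pos_of_nat
  choose x hx using h2
  obtain ⟨σ, hσ⟩ : ∃ σ : ℕ → M → ℂ, σ = fun n => ((Real.exp (-(|c| * |C.t (x n)|)) : ℝ) : ℂ) •
    (r n ∘ (C.g ^ ⌊C.t (x n)⌋ : M ≃ₜ M)) := ⟨_, rfl⟩
  have e : ∀ n p, σ n p = ((Real.exp (-(|c| * |C.t (x n)|)) : ℝ) : ℂ) *
    r n ((C.g ^ ⌊C.t (x n)⌋) p) := fun n p => by rw [hσ]; rfl
  obtain ⟨l1, l2, l3⟩ := sa7_lim (σ := σ) (c := c) (B := Real.exp |c|)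
    (fun n => by rw [hσ]; exact C.sa7P.smul_mem _ (sa7_pull (hr n) _)) fun n p => by
      rw [e, norm_mul]
      exact (mul_le_mul_of_nonneg_left (h1 n _) (norm_nonneg _)).trans (sa7_w _ p)
  obtain ⟨y, hy⟩ := C.sa_slab (hyperfilter ℕ) (w := fun n => (C.g ^ (-⌊C.t (x n)⌋)) (x n)) (T := 1)
    (Eventually.of_forall fun n => by
      rw [C.t_gz, Int.cast_neg, abs_le]
      constructor <;> linarith [Int.floor_le (C.t (x n)), Int.lt_floor_add_one (C.t (x n))])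
  have k : 1 / 2 ≤ ‖ulim (hyperfilter ℕ) σ y‖ := ge_of_tendsto' (l3 y _ hy) fun n => by
    rw [e, C.cb_zpow_neg', norm_mul, Complex.norm_real, Real.norm_of_nonneg (Real.exp_pos _).le]
    refine le_trans (le_of_eq ?_) (mul_le_mul_of_nonneg_left (hx n) (Real.exp_pos _).le)
    rw [← mul_div_assoc, ← Real.exp_add, neg_add_cancel, Real.exp_zero]
  rw [H μ _ (C.sa_kap.2 l2) fun p => ?_, Pi.zero_apply, norm_zero] at k
  · norm_num at k
  refine sub_eq_zero.1 (tendsto_nhds_unique ((l1 (C.g p)).sub ((l1 p).const_mul μ))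
    (squeeze_zero_norm (a := fun n : ℕ => 1 / ((n : ℝ) + 1) *
      (Real.exp |c| * Real.exp (|c| * |C.t p|))) (fun n => ?_) ?_))
  · have g : (C.g ^ ⌊C.t (x n)⌋) (C.g p) = C.g ((C.g ^ ⌊C.t (x n)⌋) p) := by
      rw [← C.AB_succ, C.gz_add, zpow_one]
    rw [e, e, mul_left_comm, ← mul_sub, norm_mul, g]
    refine (mul_le_mul_of_nonneg_left (h3 n _) (norm_nonneg _)).trans ?_
    rw [mul_left_comm]
    exact mul_le_mul_of_nonneg_left (sa7_w _ p) Nat.one_div_pos_of_nat.le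
  · simpa using ((tendsto_one_div_add_atTop_nhds_zero_nat (𝕜 := ℝ)).mul_const _).mono_left hu

end Cov

end Vale.Agent.P267
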