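import Vale.Agent.P267S.SA5
import Vale.Agent.P267S.SA7

/-! P267, solver part A: no twisted two-forms of exponential growth. -/

open scoped Manifold ContDiff Topology
open Filter Metric Set

noncomputable section

namespace Vale.Agent.P267

set_option linter.unusedSectionVars false

variable {M : Type} [TopologicalSpace M] [ChartedSpace C2 M] [T2Space M]

namespace Cov
variable {C : Cov M} {F : C.I → M → ℂ} {s : M → ℂ} {c r B : ℝ}

theorem sa7b_gr {B₀ l : ℝ} (h : ∀ p, ‖s p‖ ≤ B₀ * Real.exp (c * |C.t p|)) (hl : |c| ≤ l) (p : M) :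
    ‖s p‖ ≤ |B₀| * Real.exp (l * |C.t p|) :=
  (h p).trans (mul_le_mul (le_abs_self _) (Real.exp_le_exp.2 (mul_le_mul_of_nonneg_right
    ((le_abs_self _).trans hl) (abs_nonneg _))) (Real.exp_pos _).le (abs_nonneg _))

theorem sa_decay (H : C.NoK) (hF : C.Fr F r B) (hr : 1 < r) (hT : C.Tl F r)
    (hs : C.SecF (C.kf / F) s) (hg : C.Gr s c) {l : ℝ} (hl : 0 ≤ l) :
    ∃ D, ∀ p, 0 ≤ C.t p → ‖s p‖ * Real.exp (l * C.t p) ≤ D := by
  by_contra h
  obtain ⟨B₀, hB₀⟩ := hg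
  obtain ⟨δ, B', hδ, hB'⟩ := hT
  choose x h1 h2 h3 using fun N : ℕ => sa_peak (X := {p // 0 ≤ C.t p}) (fun x => C.t x)
    (fun x => ‖s x‖) (fun _ => norm_nonneg _) (abs_nonneg c) hl (fun x => x.2) (B := |B₀|)
    (fun x => by simpa only [abs_of_nonneg x.2] using sa7b_gr hB₀ le_rfl x)
    (fun ⟨D, hD⟩ => h ⟨D, fun p hp => hD ⟨p, hp⟩⟩) N
  obtain ⟨L, hL⟩ : ∃ L, L = |c| + 2 * l := ⟨_, rfl⟩
  have L0 : 0 ≤ L := by rw [hL]; positivity
  rw [← hL] at h3
  obtain ⟨m, hm⟩ : ∃ m : ℕ → ℤ, ∀ N, m N = ⌊C.t (x N)⌋ := ⟨_, fun _ => rfl⟩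
  have m1 : ∀ N, (m N : ℝ) ≤ C.t (x N) := fun N => hm N ▸ Int.floor_le _
  have m2 : ∀ N, C.t (x N) < m N + 1 := fun N => hm N ▸ Int.lt_floor_add_one _
  have m3 : Tendsto (fun N => (m N : ℝ)) (hyperfilter ℕ) atTop :=
    (tendsto_atTop_mono (fun N => by linarith [h1 N, m2 N])
      (tendsto_atTop_add_const_right _ (-1) tendsto_natCast_atTop_atTop)).mono_left
      Nat.hyperfilter_le_atTop
  have p0 : ∀ N, 0 < ‖s (x N)‖ := fun N =>
    (mul_pos_iff_of_pos_right (Real.exp_pos _)).1 (one_pos.trans_le (h2 N))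
  obtain ⟨S, hS⟩ : ∃ S : ℕ → M → ℂ, ∀ N p, S N p = (‖s (x N)‖ : ℂ)⁻¹ * s ((C.g ^ m N) p) :=
    ⟨_, fun _ _ => rfl⟩
  have n1 : ∀ N p, ‖S N p‖ = ‖s (x N)‖⁻¹ * ‖s ((C.g ^ m N) p)‖ := fun N p => by
    rw [hS, norm_mul, norm_inv, Complex.norm_real, norm_norm]
  have b1 : ∀ T : ℝ, ∀ᶠ N in (hyperfilter ℕ : Filter ℕ), ∀ p, |C.t p| ≤ T →
      ‖S N p‖ ≤ 2 * Real.exp (L * (T + 1)) := fun T => by
    filter_upwards [m3.eventually_ge_atTop T] with N hN p hp
    have k := h3 N ⟨(C.g ^ m N) p, by rw [C.t_gz]; linarith [(abs_le.1 hp).1]⟩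
    rw [n1, inv_mul_le_iff₀ (p0 N)]
    refine k.trans ?_
    rw [← mul_assoc, mul_comm ‖s _‖ 2]
    refine mul_le_mul_of_nonneg_left (Real.exp_le_exp.2 (mul_le_mul_of_nonneg_left ?_ L0))
      (by positivity)
    rw [C.t_gz, abs_le]
    constructor <;> linarith [abs_le.1 hp, m1 N, m2 N]
  have hb : C.Lb (hyperfilter ℕ) S := fun T => ⟨_, b1 T⟩
  obtain ⟨k1, k2⟩ := C.montelK (hyperfilter ℕ) hb
    (F := fun N i p => (1 - (F (i.1, i.2 - m N) ((C.g ^ m N) p))⁻¹) * S N p) (fun i ε hε => by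
      have w : Tendsto (fun N => B * (B' * C.wt δ 0 (i.1, i.2 - m N)) *
          (2 * Real.exp (L * (C.R + |(i.2 : ℝ)| + 1)))) (hyperfilter ℕ)
          (𝓝 (B * (B' * 0) * (2 * Real.exp (L * (C.R + |(i.2 : ℝ)| + 1))))) := by
        refine ((Tendsto.const_mul _ ?_).const_mul _).mul_const _
        refine Real.tendsto_exp_atBot.comp (Tendsto.const_mul_atTop_of_neg (neg_neg_of_pos hδ)
          (tendsto_atTop_mono (fun N => ?_) (tendsto_atTop_add_const_right _ (-(i.2 : ℝ)) m3)))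
        push_cast
        linarith [neg_le_abs ((i.2 : ℝ) - m N - 0)]
      rw [mul_zero, mul_zero, zero_mul] at w
      filter_upwards [b1 (C.R + |(i.2 : ℝ)|), w.eventually (ge_mem_nhds hε)] with N a1 a2 p hp
      have u := (C.U_shift i (m N) r p).2 (C.U_mono i hr.le hp)
      have e : 1 - (F (i.1, i.2 - m N) ((C.g ^ m N) p))⁻¹ =
          (F (i.1, i.2 - m N) ((C.g ^ m N) p))⁻¹ * (F (i.1, i.2 - m N) ((C.g ^ m N) p) - 1) := by
        rw [mul_sub, inv_mul_cancel₀ (hF.ne _ _ u), mul_one]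
      have t1 : |C.t p| ≤ C.R + |(i.2 : ℝ)| := by
        linarith [C.t_ch hp.1, abs_sub (C.t p + i.2) i.2, add_sub_cancel_right (C.t p) i.2,
          congrArg abs (add_sub_cancel_right (C.t p) (i.2 : ℝ))]
      have t2 := mul_le_mul (hF.bd _ _ u).2 (hB' _ _ u) (norm_nonneg _)
        ((norm_nonneg _).trans (hF.bd _ _ u).2)
      rw [norm_mul, e, norm_mul]
      exact (mul_le_mul t2 (a1 p t1) (norm_nonneg _) (le_trans (by positivity) t2)).trans a2)
    fun i => .of_forall fun N p hp => by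
      refine (((C.hol_gz (m N)).2 (hs _ _ ((C.U_shift i (m N) 1 p).2 hp))).smul
        (‖s (x N)‖ : ℂ)⁻¹).congr (.of_forall fun q => ?_)
      simp only [Pi.smul_apply, Function.comp_apply, Pi.mul_apply, Pi.div_apply, Pi.sub_apply, hS,
        kf, ← C.gz_add, sub_add_cancel, smul_eq_mul]
      ring
  obtain ⟨p, hp⟩ := C.sa_slab (hyperfilter ℕ) (w := fun N => (C.g ^ (-m N)) (x N)) (T := 1)
    (.of_forall fun N => by
      rw [C.t_gz, abs_le]
      push_cast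
      constructor <;> linarith [m1 N, m2 N])
  have z := sa_kap_zero H k1 (c := L) ⟨2 * Real.exp L, fun q => le_of_tendsto (hb.tendsto q).norm
    ((b1 |C.t q|).mono fun N hN => (hN q le_rfl).trans_eq (by
      rw [mul_add, mul_one, Real.exp_add]
      ring))⟩
  have k3 := k2 p _ hp
  simp only [n1, ← C.gz_add, add_neg_cancel, zpow_zero, Homeomorph.one_apply,
    fun N => inv_mul_cancel₀ (p0 N).ne', z, Pi.zero_apply, norm_zero] at k3
  exact one_ne_zero (tendsto_nhds_unique tendsto_const_nhds k3)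

theorem noSec_tl (H : C.NoK) (hF : C.Fr F r B) (hr : 1 < r) (hT : C.Tl F r) : C.NoSec F := by
  intro s c hs hg
  obtain ⟨B', hD⟩ := C.sa_dual (C.sa_mono hF (min_le_left r 2))
    ((min_le_right r 2).trans (by norm_num))
  obtain ⟨θ, b, hθ, hb⟩ := C.sa_sub_fr hD (lt_min hr one_lt_two)
  obtain ⟨l, l1, l2⟩ : ∃ l : ℝ, |c| ≤ l ∧ b / θ < l :=
    ⟨max |c| (b / θ + 1), le_max_left _ _, (lt_add_one _).trans_le (le_max_right _ _)⟩
  have l0 := (abs_nonneg c).trans l1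
  obtain ⟨D, h⟩ := sa_decay H hF hr hT hs hg l0
  obtain ⟨B₀, hB₀⟩ := hg
  refine (hb s hs).lin l0 ((div_lt_iff₀ hθ).1 l2) (D := max D |B₀|) fun p => ?_
  rcases le_total 0 (C.t p) with hp | hp
  · exact (h p hp).trans (le_max_left _ _)
  · refine ((mul_le_mul_of_nonneg_right (sa7b_gr hB₀ l1 p) (Real.exp_pos _).le).trans_eq ?_).trans
      (le_max_right _ _)
    rw [mul_assoc, ← Real.exp_add, abs_of_nonpos hp, mul_neg, neg_add_cancel, Real.exp_zero,
      mul_one]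

theorem noSec_one (H : C.NoK) : C.NoSec 1 :=
  noSec_tl H (C.sa_one 2).1 one_lt_two (C.sa_one 2).2

theorem zero_of_tendsto (hF : C.Fr F r B) (hr : 1 < r) (hT : C.Tl F r) (hs : C.SecF F s)
    (hg : C.Gr s c) (h0 : Tendsto s (comap C.t atTop) (𝓝 0)) : s = 0 := by
  obtain ⟨θ, δ, b, hθ, hδ, hb, h⟩ := C.sa_sub_tl hF hr hT
  exact (h s hs).exp hθ hδ hb hg h0

end Cov

end Vale.Agent.P267
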