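import Vale.Agent.P267S.SA7b

/-! P267, solver part A: limits of translates. -/

open scoped Manifold ContDiff Topology
open Filter Metric Set

noncomputable section

namespace Vale.Agent.P267

set_option linter.unusedSectionVars false

variable {M : Type} [TopologicalSpace M] [ChartedSpace C2 M] [T2Space M]

namespace Cov
variable {C : Cov M} {F G : C.I → M → ℂ} {r B : ℝ}

theorem NoSec.congr (h : C.NoSec F) (e : ∀ i, ∀ p ∈ C.U i 1, F i p = G i p) : C.NoSec G := by
  refine fun s δ hs hg => h s δ (fun i p hp => (hs i p hp).congr ?_) hg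
  filter_upwards [(C.isOpen_U i 1).mem_nhds hp] with q hq
  simp only [Pi.mul_apply, Pi.div_apply, e i q hq]

theorem NoSec.shift (h : C.NoSec F) (k : ℤ) :
    C.NoSec fun i p => F (i.1, i.2 - k) ((C.g ^ k) p) := by
  intro s δ hs ⟨D, hD⟩
  have h1 := h (s ∘ (C.g ^ (-k) : M ≃ₜ M)) |δ| (fun j q hq => ?_)
    ⟨|D| * Real.exp (|δ| * |(k : ℝ)|), fun q => ?_⟩
  · funext p
    have h2 := congrFun h1 ((C.g ^ k) p)
    rwa [Function.comp_apply, C.cb_zpow_neg] at h2
  · obtain ⟨a, n⟩ := j
    rw [← C.cb_zpow_neg' k q] at hq ⊢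
    rw [← C.hol_gz]
    refine (hs (a, n + k) _ (C.cb_shift.2 hq)).congr (Eventually.of_forall fun y => ?_)
    simp only [Pi.mul_apply, Pi.div_apply, Function.comp_apply, C.cb_zpow_neg, kf, C.gz_add,
      add_sub_cancel_right]
  · refine (hD _).trans ?_
    rw [mul_assoc, ← Real.exp_add, C.t_gz, ← mul_add]
    refine mul_le_mul (le_abs_self D) (Real.exp_le_exp.2 (mul_le_mul (le_abs_self δ) ?_
      (abs_nonneg _) (abs_nonneg _))) (Real.exp_nonneg _) (abs_nonneg _)
    rw [Int.cast_neg, add_comm |(k : ℝ)|, ← abs_neg (k : ℝ)]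
    exact abs_add_le _ _

theorem noLim_tl (H : C.NoK) (hF : C.Fr F r B) (hr : 1 < r) (hT : C.Tl F r) :
    C.NoLim (fun _ => F) r := by
  intro φ k G _ hG
  by_cases hk : ∃ n, ∀ᶠ m in (hyperfilter ℕ : Filter ℕ), k m = n
  · obtain ⟨n, hn⟩ := hk
    refine ((noSec_tl H hF hr hT).shift n).congr fun i p hp => ?_
    refine tendsto_nhds_unique (tendsto_const_nhds.congr' ?_) (hG i p (C.U_mono i hr.le hp))
    filter_upwards [hn] with m hm
    rw [hm]
  have h1 : Tendsto k (hyperfilter ℕ) cofinite := le_cofinite_iff_eventually_ne.2 fun n =>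
    Ultrafilter.eventually_not.2 fun h => hk ⟨n, h⟩
  obtain ⟨δ, D, hδ, hD⟩ := hT
  refine (noSec_one H).congr fun i p hp => ?_
  have hp' := C.U_mono i hr.le hp
  refine tendsto_nhds_unique (tendsto_iff_norm_sub_tendsto_zero.2 (squeeze_zero
    (fun _ => norm_nonneg _) (fun m => hD _ _ ((C.U_shift i (k m) r p).2 hp')) ?_)) (hG i p hp')
  have h2 := (tendsto_dist_left_cocompact_atTop (i.2 : ℝ)).comp (Int.tendsto_coe_cofinite.comp h1)
  have h3 := (Real.tendsto_exp_atBot.comp
    (h2.const_mul_atTop_of_neg (neg_neg_of_pos hδ))).const_mul D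
  rw [mul_zero] at h3
  refine h3.congr fun m => ?_
  simp [wt, Real.dist_eq]

end Cov

end Vale.Agent.P267
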