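import Vale.Agent.P267S.SCDefs

/-! P267, solver part C: small tools. -/

open scoped Topology
open Filter Metric Set

noncomputable section

namespace Vale.Agent.P267

set_option linter.unusedSectionVars false

variable {M : Type} [TopologicalSpace M] [ChartedSpace C2 M] [T2Space M]

namespace Cov
variable {C : Cov M} {φ P : C.I → M → ℂ} {Φ : ℕ → C.I → M → ℂ} {Ψ : C.I → M → ℂ} {δ B : ℝ}
  {N : ℕ}

theorem sh_mem (i : C.I) (k : ℤ) (r : ℝ) (p : M) :
    (C.g ^ k) p ∈ C.U (C.sh i k) r ↔ p ∈ C.U i r := C.U_shift i k r p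

theorem sh_sh (i : C.I) (k m : ℤ) : C.sh (C.sh i k) m = C.sh i (k + m) := by
  simp only [sh, sub_sub]

theorem sh_zero (i : C.I) : C.sh i 0 = i := by
  simp only [sh, sub_zero]

theorem idx_sh (k : ℤ) (p : M) : C.idx ((C.g ^ k) p) = C.sh (C.idx p) k := C.idx_gz k p

theorem R_nonneg [Nonempty M] : 0 ≤ C.R := 
  (abs_nonneg _).trans (C.t_ch (C.mem_U_idx (Classical.arbitrary M)).1)

/-- Overlapping charts have close levels. -/
theorem lev_close {i j : C.I} {r r' : ℝ} {p : M} (hi : p ∈ C.U i r) (hj : p ∈ C.U j r') :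
    |(i.2 : ℝ) - j.2| ≤ 2 * C.R := by
  have h1 := abs_le.1 (C.t_ch hi.1)
  have h2 := abs_le.1 (C.t_ch hj.1)
  exact abs_le.2 ⟨by linarith, by linarith⟩

theorem sc0_bd (hN : 0 < N) (i : C.I) :
    -(N : ℝ) / 2 ≤ (i.2 : ℝ) - C.dom N i * N ∧ (i.2 : ℝ) - C.dom N i * N < N / 2 := by
  have h0 : (0 : ℤ) < 2 * N := by omega
  have h1 : ((C.dom N i * (2 * N) : ℤ) : ℝ) ≤ (2 * i.2 + N : ℤ) :=
    Int.cast_le.2 (Int.ediv_mul_le _ h0.ne')
  have h2 : ((2 * i.2 + N : ℤ) : ℝ) < ((C.dom N i + 1) * (2 * N) : ℤ) :=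
    Int.cast_lt.2 (Int.lt_ediv_add_one_mul_self _ h0)
  push_cast at h1 h2
  exact ⟨by linarith, by linarith⟩

theorem sc0_lt {a b : ℤ} (h : (a : ℝ) * N < b * N) : a < b :=
  Int.cast_lt.1 (lt_of_mul_lt_mul_right h (Nat.cast_nonneg N))

theorem sc0_eq (hN : 0 < N) {i : C.I} {k : ℤ} (h1 : -(N : ℝ) / 2 ≤ (i.2 : ℝ) - k * N)
    (h2 : (i.2 : ℝ) - k * N < N / 2) : C.dom N i = k := by
  obtain ⟨h3, h4⟩ := sc0_bd hN i
  have h5 : C.dom N i < k + 1 := sc0_lt (N := N) (by push_cast; linarith)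
  have h6 : k < C.dom N i + 1 := sc0_lt (N := N) (by push_cast; linarith)
  omega


theorem dom_sh (hN : 0 < N) (i : C.I) (k : ℤ) : C.dom N (C.sh i (k * N)) = C.dom N i - k := by
  obtain ⟨h1, h2⟩ := sc0_bd hN i
  refine sc0_eq hN ?_ ?_ <;> simp only [sh] <;> push_cast <;> linarith

theorem dom_sh_one (hN : 0 < N) (i : C.I) : C.dom N (C.sh i N) = C.dom N i - 1 := by
  simpa only [one_mul] using dom_sh hN i 1

theorem dom_bd (hN : 0 < N) (i : C.I) :
    -(N : ℝ) / 2 ≤ (i.2 : ℝ) - C.dom N i * N ∧ (i.2 : ℝ) - C.dom N i * N < N / 2 := sc0_bd hN i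

theorem dom_eq (hN : 0 < N) {i : C.I} {k : ℤ} (h1 : -(N : ℝ) / 2 ≤ (i.2 : ℝ) - k * N)
    (h2 : (i.2 : ℝ) - k * N < N / 2) : C.dom N i = k := sc0_eq hN h1 h2

/-- Overlapping charts lie in adjacent domains, and near the seam if the domains differ. -/
theorem dom_close (hN : 4 * C.R < N) {i j : C.I} (h : |(i.2 : ℝ) - j.2| ≤ 2 * C.R) :
    |C.dom N i - C.dom N j| ≤ 1 ∧ (C.dom N i ≠ C.dom N j →
      N / 2 - 2 * C.R ≤ |(i.2 : ℝ) - C.dom N i * N|) := by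
  have h0 : (0 : ℝ) < N := by linarith [abs_nonneg ((i.2 : ℝ) - j.2)]
  have h0' : 0 < N := Nat.cast_pos.1 h0
  obtain ⟨a1, a2⟩ := sc0_bd h0' i
  obtain ⟨b1, b2⟩ := sc0_bd h0' j
  obtain ⟨c1, c2⟩ := abs_le.1 h
  have h5 : C.dom N i < C.dom N j + 2 := sc0_lt (N := N) (by push_cast; linarith)
  have h6 : C.dom N j < C.dom N i + 2 := sc0_lt (N := N) (by push_cast; linarith)
  refine ⟨abs_le.2 ⟨by omega, by omega⟩, fun hne => ?_⟩
  rcases lt_or_gt_of_ne hne with hl | hl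
  · have e : C.dom N j = C.dom N i + 1 := by omega
    rw [e] at b1
    push_cast at b1
    exact le_trans (by linarith) (le_abs_self _)
  · have e : C.dom N j = C.dom N i - 1 := by omega
    rw [e] at b2
    push_cast at b2
    exact le_trans (by linarith) (neg_le_abs _)

theorem sc0_per {X Y : Type} (T : ℤ → Y → Y) (h0 : ∀ y, T 0 y = y)
    (hT : ∀ k m y, T (k + m) y = T k (T m y)) {w : Y → X} (h : ∀ y, w (T N y) = w y) (k : ℤ)
    (y : Y) : w (T (k * N) y) = w y := by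
  refine cb_ind (P := fun k => w (T (k * N) y) = w y) (by rw [zero_mul, h0]) (fun k => ?_) k
  rw [add_mul, one_mul, hT, h]


/-- Periodicity under all multiples. -/
theorem per_fun {X : Type} {w : M → X} (h : ∀ p, w ((C.g ^ (N : ℤ)) p) = w p) (k : ℤ) (p : M) :
    w ((C.g ^ (k * N)) p) = w p := 
  sc0_per (fun k p => (C.g ^ k) p) (fun _ => rfl) C.gz_add h k p

theorem per_fr {X : Type} {w : C.I → M → X}
    (h : ∀ i p, w (C.sh i N) ((C.g ^ (N : ℤ)) p) = w i p) (k : ℤ) (i : C.I) (p : M) :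
    w (C.sh i (k * N)) ((C.g ^ (k * N)) p) = w i p := 
  sc0_per (w := fun y : C.I × M => w y.1 y.2) (fun k y => (C.sh y.1 k, (C.g ^ k) y.2))
    (fun y => by rw [sh_zero]; rfl) (fun k m y => by rw [sh_sh, C.gz_add, add_comm])
    (fun y => h y.1 y.2) k (i, p)

theorem per_ch {X : Type} {w : C.I → C.I → M → X}
    (h : ∀ i j p, w (C.sh i N) (C.sh j N) ((C.g ^ (N : ℤ)) p) = w i j p) (k : ℤ) (i j : C.I)
    (p : M) : w (C.sh i (k * N)) (C.sh j (k * N)) ((C.g ^ (k * N)) p) = w i j p := 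
  sc0_per (w := fun y : C.I × C.I × M => w y.1 y.2.1 y.2.2)
    (fun k y => (C.sh y.1 k, C.sh y.2.1 k, (C.g ^ k) y.2.2))
    (fun y => by rw [sh_zero, sh_zero]; rfl)
    (fun k m y => by rw [sh_sh, sh_sh, C.gz_add, add_comm])
    (fun y => h y.1 y.2.1 y.2.2) k (i, j, p)


end Cov

end Vale.Agent.P267
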