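import Vale.Agent.P267S.SC2

/-! P267, solver part C: the two cocycles on the finite covers. -/

open scoped Topology
open Filter Metric Set

noncomputable section

namespace Vale.Agent.P267

set_option linter.unusedSectionVars false

variable {M : Type} [TopologicalSpace M] [ChartedSpace C2 M] [T2Space M]

namespace Cov
variable {C : Cov M} {φ P : C.I → M → ℂ} {Φ : ℕ → C.I → M → ℂ} {Ψ : C.I → M → ℂ} {δ B : ℝ}
  {N : ℕ}

/-- The cocycle in the periodic frames. -/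
def scappG (φ P Ψ : C.I → M → ℂ) (i j : C.I) (p : M) : ℂ := (P i p - P j p) * (φ i p / Ψ i p)

/-- Its periodisation. -/
def scappH (N : ℕ) (γ : C.I → C.I → M → ℂ) (i j : C.I) (p : M) : ℂ :=
  γ (C.sh i (C.dom N i * N)) (C.sh j (C.dom N i * N)) ((C.g ^ (C.dom N i * N)) p)

theorem scapp_two {i : C.I} {p : M} (hp : p ∈ C.U i (5 / 4)) : p ∈ C.U i 2 :=
  C.U_mono i (by norm_num) hp

theorem scapp_lev (hN : 0 < N) (i : C.I) : |((C.sh i (C.dom N i * N)).2 : ℝ)| ≤ N / 2 := by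
  have h := dom_bd hN i
  simp only [sh]
  push_cast
  exact abs_le.2 ⟨by linarith [h.1], h.2.le⟩

theorem scapp_rho (h : C.Sys φ δ B Φ) (N : ℕ) {i : C.I} {p : M} (hp : p ∈ C.U i 2) :
    ‖φ i p / Φ N i p‖ ≤ B * B := by
  rw [div_eq_mul_inv, norm_mul]
  exact mul_le_mul (h.tc.fr.bd i p hp).1 ((h.fr N).bd i p hp).2 (norm_nonneg _)
    (zero_le_one.trans h.tc.one)

theorem scapp_one (h : C.Sys φ δ B Φ) (hN : 0 < N) {i : C.I} (hi : |(i.2 : ℝ)| ≤ N / 2) {p : M}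
    (hp : p ∈ C.U i 2) : ‖φ i p / Φ N i p - 1‖ ≤ B * B * Real.exp (-δ * (N / 2)) := by
  have hB : 0 ≤ B := zero_le_one.trans h.tc.one
  have h0 : (0 : ℝ) ≤ N := Nat.cast_nonneg N
  have h1 : |i.2| ≤ (N : ℤ) := by
    have : ((|i.2| : ℤ) : ℝ) ≤ ((N : ℤ) : ℝ) := by
      push_cast
      linarith
    exact_mod_cast this
  have h2 := ((h.per N hN).near i h1 p hp).trans (mul_le_mul_of_nonneg_left (Real.exp_le_exp.2
    (show -δ * (N - |(i.2 : ℝ)|) ≤ -δ * (N / 2) by nlinarith [h.tc.pos])) hB)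
  rw [div_sub_one ((h.fr N).ne i p hp), div_eq_mul_inv, norm_mul, norm_sub_rev]
  calc _ ≤ B * Real.exp (-δ * (N / 2)) * B :=
        mul_le_mul h2 ((h.fr N).bd i p hp).2 (norm_nonneg _) (by positivity)
    _ = _ := by ring

theorem scapp_P (h : C.Sys φ δ B Φ) (hP : C.Pr φ P δ B) {i : C.I} {p : M}
    (hp : p ∈ C.U i (5 / 4)) {y : ℝ} (hy : y ≤ |(i.2 : ℝ)|) : ‖P i p‖ ≤ B * Real.exp (-δ * y) := by
  refine (hP.bd i p hp).trans (mul_le_mul_of_nonneg_left (Real.exp_le_exp.2 ?_)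
    (zero_le_one.trans h.tc.one))
  rw [Int.cast_zero, sub_zero]
  nlinarith [h.tc.pos]

theorem scapp_PP (h : C.Sys φ δ B Φ) (hP : C.Pr φ P δ B) {i j : C.I} {p : M}
    (hi : p ∈ C.U i (5 / 4)) (hj : p ∈ C.U j (5 / 4)) : ‖P i p - P j p‖ ≤ 2 * B := by
  have h1 := scapp_P h hP hi (abs_nonneg _)
  have h2 := scapp_P h hP hj (abs_nonneg _)
  rw [mul_zero, Real.exp_zero, mul_one] at h1 h2
  linarith [norm_sub_le (P i p) (P j p)]

theorem scapp_ch (h : C.Sys φ δ B Φ) (hP : C.Pr φ P δ B) (hN : 0 < N) :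
    C.Ch1 (Φ N) N (5 / 4) (scappH N (scappG φ P (Φ N))) := by
  refine ⟨fun i j p => ?_, fun i j p hp => ?_⟩
  · have e : (N : ℤ) + (C.dom N i - 1) * N = C.dom N i * N := by ring
    simp only [scappH]
    rw [dom_sh_one hN, sh_sh, sh_sh, ← C.gz_add, add_comm _ (N : ℤ), e]
  · have hi := (sh_mem i (C.dom N i * N) _ p).2 hp.1
    have hj := (sh_mem j (C.dom N i * N) _ p).2 hp.2
    refine ((C.hol_gz _).2 (hP.hol _ _ _ ⟨hi, hj⟩)).congr ?_
    filter_upwards [(C.isOpen_U i 2).mem_nhds (scapp_two hp.1)] with q hq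
    have h0 := (h.fr N).ne i q hq
    simp only [scappH, scappG, Function.comp_apply, Pi.mul_apply, Pi.sub_apply,
      per_fr (h.per N hN).per]
    field_simp

theorem scapp_seam [Nonempty M] (h : C.Sys φ δ B Φ) (hP : C.Pr φ P δ B) {i j : C.I} {p : M}
    (hi : p ∈ C.U i (5 / 4)) (hj : p ∈ C.U j (5 / 4))
    (hs : N / 2 - 2 * C.R - 2 ≤ |(i.2 : ℝ) - C.dom N i * N|) :
    ‖scappH N (scappG φ P (Φ N)) i j p‖ ≤
      2 * (B * B * B * Real.exp (δ * (4 * C.R + 2)) * Real.exp (-δ * (N / 2))) := by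
  have hB : 0 ≤ B := zero_le_one.trans h.tc.one
  have hR := R_nonneg (C := C)
  have hi' := (sh_mem i (C.dom N i * N) _ p).2 hi
  have hj' := (sh_mem j (C.dom N i * N) _ p).2 hj
  have e : (N : ℝ) / 2 - 2 * C.R - 2 ≤ |((C.sh i (C.dom N i * N)).2 : ℝ)| := by
    simp only [sh]
    push_cast
    exact hs
  have l := lev_close hi' hj'
  have h1 := scapp_P h hP hi' (y := N / 2 - (4 * C.R + 2)) (by linarith)
  have h2 := scapp_P h hP hj' (y := N / 2 - (4 * C.R + 2)) (by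
    linarith [abs_sub_abs_le_abs_sub ((C.sh i (C.dom N i * N)).2 : ℝ) (C.sh j (C.dom N i * N)).2])
  rw [show -δ * (N / 2 - (4 * C.R + 2)) = δ * (4 * C.R + 2) + -δ * (N / 2) by ring,
    Real.exp_add] at h1 h2
  rw [scappH, scappG, norm_mul]
  calc _ ≤ _ * (B * B) := mul_le_mul ((norm_sub_le _ _).trans (add_le_add h1 h2))
        (scapp_rho h N (scapp_two hi')) (norm_nonneg _) (by positivity)
    _ = _ := by ring

theorem scapp_def [Nonempty M] (h : C.Sys φ δ B Φ) (hP : C.Pr φ P δ B) (hN : 0 < N)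
    (hR : 4 * C.R < N) (i j l : C.I) (p : M)
    (hp : p ∈ C.U i (5 / 4) ∩ C.U j (5 / 4) ∩ C.U l (5 / 4)) :
    ‖scappH N (scappG φ P (Φ N)) i j p + scappH N (scappG φ P (Φ N)) j l p -
      scappH N (scappG φ P (Φ N)) i l p‖ ≤
      6 * (B * B * B * Real.exp (δ * (4 * C.R + 2)) * Real.exp (-δ * (N / 2))) := by
  have hB : 0 ≤ B := zero_le_one.trans h.tc.one
  obtain ⟨⟨hi, hj⟩, hl⟩ := hp
  by_cases hd : C.dom N i = C.dom N j
  · have hi' := (sh_mem i (C.dom N i * N) _ p).2 hi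
    have hj' := (sh_mem j (C.dom N i * N) _ p).2 hj
    have hl' := (sh_mem l (C.dom N i * N) _ p).2 hl
    have a1 := scapp_one h hN (scapp_lev hN i) (scapp_two hi')
    have a2 := scapp_one h hN (by rw [hd]; exact scapp_lev hN j) (scapp_two hj')
    have a3 := scapp_PP h hP hj' hl'
    have a4 : 1 ≤ Real.exp (δ * (4 * C.R + 2)) :=
      Real.one_le_exp (mul_nonneg h.tc.pos.le (by linarith [R_nonneg (C := C)]))
    have e : ∀ a b c x y : ℂ, (a - b) * x + (b - c) * y - (a - c) * x =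
        (b - c) * ((y - 1) - (x - 1)) := fun _ _ _ _ _ => by ring
    simp only [scappH, scappG, ← hd]
    rw [e, norm_mul]
    have a5 : 0 ≤ B * B * B * Real.exp (-δ * (N / 2)) := by positivity
    calc _ ≤ 2 * B * _ := mul_le_mul a3 ((norm_sub_le _ _).trans (add_le_add a2 a1))
          (norm_nonneg _) (by positivity)
      _ ≤ _ := by nlinarith
  · have c1 := (dom_close hR (lev_close hi hj)).2 hd
    have c2 := (dom_close hR (lev_close hj hi)).2 (Ne.symm hd)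
    have b1 := scapp_seam h hP hi hj (N := N) (by linarith)
    have b2 := scapp_seam h hP hj hl (N := N) (by linarith)
    have b3 := scapp_seam h hP hi hl (N := N) (by linarith)
    refine (norm_sub_le _ _).trans ((add_le_add (norm_add_le _ _) le_rfl).trans ?_)
    linarith

theorem scapp_mid {i : C.I} (hi : |(i.2 : ℝ) - ((N : ℤ) / 2 : ℤ)| ≤ 2 * C.R + 1) :
    N / 2 - 2 * C.R - 2 ≤ |(i.2 : ℝ) - C.dom N i * N| := by
  have h0 : (0 : ℝ) ≤ N := Nat.cast_nonneg N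
  have h1 : ((2 * ((N : ℤ) / 2) : ℤ) : ℝ) ≤ ((N : ℤ) : ℝ) := Int.cast_le.2 (by omega)
  have h2 : ((N : ℤ) : ℝ) ≤ ((2 * ((N : ℤ) / 2) + 1 : ℤ) : ℝ) := Int.cast_le.2 (by omega)
  rw [Int.cast_add, Int.cast_one] at h2
  rw [Int.cast_mul, Int.cast_ofNat, Int.cast_natCast] at h1 h2
  have h3 := abs_le.1 hi
  rcases le_or_gt (C.dom N i) 0 with hd | hd
  · have : (C.dom N i : ℝ) ≤ 0 := by exact_mod_cast hd
    refine le_trans ?_ (le_abs_self _)
    nlinarith
  · have : (1 : ℝ) ≤ C.dom N i := by exact_mod_cast hd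
    refine le_trans ?_ (neg_le_abs _)
    nlinarith

/-- The periodisation of a decaying cocycle. -/
theorem appF [Nonempty M] (h : C.Sys φ δ B Φ) (hP : C.Pr φ P δ B) (hc : C.CorrAll Φ) :
    ∃ D : ℝ, 0 ≤ D ∧ ∀ᶠ N : ℕ in atTop, ∃ H, C.Coc (Φ N) N H ∧ ∀ i j, C.dom N i = 0 →
      ∀ p ∈ C.U i (9 / 8) ∩ C.U j (9 / 8),
        ‖H i j p - (P i p - P j p)‖ ≤ D * Real.exp (-(δ / 4) * N) := by
  have hB : 0 ≤ B := zero_le_one.trans h.tc.one
  have hδ := h.tc.pos
  refine ⟨6 * (B * B * B * Real.exp (δ * (4 * C.R + 2))) + 2 * (B * B * B), by positivity, ?_⟩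
  filter_upwards [hc (δ / 4) (by positivity), eventually_gt_atTop 0,
    tendsto_natCast_atTop_atTop.eventually_gt_atTop (4 * C.R)] with N h1 hN hR
  obtain ⟨H, H1, H2⟩ := h1 _ _ ((N : ℤ) / 2) (by positivity) (scapp_ch h hP hN)
    (scapp_def h hP hN hR) fun i j hi p hp =>
      (scapp_seam h hP hp.1 hp.2 (scapp_mid hi)).trans
        (mul_le_mul_of_nonneg_right (by norm_num) (by positivity))
  refine ⟨H, H1, fun i j hd p hp => ?_⟩
  have hi : p ∈ C.U i (5 / 4) := C.U_mono i (by norm_num) hp.1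
  have hj : p ∈ C.U j (5 / 4) := C.U_mono j (by norm_num) hp.2
  have a1 := H2 i j p hp
  have a0 := scapp_lev hN i
  rw [hd, zero_mul, sh_zero] at a0
  have e0 : scappH N (scappG φ P (Φ N)) i j p = (P i p - P j p) * (φ i p / Φ N i p) := by
    rw [scappH, hd, zero_mul, sh_zero, sh_zero, zpow_zero]
    rfl
  have a2 : ‖scappH N (scappG φ P (Φ N)) i j p - (P i p - P j p)‖ ≤
      2 * B * (B * B * Real.exp (-δ * (N / 2))) := by
    rw [e0, ← mul_sub_one, norm_mul]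
    exact mul_le_mul (scapp_PP h hP hi hj) (scapp_one h hN a0 (scapp_two hi)) (norm_nonneg _)
      (by positivity)
  have e1 : Real.exp (δ / 4 * N) * Real.exp (-δ * (N / 2)) = Real.exp (-(δ / 4) * N) := by
    rw [← Real.exp_add]
    congr 1
    ring
  have e2 : Real.exp (-δ * (N / 2)) ≤ Real.exp (-(δ / 4) * N) :=
    Real.exp_le_exp.2 (by nlinarith [mul_nonneg hδ.le (Nat.cast_nonneg N : (0 : ℝ) ≤ N)])
  have e3 := mul_le_mul_of_nonneg_left e2 (show 0 ≤ 2 * (B * B * B) by positivity)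
  refine (norm_sub_le_norm_sub_add_norm_sub _ _ _).trans ((add_le_add a1 a2).trans ?_)
  calc _ = 6 * (B * B * B * Real.exp (δ * (4 * C.R + 2))) *
        (Real.exp (δ / 4 * N) * Real.exp (-δ * (N / 2))) +
        2 * (B * B * B) * Real.exp (-δ * (N / 2)) := by ring
    _ ≤ _ := by
      rw [e1]
      linarith

end Cov

end Vale.Agent.P267
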