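import Vale.Agent.P267S.SC2

/-! P267, solver part C: the jump cocycle. -/

open scoped Topology
open Filter Metric Set

noncomputable section

namespace Vale.Agent.P267

set_option linter.unusedSectionVars false

variable {M : Type} [TopologicalSpace M] [ChartedSpace C2 M] [T2Space M]

namespace Cov
variable {C : Cov M} {φ P : C.I → M → ℂ} {Φ : ℕ → C.I → M → ℂ} {Ψ : C.I → M → ℂ} {δ B : ℝ}
  {N : ℕ}

theorem app2_near (h : C.Sys φ δ B Φ) (hR : 0 ≤ C.R) (hN : 8 * C.R < N) {i : C.I} {k : ℤ} {p : M}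
    (hp : p ∈ C.U i 2) (h1 : N / 2 - 4 * C.R ≤ |(i.2 : ℝ) - k * N|)
    (h2 : |(i.2 : ℝ) - k * N| ≤ N / 2 + 4 * C.R) :
    ‖(Φ N i p)⁻¹ - 1‖ ≤ 2 * B * B * Real.exp (4 * δ * C.R) * Real.exp (-(δ / 2) * N) := by
  have hN0 : 0 < N := Nat.cast_pos.1 (by linarith : (0 : ℝ) < N)
  have hB : 0 ≤ B := zero_le_one.trans h.tc.one
  have e : ((C.sh i (k * N)).2 : ℝ) = i.2 - k * N := by simp [sh]
  have k1 := h.neck hN0 (i := C.sh i (k * N)) (by
    have : |((C.sh i (k * N)).2 : ℝ)| ≤ N := by rw [e]; linarith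
    exact_mod_cast this) ((sh_mem i _ 2 p).2 hp)
  rw [per_fr (h.per N hN0).per, e] at k1
  have k2 : Real.exp (-δ * min |(i.2 : ℝ) - k * N| (N - |(i.2 : ℝ) - k * N|)) ≤
      Real.exp (4 * δ * C.R) * Real.exp (-(δ / 2) * N) := by
    rw [← Real.exp_add]
    refine Real.exp_le_exp.2 ?_
    have : N / 2 - 4 * C.R ≤ min |(i.2 : ℝ) - k * N| (N - |(i.2 : ℝ) - k * N|) :=
      le_min h1 (by linarith)
    nlinarith [h.tc.pos]
  have k3 : (Φ N i p)⁻¹ - 1 = -((Φ N i p)⁻¹ * (Φ N i p - 1)) := by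
    have := (h.fr N).ne i p hp
    field_simp
    ring
  rw [k3, norm_neg, norm_mul]
  calc _ ≤ B * (2 * B * (Real.exp (4 * δ * C.R) * Real.exp (-(δ / 2) * N))) :=
        mul_le_mul ((h.fr N).bd i p hp).2 (k1.trans (by gcongr)) (norm_nonneg _) hB
    _ = _ := by ring

theorem appJ [Nonempty M] (h : C.Sys φ δ B Φ) (hc : C.CorrAll Φ) :
    ∃ D : ℝ, 0 ≤ D ∧ ∀ᶠ N : ℕ in atTop, ∃ H, C.Coc (Φ N) N H ∧ ∀ i j,
      ∀ p ∈ C.U i (9 / 8) ∩ C.U j (9 / 8),
        ‖H i j p - ((C.dom N j : ℂ) - C.dom N i)‖ ≤ D * Real.exp (-(δ / 4) * N) := by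
  have hR : 0 ≤ C.R := R_nonneg
  have hB : 0 ≤ B := zero_le_one.trans h.tc.one
  have hδ := h.tc.pos
  set A := 2 * B * B * Real.exp (4 * δ * C.R) with hA
  have hA0 : 0 ≤ A := by positivity
  refine ⟨3 * A, by positivity, ?_⟩
  filter_upwards [hc (δ / 4) (by linarith),
    tendsto_natCast_atTop_atTop.eventually_gt_atTop (8 * C.R + 2)] with N k1 hN
  have hN0 : 0 < N := Nat.cast_pos.1 (by linarith : (0 : ℝ) < N)
  have hm : ∀ i, C.U i (5 / 4) ⊆ C.U i 2 := fun i => C.U_mono i (by norm_num)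
  have hd : ∀ {i j : C.I} {p : M}, p ∈ C.U i 2 → p ∈ C.U j 2 →
      ‖(C.dom N j : ℂ) - C.dom N i‖ ≤ 1 := fun hi hj => by
    have := (dom_close (N := N) (by linarith) (lev_close hj hi)).1
    rw [← Int.cast_sub, Complex.norm_intCast]
    exact_mod_cast this
  have hs : ∀ {i j l : C.I} {p : M}, p ∈ C.U i 2 → p ∈ C.U j 2 → p ∈ C.U l 2 →
      C.dom N j ≠ C.dom N l → ‖(Φ N i p)⁻¹ - 1‖ ≤ A * Real.exp (-(δ / 2) * N) :=
    fun {i j l p} hi hj hl hne => by
      have e1 := (dom_close (N := N) (by linarith) (lev_close hj hl)).2 hne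
      have e2 := dom_bd hN0 j
      have e3 := lev_close hi hj
      have e4 : |(j.2 : ℝ) - C.dom N j * N| ≤ N / 2 := abs_le.2 ⟨by linarith [e2.1], e2.2.le⟩
      have e5 := abs_abs_sub_abs_le_abs_sub ((i.2 : ℝ) - C.dom N j * N) (j.2 - C.dom N j * N)
      rw [sub_sub_sub_cancel_right] at e5
      have e6 := abs_le.1 (e5.trans e3)
      exact app2_near h hR (by linarith) hi (k := C.dom N j) (by linarith) (by linarith)
  obtain ⟨H, hH, k2⟩ := k1 (fun i j p => ((C.dom N j : ℂ) - C.dom N i) * (Φ N i p)⁻¹)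
    (2 * A * Real.exp (-(δ / 2) * N)) 0 (by positivity) ⟨fun i j p => by
      simp only [dom_sh_one hN0, (h.per N hN0).per]
      push_cast
      ring, fun i j p hp => (holAt_const ((C.dom N j : ℂ) - C.dom N i)).congr (by
        filter_upwards [(C.isOpen_U i 2).mem_nhds (hm i hp.1)] with q hq
        have := (h.fr N).ne i q hq
        simp only [Pi.mul_apply]
        field_simp)⟩
    (fun i j l p hp => by
      by_cases e : C.dom N j = C.dom N l
      · simp only [e, sub_self, zero_mul, add_zero, norm_zero]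
        positivity
      · have e1 := hs (hm i hp.1.1) (hm j hp.1.2) (hm l hp.2) e
        have e2 := hs (hm j hp.1.2) (hm j hp.1.2) (hm l hp.2) e
        have e3 := norm_sub_le ((Φ N j p)⁻¹ - 1) ((Φ N i p)⁻¹ - 1)
        calc _ = ‖((C.dom N l : ℂ) - C.dom N j) * (((Φ N j p)⁻¹ - 1) - ((Φ N i p)⁻¹ - 1))‖ := by
              congr 1; ring
          _ ≤ 1 * (2 * A * Real.exp (-(δ / 2) * N)) := by
              rw [norm_mul]
              exact mul_le_mul (hd (hm j hp.1.2) (hm l hp.2)) (by linarith) (norm_nonneg _)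
                zero_le_one
          _ = _ := one_mul _)
    fun i j hi p hp => by
      have e1 := abs_le.1 hi
      have e2 := abs_le.1 (lev_close hp.1 hp.2)
      push_cast at e1
      rw [dom_eq (k := 0) hN0 (i := i) (by push_cast; linarith) (by push_cast; linarith),
        dom_eq (k := 0) hN0 (i := j) (by push_cast; linarith) (by push_cast; linarith)]
      simp only [sub_self, zero_mul, norm_zero]
      positivity
  refine ⟨H, hH, fun i j p hp => ?_⟩
  have hi := C.U_mono i (show (9 / 8 : ℝ) ≤ 2 by norm_num) hp.1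
  have hj := C.U_mono j (show (9 / 8 : ℝ) ≤ 2 by norm_num) hp.2
  have e1 : Real.exp (δ / 4 * N) * (2 * A * Real.exp (-(δ / 2) * N)) =
      2 * A * Real.exp (-(δ / 4) * N) := by
    rw [mul_left_comm, ← Real.exp_add]
    congr 2
    ring
  have e2 : ‖((C.dom N j : ℂ) - C.dom N i) * (Φ N i p)⁻¹ - ((C.dom N j : ℂ) - C.dom N i)‖ ≤
      A * Real.exp (-(δ / 4) * N) := by
    by_cases e : C.dom N i = C.dom N j
    · simp only [e, sub_self, zero_mul, norm_zero]
      positivity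
    · rw [← mul_sub_one, norm_mul]
      refine (mul_le_of_le_one_left (norm_nonneg _) (hd hi hj)).trans ((hs hi hi hj e).trans ?_)
      gcongr
      nlinarith [Nat.cast_nonneg (α := ℝ) N]
  linarith [k2 i j p hp, norm_sub_le_norm_sub_add_norm_sub (H i j p)
    (((C.dom N j : ℂ) - C.dom N i) * (Φ N i p)⁻¹) ((C.dom N j : ℂ) - C.dom N i)]

end Cov

end Vale.Agent.P267
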