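import Vale.Agent.P267S.SC2

/-! P267, solver part C: the oscillation on long necks. -/

open scoped Topology
open Filter Metric Set

noncomputable section

namespace Vale.Agent.P267

set_option linter.unusedSectionVars false

variable {M : Type} [TopologicalSpace M] [ChartedSpace C2 M] [T2Space M]

namespace Cov
variable {C : Cov M} {φ P : C.I → M → ℂ} {Φ : ℕ → C.I → M → ℂ} {Ψ : C.I → M → ℂ} {δ B : ℝ}
  {N : ℕ}

theorem drift_move (C : Cov M) {a b c : ℝ} (hab : a + 1 ≤ b) (hc : 0 ≤ c) (p : M)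
    (hp : C.t p ∈ Icc (a - c) (b + c)) : ∃ q, C.t q ∈ Icc a b ∧ |C.t p - C.t q| ≤ c + 1 := by
  by_cases h1 : C.t p < a
  · refine ⟨(C.g ^ ⌈a - C.t p⌉) p, ?_⟩
    rw [C.cb_t]
    have e1 := Int.le_ceil (a - C.t p)
    have e2 := Int.ceil_lt_add_one (a - C.t p)
    exact ⟨⟨by linarith, by linarith⟩, abs_le.2 ⟨by linarith [hp.1], by linarith⟩⟩
  by_cases h2 : b < C.t p
  · refine ⟨(C.g ^ ⌊b - C.t p⌋) p, ?_⟩
    rw [C.cb_t]
    have e1 := Int.floor_le (b - C.t p)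
    have e2 := Int.lt_floor_add_one (b - C.t p)
    exact ⟨⟨by linarith, by linarith⟩, abs_le.2 ⟨by linarith, by linarith [hp.2]⟩⟩
  · exact ⟨p, ⟨not_lt.1 h1, not_lt.1 h2⟩, by rw [sub_self, abs_zero]; linarith⟩

theorem drift_osl {J0 J : ℕ} {θ K y : ℝ} {w : M → ℂ} (hδ : 0 < δ)
    (hta : ∀ (w : M → ℂ) (τ : ℝ), (∀ i : C.I, |(i.2 : ℝ) + τ| ≤ J0 → C.Nr w i θ) →
      (∀ σ, |σ - τ| ≤ J0 → C.Osl w σ 1) → C.Osl w τ (1 / 4))
    (hJ : (J0 : ℝ) ≤ J) (hE : Real.exp (-δ * J) ≤ 1 / 2) (hK : 2 ≤ K) (hK' : 1 ≤ θ * K)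
    (hB : 0 < B) (h1 : ∀ p, C.t p ∈ Icc 0 y → ‖w p‖ ≤ B)
    (h2 : ∀ i : C.I, (-i.2 : ℝ) ∈ Icc 0 y →
      C.Nr w i (B * Real.exp (-δ * min (-i.2 : ℝ) (y + i.2)))) (m : ℕ) :
    ∀ σ ∈ Icc ((m : ℝ) * J + 1) (y - m * J - 1), C.Osl w σ (K * B / 2 ^ m) := by
  induction m with
  | zero =>
    intro σ hσ p q hp hq
    simp only [Nat.cast_zero, zero_mul, zero_add, sub_zero, mem_Icc] at hσ
    have k1 := abs_le.1 hp
    have k2 := abs_le.1 hq
    have a1 := h1 p ⟨by linarith, by linarith⟩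
    have a2 := h1 q ⟨by linarith, by linarith⟩
    have a3 := norm_sub_le (w p) (w q)
    rw [pow_zero, div_one]
    nlinarith
  | succ m ih =>
    intro σ hσ
    push_cast at hσ
    obtain ⟨s1, s2⟩ := hσ
    have hm : (0 : ℝ) ≤ m * J := by positivity
    set o : ℝ := K * B / 2 ^ m with ho
    have o0 : 0 < o := by
      have : 0 < K := by linarith
      positivity
    have nrm : ∀ z : ℂ, ‖((o⁻¹ : ℝ) : ℂ) * z‖ = o⁻¹ * ‖z‖ := fun z => by
      rw [norm_mul, Complex.norm_real, Real.norm_of_nonneg (inv_pos.2 o0).le]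
    have key := hta (fun p => ((o⁻¹ : ℝ) : ℂ) * w p) σ (fun i hi => ?_) fun s hs p q hp hq => ?_
    · intro p q hp hq
      have k := key p q hp hq
      rw [← mul_sub, nrm, inv_mul_le_iff₀ o0] at k
      rw [show K * B / 2 ^ (m + 1) = o / 2 by rw [ho, pow_succ]; ring]
      linarith
    · have k := abs_le.1 hi
      obtain ⟨H, hH⟩ := h2 i ⟨by linarith, by linarith⟩
      refine ⟨((o⁻¹ : ℝ) : ℂ) • H, fun p hp => ⟨cb_smul _ (hH p hp).1, ?_⟩⟩
      have k2 : (m : ℝ) * J ≤ min (-i.2 : ℝ) (y + i.2) := le_min (by linarith) (by linarith)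
      have k3 : Real.exp (-δ * min (-i.2 : ℝ) (y + i.2)) ≤ 1 / 2 ^ m := by
        calc _ ≤ Real.exp (m * (-δ * J)) := Real.exp_le_exp.2 (by nlinarith)
          _ = Real.exp (-δ * J) ^ m := Real.exp_nat_mul _ _
          _ ≤ (1 / 2) ^ m := pow_le_pow_left₀ (Real.exp_pos _).le hE m
          _ = 1 / 2 ^ m := by rw [one_div_pow]
      rw [Pi.smul_apply, smul_eq_mul, ← mul_sub, nrm, inv_mul_le_iff₀ o0]
      calc _ ≤ B * (1 / 2 ^ m) := (hH p hp).2.trans (mul_le_mul_of_nonneg_left k3 hB.le)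
        _ = B / 2 ^ m * 1 := by ring
        _ ≤ B / 2 ^ m * (θ * K) := mul_le_mul_of_nonneg_left hK' (by positivity)
        _ = o * θ := by rw [ho]; ring
    · have k := abs_le.1 hs
      have := ih s ⟨by linarith, by linarith⟩ p q hp hq
      rw [← mul_sub, nrm, inv_mul_le_iff₀ o0]
      linarith

theorem drift_sum {J : ℕ} {K y : ℝ} {w : M → ℂ} (hJ : (1 : ℝ) ≤ J) (hK : 0 ≤ K)
    (h : ∀ m : ℕ, ∀ σ ∈ Icc ((m : ℝ) * J + 1) (y - m * J - 1), C.Osl w σ (K / 2 ^ m)) (n : ℕ) :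
    ∀ m : ℕ, y ≤ 2 * (m + 2) * J + 1 + 2 * n * J →
    ∀ p q, C.t p ∈ Icc ((m + 1 : ℝ) * J) (y - (m + 1) * J) →
      C.t q ∈ Icc ((m + 1 : ℝ) * J) (y - (m + 1) * J) → ‖w p - w q‖ ≤ (4 * J + 4) * K / 2 ^ m := by
  have ch := fun m : ℕ => ta_chain (C := C) (w := w) (x := (m + 1 : ℝ) * J) (y := y - (m + 1) * J)
    (o := K / 2 ^ m) (by positivity) fun σ hσ => h m σ ⟨by linarith [hσ.1], by linarith [hσ.2]⟩
  have base : ∀ m : ℕ, y ≤ 2 * (m + 2) * J + 1 →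
      ∀ p q, C.t p ∈ Icc ((m + 1 : ℝ) * J) (y - (m + 1) * J) →
      C.t q ∈ Icc ((m + 1 : ℝ) * J) (y - (m + 1) * J) →
      ‖w p - w q‖ ≤ (4 * J + 4) * K / 2 ^ m := fun m hy p q hp hq => by
    have k := ch m (2 * J) p q hp hq (by
      push_cast
      exact abs_le.2 ⟨by linarith [hp.1, hq.2], by linarith [hp.2, hq.1]⟩)
    push_cast at k
    have k0 : 0 ≤ K / 2 ^ m := by positivity
    rw [mul_div_assoc]
    nlinarith
  induction n with
  | zero => exact fun m hy => base m (by simpa using hy)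
  | succ n ih =>
    intro m hy p q hp hq
    by_cases hc : y ≤ 2 * (m + 2) * J + 1
    · exact base m hc p q hp hq
    push_cast at hy
    have hab : (m + 1 + 1 : ℝ) * J + 1 ≤ y - (m + 1 + 1) * J := by linarith
    obtain ⟨p', hp', e1⟩ := C.drift_move hab (c := J) (by linarith) p
      ⟨by linarith [hp.1], by linarith [hp.2]⟩
    obtain ⟨q', hq', e2⟩ := C.drift_move hab (c := J) (by linarith) q
      ⟨by linarith [hq.1], by linarith [hq.2]⟩
    have k1 := ch m J p p' hp ⟨by linarith [hp'.1], by linarith [hp'.2]⟩ e1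
    have k2 := ch m J q q' hq ⟨by linarith [hq'.1], by linarith [hq'.2]⟩ e2
    have k3 := ih (m + 1) (by push_cast; linarith) p' q' (by push_cast; exact hp')
      (by push_cast; exact hq')
    have k4 := norm_sub_le_norm_sub_add_norm_sub (w p) (w p') (w q)
    have k5 := norm_sub_le_norm_sub_add_norm_sub (w p') (w q') (w q)
    rw [norm_sub_rev (w q') (w q)] at k5
    have e : (4 * J + 4) * K / 2 ^ m =
        (4 * J + 4) * K / 2 ^ (m + 1) + 2 * ((J + 1) * (K / 2 ^ m)) := by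
      rw [pow_succ]; ring
    linarith

theorem drift_ex (hL : C.Liou) (hδ : 0 < δ) : ∃ (J : ℕ) (K : ℝ), 0 < J ∧ C.Drift δ J K := by
  obtain ⟨J0, θ, hθ, hta⟩ := ta hL
  obtain ⟨J1, hJ1⟩ := exists_nat_ge (1 / δ)
  have h0 : (0 : ℝ) ≤ J0 := Nat.cast_nonneg _
  have h1 : (0 : ℝ) ≤ J1 := Nat.cast_nonneg _
  have hJ : ((J0 + J1 + 1 : ℕ) : ℝ) = J0 + J1 + 1 := by push_cast; ring
  have hE : Real.exp (-δ * (J0 + J1 + 1 : ℕ)) ≤ 1 / 2 := by
    rw [div_le_iff₀ hδ] at hJ1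
    have k1 : (1 : ℝ) ≤ δ * (J0 + J1 + 1 : ℕ) := by rw [hJ]; nlinarith
    have k2 := Real.add_one_le_exp (δ * (J0 + J1 + 1 : ℕ))
    rw [neg_mul, Real.exp_neg, ← one_div]
    exact one_div_le_one_div_of_le two_pos (by linarith)
  have hK : (2 : ℝ) ≤ max 2 (1 / θ) := le_max_left _ _
  have hK' : 1 ≤ θ * max 2 (1 / θ) := by
    have := mul_le_mul_of_nonneg_left (le_max_right 2 (1 / θ)) hθ.le
    rwa [mul_one_div_cancel hθ.ne'] at this
  refine ⟨J0 + J1 + 1, (4 * (J0 + J1 + 1 : ℕ) + 4) * max 2 (1 / θ), Nat.succ_pos _,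
    fun B w y m hB k1 k2 p q hp hq => ?_⟩
  have hm : (0 : ℝ) ≤ (m + 1) * (J0 + J1 + 1 : ℕ) := by positivity
  rcases hB.eq_or_lt with rfl | hB
  · have a1 := k1 p ⟨by linarith [hp.1], by linarith [hp.2]⟩
    have a2 := k1 q ⟨by linarith [hq.1], by linarith [hq.2]⟩
    have a3 := norm_sub_le (w p) (w q)
    rw [mul_zero, zero_div]
    linarith
  obtain ⟨n, hn⟩ := exists_nat_ge y
  have hn0 : (0 : ℝ) ≤ n := Nat.cast_nonneg _
  have hm0 : (0 : ℝ) ≤ m := Nat.cast_nonneg _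
  have := drift_sum (C := C) (J := J0 + J1 + 1) (K := max 2 (1 / θ) * B) (y := y) (w := w)
    (by rw [hJ]; linarith) (by positivity)
    (drift_osl hδ hta (by rw [hJ]; linarith) hE hK hK' hB k1 k2) n m
    (by rw [hJ]; nlinarith [mul_nonneg hn0 (add_nonneg h0 h1), mul_nonneg hm0 (add_nonneg h0 h1)])
    p q hp hq
  rwa [← mul_assoc] at this

end Cov

end Vale.Agent.P267
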