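import Vale.Agent.P267S.SC2

/-! P267, solver part C: no mass escapes into the neck. -/

open scoped Topology
open Filter Metric Set

noncomputable section

namespace Vale.Agent.P267

set_option linter.unusedSectionVars false

variable {M : Type} [TopologicalSpace M] [ChartedSpace C2 M] [T2Space M]

namespace Cov
variable {C : Cov M} {φ P : C.I → M → ℂ} {Φ : ℕ → C.I → M → ℂ} {Ψ : C.I → M → ℂ} {δ B : ℝ}
  {N : ℕ}

theorem scesc_lev [Nonempty M] (s : ℝ) : ∃ p, s ≤ C.t p ∧ C.t p < s + 1 := by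
  obtain ⟨p⟩ := ‹Nonempty M›
  refine ⟨(C.g ^ ⌈s - C.t p⌉) p, ?_, ?_⟩ <;> rw [C.t_gz]
  · linarith [Int.le_ceil (s - C.t p)]
  · linarith [Int.ceil_lt_add_one (s - C.t p)]

theorem scesc_big (c : ℝ) : ∀ᶠ N : ℕ in hyperfilter ℕ, c ≤ (N : ℝ) :=
  (tendsto_natCast_atTop_atTop.eventually_ge_atTop c).filter_mono Nat.hyperfilter_le_atTop

theorem scesc_small (A : ℝ) {ε : ℝ} (hε : 0 < ε) : ∃ m : ℕ, A / 2 ^ m < ε := by
  have h : Tendsto (fun m : ℕ => A / (2 : ℝ) ^ m) atTop (𝓝 0) :=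
    tendsto_const_nhds.div_atTop (tendsto_pow_atTop_atTop_of_one_lt one_lt_two)
  exact (h.eventually (gt_mem_nhds hε)).exists

theorem noesc [Nonempty M] {J : ℕ} {K : ℝ} (hD : C.Drift δ J K) (hB : 0 ≤ B)
    {w : ℕ → M → ℂ} {β : ℕ → ℂ}
    (h : ∀ᶠ N : ℕ in hyperfilter ℕ, (∀ p, w N ((C.g ^ (N : ℤ)) p) = w N p + β N) ∧
      (∀ p, C.t p ∈ Icc (0 : ℝ) N → ‖w N p‖ ≤ B) ∧ ∀ i : C.I, (-i.2 : ℝ) ∈ Icc (0 : ℝ) N →
        C.Nr (w N) i (B * Real.exp (-δ * min (-i.2 : ℝ) (N + i.2))))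
    (h0 : ∀ p (x : ℕ → M), Tendsto x (hyperfilter ℕ) (𝓝 p) →
      Tendsto (fun N => w N (x N)) (hyperfilter ℕ) (𝓝 0)) :
    Tendsto β (hyperfilter ℕ) (𝓝 0) ∧ ∀ x : ℕ → M,
      (∀ᶠ N : ℕ in hyperfilter ℕ, C.t (x N) ∈ Icc (0 : ℝ) N) →
      Tendsto (fun N => w N (x N)) (hyperfilter ℕ) (𝓝 0) := by
  have hosc : ∀ m : ℕ, ∀ᶠ N : ℕ in hyperfilter ℕ, ∀ p q,
      C.t p ∈ Icc ((m + 1 : ℝ) * J) (N - (m + 1) * J) →
      C.t q ∈ Icc ((m + 1 : ℝ) * J) (N - (m + 1) * J) → ‖w N p - w N q‖ ≤ K * B / 2 ^ m :=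
    fun m => h.mono fun N hN => hD B (w N) N m hB hN.2.1 hN.2.2
  have hpt : ∀ p {ε : ℝ}, 0 < ε → ∀ᶠ N : ℕ in hyperfilter ℕ, ‖w N p‖ < ε := fun p ε hε =>
    NormedAddGroup.tendsto_nhds_zero.1 (h0 p (fun _ => p) tendsto_const_nhds) ε hε
  have hβ : Tendsto β (hyperfilter ℕ) (𝓝 0) := by
    refine NormedAddGroup.tendsto_nhds_zero.2 fun ε hε => ?_
    obtain ⟨m, hm⟩ := scesc_small (K * B) (by positivity : 0 < ε / 3)
    obtain ⟨p₀, a0, b0⟩ := C.scesc_lev ((m + 1 : ℝ) * J)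
    obtain ⟨p₁, a1, b1⟩ := C.scesc_lev (-((m + 1 : ℝ) * J) - 1)
    filter_upwards [h, hosc m, hpt p₀ (by positivity : 0 < ε / 3),
      hpt p₁ (by positivity : 0 < ε / 3), scesc_big (2 * ((m + 1 : ℝ) * J) + 1)]
      with N hN h1 h2 h3 h4
    have h5 := h1 ((C.g ^ (N : ℤ)) p₁) p₀
      (by rw [C.t_gz, Int.cast_natCast]; constructor <;> linarith) ⟨a0, by linarith⟩
    rw [hN.1] at h5
    have e : β N = (w N p₁ + β N - w N p₀) + w N p₀ - w N p₁ := by ring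
    have h6 := norm_sub_le ((w N p₁ + β N - w N p₀) + w N p₀) (w N p₁)
    have h7 := norm_add_le (w N p₁ + β N - w N p₀) (w N p₀)
    rw [← e] at h6
    linarith
  refine ⟨hβ, fun x hx => NormedAddGroup.tendsto_nhds_zero.2 fun ε hε => ?_⟩
  obtain ⟨m, hm⟩ := scesc_small (K * B) (half_pos hε)
  have hL : (0 : ℝ) ≤ (m + 1 : ℝ) * J := by positivity
  by_cases c1 : ∀ᶠ N : ℕ in hyperfilter ℕ, C.t (x N) ≤ (m + 1 : ℝ) * J
  · obtain ⟨p, hp⟩ := C.cb_pt (hyperfilter ℕ) (x := x) (L := (m + 1 : ℝ) * J)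
      ((hx.and c1).mono fun N hN => abs_le.2 ⟨by linarith [hN.1.1], hN.2⟩)
    exact NormedAddGroup.tendsto_nhds_zero.1 (h0 p x hp) ε hε
  by_cases c2 : ∀ᶠ N : ℕ in hyperfilter ℕ, N - (m + 1 : ℝ) * J ≤ C.t (x N)
  · obtain ⟨p, hp⟩ := C.cb_pt (hyperfilter ℕ) (x := fun N => (C.g ^ (-(N : ℤ))) (x N))
      (L := (m + 1 : ℝ) * J) ((hx.and c2).mono fun N hN => by
        rw [C.t_gz, Int.cast_neg, Int.cast_natCast]
        exact abs_le.2 ⟨by linarith [hN.2], by linarith [hN.1.2]⟩)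
    have h1 := (h0 p _ hp).add hβ
    rw [add_zero] at h1
    have h2 : Tendsto (fun N => w N (x N)) (hyperfilter ℕ) (𝓝 0) := by
      refine h1.congr' (h.mono fun N hN => ?_)
      have := hN.1 ((C.g ^ (-(N : ℤ))) (x N))
      rw [C.cb_zpow_neg'] at this
      exact this.symm
    exact NormedAddGroup.tendsto_nhds_zero.1 h2 ε hε
  obtain ⟨p₀, a0, b0⟩ := C.scesc_lev ((m + 1 : ℝ) * J)
  filter_upwards [Ultrafilter.eventually_not.2 c1, Ultrafilter.eventually_not.2 c2, hosc m,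
    hpt p₀ (half_pos hε), scesc_big (2 * ((m + 1 : ℝ) * J) + 1)] with N n1 n2 h1 h2 h3
  have h5 := h1 (x N) p₀ ⟨(not_le.1 n1).le, (not_le.1 n2).le⟩ ⟨a0, by linarith⟩
  have h7 := norm_add_le (w N (x N) - w N p₀) (w N p₀)
  rw [sub_add_cancel] at h7
  linarith

end Cov

end Vale.Agent.P267
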