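import Vale.Agent.P267S.SC2

/-! P267, solver part C: Montel for framed bundles. -/

open scoped Topology
open Filter Metric Set

noncomputable section

namespace Vale.Agent.P267

set_option linter.unusedSectionVars false

variable {M : Type} [TopologicalSpace M] [ChartedSpace C2 M] [T2Space M]

namespace Cov
variable {C : Cov M} {φ P : C.I → M → ℂ} {Φ : ℕ → C.I → M → ℂ} {Ψ : C.I → M → ℂ} {δ B : ℝ}
  {N : ℕ}

theorem mont (𝒰 : Ultrafilter ℕ) {G : ℕ → C.I → M → ℂ} {w : ℕ → M → ℂ}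
    (hΦ : ∀ i, ∀ p ∈ C.U i 1, Tendsto (fun N => Φ N i p) 𝒰 (𝓝 (φ i p)))
    (hG : ∀ i, ∀ p ∈ C.U i 1, Tendsto (fun N => G N i p) 𝒰 (𝓝 (P i p)))
    (h : ∀ i, ∃ D : ℝ, ∀ᶠ N in (𝒰 : Filter ℕ), ∀ p ∈ C.U i 1,
      HolAt (Φ N i * (G N i - w N)) p ∧ Φ N i p ≠ 0 ∧ ‖Φ N i p‖ ≤ D ∧ ‖(Φ N i p)⁻¹‖ ≤ D ∧
        ‖G N i p‖ ≤ D ∧ ‖w N p‖ ≤ D) :
    ∃ W : M → ℂ, (∀ p, Tendsto (fun N => w N p) 𝒰 (𝓝 (W p))) ∧
      (∀ i, ∀ p ∈ C.U i 1, HolAt (φ i * (P i - W)) p) ∧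
      ∀ i, ∀ p ∈ C.U i 1, P i p = W p → ∀ x : ℕ → M, Tendsto x 𝒰 (𝓝 p) →
        Tendsto (fun N => G N i (x N) - w N (x N)) 𝒰 (𝓝 0) := by
  have hw : ∀ p, ∃ x, Tendsto (fun N => w N p) 𝒰 (𝓝 x) := fun p => by
    obtain ⟨D, hD⟩ := h (C.idx p)
    exact cb_lim 𝒰 (hD.mono fun N hN => (hN p (C.mem_U_idx p)).2.2.2.2.2)
  choose W hW using hw
  have k : ∀ i, ∀ p ∈ C.U i 1, HolAt (φ i * (P i - W)) p ∧ ∀ x : ℕ → M, Tendsto x 𝒰 (𝓝 p) →
      Tendsto (fun N => (Φ N i * (G N i - w N)) (x N)) 𝒰 (𝓝 ((φ i * (P i - W)) p)) := fun i => by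
    obtain ⟨D, hD⟩ := h i
    obtain ⟨H, hH⟩ := C.cb_montel_ch 𝒰 i (r := 1) (B := D * (D + D)) (by norm_num)
      (f := fun N => Φ N i * (G N i - w N)) (hD.mono fun N hN p hp => by
        obtain ⟨h1, -, h3, -, h5, h6⟩ := hN p hp
        refine ⟨h1, (norm_mul_le _ _).trans ?_⟩
        exact mul_le_mul h3 ((norm_sub_le _ _).trans (add_le_add h5 h6)) (norm_nonneg _)
          ((norm_nonneg _).trans h3))
    have e : ∀ p ∈ C.U i 1, H p = (φ i * (P i - W)) p := fun p hp =>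
      tendsto_nhds_unique ((hH p hp).2 (fun _ => p) tendsto_const_nhds)
        ((hΦ i p hp).mul ((hG i p hp).sub (hW p)))
    exact fun p hp => ⟨(hH p hp).1.congr (mem_of_superset ((C.isOpen_U i 1).mem_nhds hp) e),
      e p hp ▸ (hH p hp).2⟩
  refine ⟨W, hW, fun i p hp => (k i p hp).1, fun i p hp he x hx => ?_⟩
  obtain ⟨D, hD⟩ := h i
  have h1 := ((k i p hp).2 x hx).norm.const_mul D
  simp only [Pi.mul_apply, Pi.sub_apply, he, sub_self, mul_zero, norm_zero] at h1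
  refine squeeze_zero_norm' ?_ h1
  filter_upwards [hD, hx ((C.isOpen_U i 1).mem_nhds hp)] with N hN hxN
  obtain ⟨-, h2, -, h4, -⟩ := hN (x N) hxN
  have e : G N i (x N) - w N (x N) = (Φ N i (x N))⁻¹ * (Φ N i (x N) * (G N i (x N) - w N (x N))) :=
    (inv_mul_cancel_left₀ h2 _).symm
  refine (congrArg norm e).trans_le ((norm_mul_le _ _).trans ?_)
  exact mul_le_mul_of_nonneg_right h4 (norm_nonneg _)


end Cov

end Vale.Agent.P267
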