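import Vale.Agent.P267S.SCNorm
import Vale.Agent.P267S.SCMont
import Vale.Agent.P267S.SCEsc
import Vale.Agent.P267S.SCDrift

/-! P267, solver part C: the limit. -/

open scoped Topology
open Filter Metric Set

noncomputable section

namespace Vale.Agent.P267

set_option linter.unusedSectionVars false

variable {M : Type} [TopologicalSpace M] [ChartedSpace C2 M] [T2Space M]

namespace Cov
variable {C : Cov M} {φ P : C.I → M → ℂ} {Φ : ℕ → C.I → M → ℂ} {Ψ : C.I → M → ℂ} {δ B : ℝ}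
  {N : ℕ}

theorem core [Nonempty M] (hL : C.Liou) (h : C.Sys φ δ B Φ) (hP : C.Pr φ P δ B)
    (hc : C.CorrAll Φ) {a b : ℂ} {p₀ : M} (ha : ∀ᶠ N : ℕ in atTop, C.Alt (Φ N) N a b p₀) :
    ∃ (α : ℂ) (w : M → ℂ), Bdd w ∧ (∀ i, ∀ p ∈ C.U i 1, HolAt (φ i * (α • P i - w)) p) ∧
      (α ≠ 0 ∨ w ≠ 0) ∧ a * α = 0 ∧ (α = 0 → b * w p₀ = 0) := by
  obtain ⟨D, hD, hr⟩ := exists_rel h hP hc ha
  have hδ := h.tc.pos
  have hB : 0 ≤ B := zero_le_one.trans h.tc.one
  have h1 : ∀ N, ∃ α β w G, (∃ α β w G, C.Rel (Φ N) P (δ / 4) D a b p₀ N α β w G) →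
      C.Rel (Φ N) P (δ / 4) D a b p₀ N α β w G := fun N => by
    by_cases hN : ∃ α β w G, C.Rel (Φ N) P (δ / 4) D a b p₀ N α β w G
    · obtain ⟨α, β, w, G, h⟩ := hN
      exact ⟨α, β, w, G, fun _ => h⟩
    · exact ⟨0, 0, 0, 0, fun h => absurd h hN⟩
  choose α β w G hR using h1
  have hU := Nat.hyperfilter_le_atTop
  have hr' : ∀ᶠ N : ℕ in hyperfilter ℕ, C.Rel (Φ N) P (δ / 4) D a b p₀ N (α N) (β N) (w N) (G N) :=
    hU (hr.mono hR)
  have hev : ∀ x : ℝ, ∀ᶠ N : ℕ in hyperfilter ℕ, x < N := fun x =>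
    hU (tendsto_natCast_atTop_atTop.eventually_gt_atTop x)
  have hdom : ∀ i : C.I, ∀ᶠ N : ℕ in hyperfilter ℕ, C.dom N i = 0 := fun i => by
    filter_upwards [hev (2 * |(i.2 : ℝ)|)] with N hN
    have e1 := abs_nonneg (i.2 : ℝ)
    refine dom_eq (Nat.cast_pos.1 (by linarith : (0 : ℝ) < N)) ?_ ?_ <;> push_cast
    · linarith [neg_abs_le (i.2 : ℝ)]
    · linarith [le_abs_self (i.2 : ℝ)]
  have hP1 : ∀ i, ∀ p ∈ C.U i 1, ‖P i p‖ ≤ B := fun i p hp =>
    (hP.bd i p (C.U_mono i (by norm_num) hp)).trans (mul_le_of_le_one_right hB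
      (Real.exp_le_one_iff.2 (by nlinarith [abs_nonneg ((i.2 : ℝ) - (0 : ℤ))])))
  have hP2 : ∀ i, ∀ p ∈ C.U i 1, ‖P i p - P (C.idx p) p‖ ≤ 2 * B := fun i p hp => by
    linarith [norm_sub_le (P i p) (P (C.idx p) p), hP1 i p hp, hP1 _ p (C.mem_U_idx p)]
  have he : Tendsto (fun N : ℕ => D * Real.exp (-(δ / 4) * N)) (hyperfilter ℕ) (𝓝 0) := by
    have := (Real.tendsto_exp_atBot.comp (tendsto_natCast_atTop_atTop.const_mul_atTop_of_neg
      (show -(δ / 4) < 0 by linarith))).const_mul D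
    simpa using this.mono_left hU
  have hG : ∀ i, ∀ᶠ N : ℕ in hyperfilter ℕ, ∀ p ∈ C.U i 1,
      ‖G N i p‖ ≤ ‖α N‖ * (2 * B) + D * Real.exp (-(δ / 4) * N) := fun i => by
    filter_upwards [hr', hdom i] with N k1 k2 p hp
    have k3 := norm_add_le (α N * (P i p - P (C.idx p) p)) (G N i p - α N * (P i p - P (C.idx p) p))
    rw [add_sub_cancel, norm_mul] at k3
    linarith [(k1.hol i k2 p hp).2, mul_le_mul_of_nonneg_left (hP2 i p hp) (norm_nonneg (α N))]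
  obtain ⟨A, hA⟩ := cb_lim (hyperfilter ℕ) (hr'.mono fun N k => k.α1)
  obtain ⟨W, hW, hh, hx⟩ := mont (C := C) (Φ := Φ) (φ := φ)
    (P := fun i p => A * (P i p - P (C.idx p) p)) (hyperfilter ℕ) (G := G) (w := w)
    (fun i p hp => (h.tendsto (C.U_mono i (by norm_num) hp)).mono_left hU)
    (fun i p hp => by
      have k1 : Tendsto (fun N => G N i p - α N * (P i p - P (C.idx p) p)) (hyperfilter ℕ) (𝓝 0) := by
        refine squeeze_zero_norm' ?_ he
        filter_upwards [hr', hdom i] with N k1 k2 using (k1.hol i k2 p hp).2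
      simpa using k1.add (hA.mul_const (P i p - P (C.idx p) p)))
    (fun i => ⟨2 * B + D + 1, by
      filter_upwards [hr', hdom i, hG i, he.eventually (gt_mem_nhds one_pos),
        hev (|(i.2 : ℝ)| + C.R)] with N k1 k2 k3 k4 k5 p hp
      have hp2 := C.U_mono i (show (1 : ℝ) ≤ 2 by norm_num) hp
      have k6 := (h.fr N).bd i p hp2
      have k7 := abs_le.1 (C.t_ch hp.1)
      refine ⟨(k1.hol i k2 p hp).1, (h.fr N).ne i p hp2, by linarith [k6.1], by linarith [k6.2], ?_,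
        (k1.bd p (abs_le.2 ⟨by linarith [le_abs_self (i.2 : ℝ)],
          by linarith [neg_abs_le (i.2 : ℝ)]⟩)).trans (by linarith)⟩
      linarith [k3 p hp, mul_le_of_le_one_left (show 0 ≤ 2 * B by linarith) k1.α1]⟩)
  have hWD : ∀ p, ‖W p‖ ≤ D := fun p => le_of_tendsto (hW p).norm (by
    filter_upwards [hr', hev |C.t p|] with N k1 k2 using k1.bd p k2.le)
  refine ⟨A, fun p => W p + A * P (C.idx p) p, ⟨D + ‖A‖ * B, fun p => ?_⟩, fun i p hp => ?_, ?_,
    ?_, fun h0 => ?_⟩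
  · refine (norm_add_le _ _).trans (add_le_add (hWD p) ?_)
    rw [norm_mul]
    exact mul_le_mul_of_nonneg_left (hP1 _ p (C.mem_U_idx p)) (norm_nonneg _)
  · refine (hh i p hp).congr (.of_forall fun q => ?_)
    simp only [Pi.mul_apply, Pi.sub_apply, Pi.smul_apply, smul_eq_mul]
    ring
  · by_contra hn
    obtain ⟨hA0, hw0⟩ := not_or.1 hn
    rw [not_not] at hA0 hw0
    subst hA0
    have hW0 : ∀ p, W p = 0 := fun p => by simpa using congrFun hw0 p
    obtain ⟨J, K, -, hJ⟩ := drift_ex hL (show 0 < δ / 4 by linarith)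
    obtain ⟨k1, k2⟩ := noesc (w := w) (β := β) hJ hD (hr'.mono fun N k => ⟨k.qp, fun p hp =>
      k.bd p (abs_le.2 ⟨by linarith [hp.1, hp.2], hp.2⟩), k.nr⟩) fun p x hp => by
        have k3 := hx _ p (C.mem_U_idx p) (by simp [hW0]) x hp
        have k4 : Tendsto (fun N => G N (C.idx p) (x N)) (hyperfilter ℕ) (𝓝 0) := by
          refine squeeze_zero_norm' ?_
            (by simpa using (hA.norm.mul_const (2 * B)).add he :
              Tendsto (fun N : ℕ => ‖α N‖ * (2 * B) + D * Real.exp (-(δ / 4) * N)) _ (𝓝 0))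
          filter_upwards [hG (C.idx p), hp ((C.isOpen_U _ 1).mem_nhds (C.mem_U_idx p))] with N k5 k6
          exact k5 _ k6
        simpa using k4.sub k3
    have k3 : ∀ N : ℕ, ∃ x, C.t x ∈ Icc (0 : ℝ) N ∧ 1 / 4 ≤ ‖w N x‖ ∨
        ¬ ∃ x, C.t x ∈ Icc (0 : ℝ) N ∧ 1 / 4 ≤ ‖w N x‖ := fun N => by
      by_cases k : ∃ x, C.t x ∈ Icc (0 : ℝ) N ∧ 1 / 4 ≤ ‖w N x‖
      · exact k.imp fun _ => .inl
      · exact ⟨p₀, .inr k⟩
    choose x hx' using k3
    have k4 : ∀ᶠ N : ℕ in hyperfilter ℕ, C.t (x N) ∈ Icc (0 : ℝ) N ∧ 1 / 4 ≤ ‖w N (x N)‖ := by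
      filter_upwards [hr', hA.norm.eventually (gt_mem_nhds (show ‖(0 : ℂ)‖ < 1 by simp)),
        k1.norm.eventually (gt_mem_nhds (show ‖(0 : ℂ)‖ < 1 / 4 by simp))] with N k4 k5 k6
      exact (hx' N).resolve_right (not_not.2 ((k4.big.resolve_left k5.ne).resolve_left k6.not_ge))
    have k5 := ge_of_tendsto (k2 x (k4.mono fun _ k => k.1)).norm (k4.mono fun _ k => k.2)
    norm_num at k5
  · exact tendsto_nhds_unique (hA.const_mul a)
      (tendsto_const_nhds.congr' (hr'.mono fun N k => k.qa.symm))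
  · simp only [h0, zero_mul, add_zero]
    exact tendsto_nhds_unique ((hW p₀).const_mul b)
      (tendsto_const_nhds.congr' (hr'.mono fun N k => k.qb.symm))

end Cov

end Vale.Agent.P267
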