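import Vale.Agent.P267S.TA
import Vale.Agent.P267S.Defs

/-! P267, solver part C: periodic frames and cocycles on the finite covers. -/

open scoped Topology
open Filter Metric Set

noncomputable section

namespace Vale.Agent.P267

variable {M : Type} [TopologicalSpace M] [ChartedSpace C2 M]

namespace Cov
variable (C : Cov M)

/-- The chart index after the shift by `k`: `g ^ k` maps `U i r` onto `U (sh i k) r`. -/
def sh (i : C.I) (k : ℤ) : C.I := (i.1, i.2 - k)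

/-- The number of the fundamental domain of `g ^ N` in which the chart `i` lies. -/
def dom (N : ℕ) (i : C.I) : ℤ := (2 * i.2 + N) / (2 * N)

/-- Frames that tend to one at both ends, with constants. -/
structure Tc (φ : C.I → M → ℂ) (δ B : ℝ) : Prop where
  pos : 0 < δ
  one : 1 ≤ B
  fr : C.Fr φ 2 B
  tl : ∀ i, ∀ p ∈ C.U i 2, ‖φ i p - 1‖ ≤ B * C.wt δ 0 i

/-- Periodic frames that are close to `φ` near the level zero. -/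
structure Per (φ : C.I → M → ℂ) (δ B : ℝ) (N : ℕ) (Φ : C.I → M → ℂ) : Prop where
  per : ∀ i p, Φ (C.sh i N) ((C.g ^ (N : ℤ)) p) = Φ i p
  near : ∀ i : C.I, |i.2| ≤ N → ∀ p ∈ C.U i 2,
    ‖Φ i p - φ i p‖ ≤ B * Real.exp (-δ * (N - |(i.2 : ℝ)|))

/-- A bundle with small tails together with its periodisations. -/
structure Sys (φ : C.I → M → ℂ) (δ B : ℝ) (Φ : ℕ → C.I → M → ℂ) : Prop where
  tc : C.Tc φ δ B
  fr : ∀ N, C.Fr (Φ N) 2 B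
  per : ∀ N, 0 < N → C.Per φ δ B N (Φ N)

/-- Periodic holomorphic one-cochains. -/
structure Ch1 (Φ : C.I → M → ℂ) (N : ℕ) (r : ℝ) (h : C.I → C.I → M → ℂ) : Prop where
  per : ∀ i j p, h (C.sh i N) (C.sh j N) ((C.g ^ (N : ℤ)) p) = h i j p
  hol : ∀ i j, ∀ p ∈ C.U i r ∩ C.U j r, HolAt (Φ i * h i j) p

/-- Periodic holomorphic one-cocycles. -/
structure Coc (Φ : C.I → M → ℂ) (N : ℕ) (h : C.I → C.I → M → ℂ) : Prop where
  ch : C.Ch1 Φ N (9 / 8) h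
  coc : ∀ i j l, ∀ p ∈ C.U i (9 / 8) ∩ C.U j (9 / 8) ∩ C.U l (9 / 8),
    h i j p + h j l p = h i l p

/-- Almost closed one-cochains that are small near one level are close to cocycles. -/
def Corr (Φ : C.I → M → ℂ) (N : ℕ) (K : ℝ) : Prop :=
  ∀ (h : C.I → C.I → M → ℂ) (η : ℝ) (c : ℤ), 0 ≤ η → C.Ch1 Φ N (5 / 4) h →
    (∀ i j l, ∀ p ∈ C.U i (5 / 4) ∩ C.U j (5 / 4) ∩ C.U l (5 / 4),
      ‖h i j p + h j l p - h i l p‖ ≤ η) →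
    (∀ i j : C.I, |(i.2 : ℝ) - c| ≤ 2 * C.R + 1 → ∀ p ∈ C.U i (5 / 4) ∩ C.U j (5 / 4),
      ‖h i j p‖ ≤ η) →
    ∃ H, C.Coc Φ N H ∧ ∀ i j, ∀ p ∈ C.U i (9 / 8) ∩ C.U j (9 / 8), ‖H i j p - h i j p‖ ≤ K * η

/-- The correction has a subexponential norm. -/
def CorrAll (Φ : ℕ → C.I → M → ℂ) : Prop :=
  ∀ ε : ℝ, 0 < ε → ∀ᶠ N : ℕ in atTop, C.Corr (Φ N) N (Real.exp (ε * N))

/-- Riemann-Roch after a periodic change of the fibre identification. -/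
def Eul (Φ : C.I → M → ℂ) (N : ℕ) (c : ℤ) : Prop :=
  ∃ γ : M → ℂ, (∀ p, γ p ≠ 0) ∧ (∀ p, γ ((C.g ^ (N : ℤ)) p) = γ p) ∧
    Euler (C.g ^ (N : ℤ) : M ≃ₜ M) (fun p => Φ (C.idx p) * γ) C.κ c

/-- Periodic sections of the dual bundle vanish. -/
def NoH2 (Φ : C.I → M → ℂ) (N : ℕ) : Prop :=
  ∀ s : M → ℂ, (∀ p, s ((C.g ^ (N : ℤ)) p) = s p) →
    (∀ p, HolAt (C.kf (C.idx p) / Φ (C.idx p) * s) p) → s = 0

/-- Any two cocycles satisfy a relation. -/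
def Alt (Φ : C.I → M → ℂ) (N : ℕ) (a b : ℂ) (p₀ : M) : Prop :=
  ∀ H₁ H₂, C.Coc Φ N H₁ → C.Coc Φ N H₂ → ∃ (α β : ℂ) (w : M → ℂ),
    (∀ p, w ((C.g ^ (N : ℤ)) p) = w p) ∧
    (∀ i, ∀ p ∈ C.U i (9 / 8),
      HolAt (Φ i * fun q => α * H₁ i (C.idx q) q + β * H₂ i (C.idx q) q - w q) p) ∧
    (α ≠ 0 ∨ β ≠ 0 ∨ w ≠ 0) ∧ a * α = 0 ∧ b * w p₀ = 0

/-- A decaying cocycle given by primitives on all charts. -/
structure Pr (φ P : C.I → M → ℂ) (δ B : ℝ) : Prop where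
  hol : ∀ i j, ∀ p ∈ C.U i (5 / 4) ∩ C.U j (5 / 4), HolAt (φ i * (P i - P j)) p
  bd : ∀ i, ∀ p ∈ C.U i (5 / 4), ‖P i p‖ ≤ B * C.wt δ 0 i

/-- The oscillation of almost holomorphic functions on long necks is small. -/
def Drift (δ : ℝ) (J : ℕ) (K : ℝ) : Prop :=
  ∀ (B : ℝ) (w : M → ℂ) (y : ℝ) (m : ℕ), 0 ≤ B → (∀ p, C.t p ∈ Icc 0 y → ‖w p‖ ≤ B) →
    (∀ i : C.I, (-i.2 : ℝ) ∈ Icc 0 y → C.Nr w i (B * Real.exp (-δ * min (-i.2 : ℝ) (y + i.2)))) →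
    ∀ p q, C.t p ∈ Icc ((m + 1 : ℝ) * J) (y - (m + 1) * J) →
      C.t q ∈ Icc ((m + 1 : ℝ) * J) (y - (m + 1) * J) → ‖w p - w q‖ ≤ K * B / 2 ^ m

/-- What part C uses from the parts A and B. -/
structure In : Prop where
  liou : C.Liou
  nosec : ∀ φ δ B, C.Tc φ δ B → C.NoSec φ
  s2c : ∀ (G : ℕ → C.I → M → ℂ) (B δ : ℝ), (∀ n, C.Fr (G n) (5 / 4) B) → C.NoLim G (5 / 4) →
    0 < δ → ∃ K, ∀ᶠ n in atTop, C.S2c (G n) (5 / 4) (9 / 8) δ K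
  limB : ∀ (s : M → ℂ) (ε B : ℝ), Bdd s → 0 < ε →
    (∀ i : C.I, C.Near s i (9 / 8) (B * C.wt ε 0 i)) → ∃ c, C.LimB s c
  zero : ∀ φ δ B s, C.Tc φ δ B → C.SecF φ s → Bdd s → C.LimB s 0 → s = 0

end Cov

end Vale.Agent.P267
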