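import Vale.Agent.P267S.SC2

/-! P267, solver part C: normalised relations. -/

open scoped Topology
open Filter Metric Set

noncomputable section

namespace Vale.Agent.P267

set_option linter.unusedSectionVars false

variable {M : Type} [TopologicalSpace M] [ChartedSpace C2 M] [T2Space M]

namespace Cov
variable {C : Cov M} {φ P : C.I → M → ℂ} {Φ : ℕ → C.I → M → ℂ} {Ψ : C.I → M → ℂ} {δ B : ℝ}
  {N : ℕ}

theorem norm_rel (hN : 0 < N) (hf : C.Fr Ψ 2 B) {a b : ℂ} {p₀ : M} (ha : C.Alt Ψ N a b p₀)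
    {H₁ H₂ : C.I → C.I → M → ℂ} (h₁ : C.Coc Ψ N H₁) (h₂ : C.Coc Ψ N H₂) {D : ℝ}
    (hD : ∀ i j, ∀ p ∈ C.U i (9 / 8) ∩ C.U j (9 / 8), ‖H₁ i j p‖ ≤ D ∧ ‖H₂ i j p‖ ≤ D) :
    ∃ (α β : ℂ) (w : M → ℂ), (∀ p, w ((C.g ^ (N : ℤ)) p) = w p) ∧
      (∀ i, ∀ p ∈ C.U i (9 / 8),
        HolAt (Ψ i * fun q => α * H₁ i (C.idx q) q + β * H₂ i (C.idx q) q - w q) p) ∧
      ‖α‖ ≤ 1 ∧ ‖β‖ ≤ 1 ∧ (∀ p, ‖w p‖ ≤ 1) ∧
      (‖α‖ = 1 ∨ ‖β‖ = 1 ∨ ∃ x, C.t x ∈ Icc (0 : ℝ) N ∧ 3 / 4 ≤ ‖w x‖) ∧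
      a * α = 0 ∧ b * w p₀ = 0 := by
  obtain ⟨α, β, w, h1, h2, h3, h4, h5⟩ := ha H₁ H₂ h₁ h₂
  have hb : Bdd w := bdd_per hN h1 fun p => by
    have hp : p ∈ C.U (C.idx p) (9 / 8) := C.U_mono _ (by norm_num) (C.mem_U_idx p)
    have k1 := (h2 _ p hp).continuousAt.norm
    refine ⟨‖α‖ * D + ‖β‖ * D + B * (‖(Ψ (C.idx p) * fun q => α * H₁ (C.idx p) (C.idx q) q +
      β * H₂ (C.idx p) (C.idx q) q - w q) p‖ + 1), ?_⟩
    filter_upwards [(C.isOpen_U _ _).mem_nhds hp, k1.eventually (gt_mem_nhds (lt_add_one _))]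
      with q hq k2
    have hq2 := C.U_mono _ (by norm_num : (9 / 8 : ℝ) ≤ 2) hq
    have k3 := hD _ _ q ⟨hq, C.U_mono _ (by norm_num) (C.mem_U_idx q)⟩
    have e : w q = α * H₁ (C.idx p) (C.idx q) q + β * H₂ (C.idx p) (C.idx q) q -
        (Ψ (C.idx p) q)⁻¹ * (Ψ (C.idx p) * fun q => α * H₁ (C.idx p) (C.idx q) q +
          β * H₂ (C.idx p) (C.idx q) q - w q) q := by
      rw [Pi.mul_apply, inv_mul_cancel_left₀ (hf.ne _ q hq2), sub_sub_cancel]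
    rw [e]
    refine (norm_sub_le _ _).trans (add_le_add ((norm_add_le _ _).trans (add_le_add ?_ ?_)) ?_)
    · rw [norm_mul]
      exact mul_le_mul_of_nonneg_left k3.1 (norm_nonneg _)
    · rw [norm_mul]
      exact mul_le_mul_of_nonneg_left k3.2 (norm_nonneg _)
    · rw [norm_mul]
      exact mul_le_mul (hf.bd _ q hq2).2 k2.le (norm_nonneg _)
        ((norm_nonneg _).trans (hf.bd _ q hq2).2)
  obtain ⟨E, hE⟩ := hb
  have : Nonempty M := ⟨p₀⟩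
  have hs : ∀ p, ‖w p‖ ≤ ⨆ p, ‖w p‖ := fun p =>
    le_ciSup (f := fun p => ‖w p‖) ⟨E, forall_mem_range.2 hE⟩ p
  obtain ⟨l, l1, l2, l3, l4⟩ : ∃ l : ℝ, ‖α‖ ≤ l ∧ ‖β‖ ≤ l ∧ (⨆ p, ‖w p‖) ≤ l ∧
      (l = ‖α‖ ∨ l = ‖β‖ ∨ l = ⨆ p, ‖w p‖) := by
    refine ⟨max ‖α‖ (max ‖β‖ (⨆ p, ‖w p‖)), le_max_left _ _,
      le_max_of_le_right (le_max_left _ _), le_max_of_le_right (le_max_right _ _), ?_⟩
    rcases max_choice ‖α‖ (max ‖β‖ (⨆ p, ‖w p‖)) with h | h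
    · exact .inl h
    · exact .inr ((max_choice ‖β‖ (⨆ p, ‖w p‖)).imp h.trans h.trans)
  have l0 : 0 < l := by
    rcases h3 with h | h | h
    · exact (norm_pos_iff.2 h).trans_le l1
    · exact (norm_pos_iff.2 h).trans_le l2
    · obtain ⟨p, hp⟩ := Function.ne_iff.1 h
      exact (norm_pos_iff.2 hp).trans_le ((hs p).trans l3)
  have n : ∀ z : ℂ, ‖(l : ℂ)⁻¹ * z‖ = ‖z‖ / l := fun z => by
    rw [norm_mul, norm_inv, Complex.norm_real, Real.norm_of_nonneg l0.le, inv_mul_eq_div]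
  refine ⟨(l : ℂ)⁻¹ * α, (l : ℂ)⁻¹ * β, fun p => (l : ℂ)⁻¹ * w p, fun p => congrArg _ (h1 p),
    fun i p hp => ((h2 i p hp).smul (l : ℂ)⁻¹).congr (.of_forall fun q => ?_), ?_, ?_, fun p => ?_,
    ?_, by rw [mul_left_comm, h4, mul_zero], by rw [mul_left_comm, h5, mul_zero]⟩
  · simp only [Pi.smul_apply, Pi.mul_apply, smul_eq_mul]
    ring
  · rwa [n, div_le_one l0]
  · rwa [n, div_le_one l0]
  · rw [n, div_le_one l0]
    exact (hs p).trans l3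
  · simp only [n, div_eq_one_iff_eq l0.ne', le_div_iff₀ l0]
    refine l4.imp Eq.symm (Or.imp Eq.symm fun h => ?_)
    obtain ⟨x, hx⟩ := exists_lt_of_lt_ciSup (show 3 / 4 * l < ⨆ p, ‖w p‖ by linarith)
    have N0 : (0 : ℝ) < N := Nat.cast_pos.2 hN
    refine ⟨(C.g ^ (-⌊C.t x / N⌋ * N)) x, ?_, by rw [per_fun h1]; exact hx.le⟩
    have f1 := (le_div_iff₀ N0).1 (Int.floor_le (C.t x / N))
    have f2 := (div_lt_iff₀ N0).1 (Int.lt_floor_add_one (C.t x / N))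
    rw [C.t_gz]
    push_cast
    constructor <;> linarith

end Cov

end Vale.Agent.P267
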