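import Vale.Agent.P267S.SCApp
import Vale.Agent.P267S.SCApp2
import Vale.Agent.P267S.SCNorm0

/-! P267, solver part C: normalised relations. -/

open scoped Topology
open Filter Metric Set

noncomputable section

namespace Vale.Agent.P267

set_option linter.unusedSectionVars false

variable {M : Type} [TopologicalSpace M] [ChartedSpace C2 M] [T2Space M]

namespace Cov
variable {C : Cov M} {φ P : C.I → M → ℂ} {Φ : ℕ → C.I → M → ℂ} {Ψ : C.I → M → ℂ} {δ B : ℝ}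
  {N : ℕ}

/-- The data at one period. -/
structure Rel (C : Cov M) (Ψ P : C.I → M → ℂ) (δ D : ℝ) (a b : ℂ) (p₀ : M) (N : ℕ) (α β : ℂ)
    (w : M → ℂ) (G : C.I → M → ℂ) : Prop where
  α1 : ‖α‖ ≤ 1
  qp : ∀ p, w ((C.g ^ (N : ℤ)) p) = w p + β
  bd : ∀ p, |C.t p| ≤ N → ‖w p‖ ≤ D
  nr : ∀ i : C.I, (-i.2 : ℝ) ∈ Icc (0 : ℝ) N →
    C.Nr w i (D * Real.exp (-δ * min (-i.2 : ℝ) (N + i.2)))
  hol : ∀ i, C.dom N i = 0 → ∀ p ∈ C.U i 1, HolAt (Ψ i * (G i - w)) p ∧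
    ‖G i p - α * (P i p - P (C.idx p) p)‖ ≤ D * Real.exp (-δ * N)
  big : ‖α‖ = 1 ∨ 1 / 4 ≤ ‖β‖ ∨ ∃ x, C.t x ∈ Icc (0 : ℝ) N ∧ 1 / 4 ≤ ‖w x‖
  qa : a * α = 0
  qb : b * w p₀ = 0

theorem scnorm_h1 (hP : C.Pr φ P δ B) (hδ : 0 < δ) (hB : 0 ≤ B) (hN : 0 < N)
    {H : C.I → C.I → M → ℂ} (hH : C.Coc Ψ N H) {E : ℝ} (hE : ∀ i j, C.dom N i = 0 →
      ∀ p ∈ C.U i (9 / 8) ∩ C.U j (9 / 8), ‖H i j p - (P i p - P j p)‖ ≤ E) (i j : C.I) (p : M)
    (hp : p ∈ C.U i (9 / 8) ∩ C.U j (9 / 8)) : ‖H i j p‖ ≤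
      E + B * (1 + Real.exp (δ * (2 * C.R))) * Real.exp (-δ * |(i.2 : ℝ) - C.dom N i * N|) := by
  have hi := (sh_mem i (C.dom N i * N) _ p).2 hp.1
  have hj := (sh_mem j (C.dom N i * N) _ p).2 hp.2
  have h1 := hE _ _ (by rw [dom_sh hN, sub_self]) _ ⟨hi, hj⟩
  rw [per_ch hH.ch.per] at h1
  have h2 := hP.bd _ _ (C.U_mono _ (by norm_num) hi)
  have h3 := hP.bd _ _ (C.U_mono _ (by norm_num) hj)
  have h4 : C.wt δ 0 (C.sh i (C.dom N i * N)) = Real.exp (-δ * |(i.2 : ℝ) - C.dom N i * N|) := by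
    simp [wt, sh]
  have h5 : C.wt δ 0 (C.sh j (C.dom N i * N)) ≤
      Real.exp (δ * (2 * C.R)) * Real.exp (-δ * |(i.2 : ℝ) - C.dom N i * N|) := by
    rw [← Real.exp_add, wt, Real.exp_le_exp]
    have := abs_sub_le (i.2 : ℝ) j.2 (C.dom N i * N)
    have h6 := mul_le_mul_of_nonneg_left (this.trans (add_le_add (lev_close hp.1 hp.2) le_rfl)) hδ.le
    simp only [sh, Int.cast_sub, Int.cast_mul, Int.cast_natCast, Int.cast_zero, sub_zero]
    linarith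
  rw [h4] at h2
  have h6 := mul_le_mul_of_nonneg_left h5 hB
  generalize P (C.sh i _) _ = x at *
  generalize P (C.sh j _) _ = y at *
  have h7 := norm_add_le (H i j p - (x - y)) (x - y)
  rw [sub_add_cancel] at h7
  linarith [norm_sub_le x y]

theorem scnorm_dom (hN : 4 * C.R < N) {i j : C.I} {r r' : ℝ} {p : M} (hi : p ∈ C.U i r)
    (hj : p ∈ C.U j r') : ‖(C.dom N j : ℂ) - C.dom N i‖ ≤ 1 := by
  have := (dom_close hN (lev_close hj hi)).1
  rw [← Int.cast_sub, Complex.norm_intCast]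
  exact_mod_cast this

theorem scnorm_two (hN : 0 < N) (hR : 4 * C.R < N) {p : M} (hp : |C.t p| ≤ N) :
    ‖(C.dom N (C.idx p) : ℂ)‖ ≤ 2 := by
  have h1 := abs_le.1 (C.t_ch (C.mem_U_idx p).1)
  have h2 := dom_bd hN (C.idx p)
  have h3 := abs_le.1 hp
  have h4 : (0 : ℝ) < N := by exact_mod_cast hN
  rw [Complex.norm_intCast, abs_le]
  constructor
  · refine le_of_mul_le_mul_right ?_ h4
    linarith [h2.2]
  · refine le_of_mul_le_mul_right ?_ h4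
    linarith [h2.1]

theorem scnorm_min {x : ℝ} {d : ℤ} : min (-x) (N + x) ≤ |x - d * N| := by
  have h0 : (0 : ℝ) ≤ N := N.cast_nonneg
  rcases le_or_gt 0 d with h | h
  · have : (0 : ℝ) ≤ d * N := mul_nonneg (by exact_mod_cast h) h0
    linarith [min_le_left (-x) (N + x), neg_abs_le (x - d * N)]
  · have h1 : (d : ℝ) ≤ -1 := by exact_mod_cast Int.le_sub_one_of_lt h
    linarith [min_le_right (-x) (N + x), le_abs_self (x - d * N), mul_le_mul_of_nonneg_right h1 h0]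

theorem scnorm_mul {a b : ℂ} {s : ℝ} (ha : ‖a‖ ≤ 1) (hb : ‖b‖ ≤ s) : ‖a * b‖ ≤ s := by
  rw [norm_mul]
  exact (mul_le_of_le_one_left (norm_nonneg _) ha).trans hb

theorem exists_rel [Nonempty M] (h : C.Sys φ δ B Φ) (hP : C.Pr φ P δ B) (hc : C.CorrAll Φ)
    {a b : ℂ} {p₀ : M} (ha : ∀ᶠ N : ℕ in atTop, C.Alt (Φ N) N a b p₀) :
    ∃ D : ℝ, 0 ≤ D ∧ ∀ᶠ N : ℕ in atTop, ∃ α β w G,
      C.Rel (Φ N) P (δ / 4) D a b p₀ N α β w G := by
  obtain ⟨D₁, hD₁, h₁⟩ := appF h hP hc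
  obtain ⟨D₂, hD₂, h₂⟩ := appJ h hc
  have hδ := h.tc.pos
  have hB : 0 ≤ B := zero_le_one.trans h.tc.one
  obtain ⟨K, hK⟩ : ∃ K, K = B * (1 + Real.exp (δ * (2 * C.R))) := ⟨_, rfl⟩
  have hK0 : 0 ≤ K := by rw [hK]; positivity
  have hBD : 0 ≤ B * (D₁ + D₂ + K) := by positivity
  refine ⟨3 + 4 * B + B * (D₁ + D₂ + K) + D₁ + D₂, by positivity, ?_⟩
  filter_upwards [h₁, h₂, ha, eventually_gt_atTop 0,
    tendsto_natCast_atTop_atTop.eventually_gt_atTop (4 * C.R),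
    tendsto_natCast_atTop_atTop.eventually_gt_atTop (2 * |((C.idx p₀).2 : ℝ)|)]
    with N ⟨H₁, c₁, e₁⟩ ⟨H₂, c₂, e₂⟩ hA hN hR hp₀
  have b₁ := scnorm_h1 hP hδ hB hN c₁ e₁
  rw [← hK] at b₁
  have hE : Real.exp (-(δ / 4) * N) ≤ 1 := Real.exp_le_one_iff.2 (by
    have : 0 ≤ δ / 4 * N := by positivity
    linarith)
  have hE0 := Real.exp_pos (-(δ / 4) * N)
  have hU : ∀ {i : C.I} {p : M}, p ∈ C.U i 1 → p ∈ C.U i (9 / 8) ∩ C.U (C.idx p) (9 / 8) :=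
    fun hp => ⟨C.U_mono _ (by norm_num) hp, C.U_mono _ (by norm_num) (C.mem_U_idx _)⟩
  obtain ⟨α, β, w, wp, wh, hα, hβ, hw, big, qa, qb⟩ := norm_rel hN (h.fr N) hA c₁ c₂
    (D := D₁ + K + D₂ + 1) fun i j p hp => by
      have h1 : Real.exp (-δ * |(i.2 : ℝ) - C.dom N i * N|) ≤ 1 := Real.exp_le_one_iff.2 (by
        have : 0 ≤ δ * |(i.2 : ℝ) - C.dom N i * N| := by positivity
        linarith)
      have h2 := norm_add_le (H₂ i j p - ((C.dom N j : ℂ) - C.dom N i))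
        ((C.dom N j : ℂ) - C.dom N i)
      rw [sub_add_cancel] at h2
      exact ⟨by linarith [b₁ i j p hp, mul_le_of_le_one_right hD₁ hE, mul_le_of_le_one_right hK0 h1],
        by linarith [e₂ i j p hp, mul_le_of_le_one_right hD₂ hE, scnorm_dom hR hp.1 hp.2]⟩
  have hwb : ∀ p, |C.t p| ≤ N → ‖β * C.dom N (C.idx p)‖ ≤ 2 * ‖β‖ := fun p hp => by
    rw [norm_mul, mul_comm]
    exact mul_le_mul_of_nonneg_right (scnorm_two hN hR hp) (norm_nonneg _)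
  refine ⟨α, β, fun q => w q - β * C.dom N (C.idx q), fun i q => α * H₁ i (C.idx q) q +
    β * (H₂ i (C.idx q) q - ((C.dom N (C.idx q) : ℂ) - C.dom N i)), hα, fun p => ?_,
    fun p hp => ?_, fun i hi => ?_, fun i hi p hp => ⟨?_, ?_⟩, ?_, qa, ?_⟩
  · rw [wp, idx_sh, dom_sh_one hN]
    push_cast
    ring
  · linarith [norm_sub_le (w p) (β * C.dom N (C.idx p)), hw p, hwb p hp]
  · refine ⟨-(Φ N i * fun q => α * H₁ i (C.idx q) q + β * H₂ i (C.idx q) q - w q) -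
      fun _ => β * C.dom N i, fun p hp => ⟨(wh i p (hU hp).1).neg.sub (holAt_const _), ?_⟩⟩
    obtain ⟨μ, hμ⟩ : ∃ μ, μ = min (-i.2 : ℝ) (N + i.2) := ⟨_, rfl⟩
    have hμ0 : 0 ≤ μ := hμ ▸ le_min hi.1 (by linarith [hi.2])
    have hμN : μ ≤ N := hμ ▸ (min_le_left _ _).trans hi.2
    have hex : ∀ x, μ ≤ x → Real.exp (-δ * x) ≤ Real.exp (-(δ / 4) * μ) := fun x hx =>
      Real.exp_le_exp.2 (by nlinarith)
    have x1 : Real.exp (-(δ / 4) * N) ≤ Real.exp (-(δ / 4) * μ) :=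
      Real.exp_le_exp.2 (by nlinarith)
    have hi' : |(i.2 : ℝ)| = -i.2 := abs_of_nonpos (by linarith [hi.1])
    have x2 := h.neck hN (i := i) (by
      have : |(i.2 : ℝ)| ≤ N := hi' ▸ hi.2
      exact_mod_cast this) (C.U_mono _ one_le_two hp)
    rw [hi', sub_neg_eq_add, ← hμ] at x2
    have x3 : ‖w p - β * ((C.dom N (C.idx p) : ℂ) - C.dom N i)‖ ≤ 2 :=
      (norm_sub_le _ _).trans (by
        linarith [hw p, scnorm_mul hβ (scnorm_dom hR hp (C.mem_U_idx p))])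
    have x4 : ‖α * H₁ i (C.idx p) p +
        β * (H₂ i (C.idx p) p - ((C.dom N (C.idx p) : ℂ) - C.dom N i))‖ ≤
        (D₁ + D₂ + K) * Real.exp (-(δ / 4) * μ) := (norm_add_le _ _).trans (by
      linarith [scnorm_mul hα (b₁ _ _ p (hU hp)), scnorm_mul hβ (e₂ _ _ p (hU hp)),
        mul_le_mul_of_nonneg_left x1 hD₁, mul_le_mul_of_nonneg_left x1 hD₂,
        mul_le_mul_of_nonneg_left (hex _ (hμ ▸ scnorm_min (d := C.dom N i))) hK0])
    have x5 := mul_le_mul (x2.trans (mul_le_mul_of_nonneg_left (hex μ le_rfl) (by positivity))) x3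
      (norm_nonneg _) (by positivity)
    have x6 := mul_le_mul ((h.fr N).bd i p (C.U_mono _ one_le_two hp)).1 x4 (norm_nonneg _) hB
    rw [← norm_mul] at x5 x6
    have x7 : 0 ≤ (3 + D₁ + D₂) * Real.exp (-(δ / 4) * μ) := by positivity
    rw [← hμ]
    refine le_trans (le_of_eq (congrArg norm ?_)) (((norm_sub_le _ _).trans
      (add_le_add x6 x5)).trans (by linarith))
    simp only [Pi.sub_apply, Pi.neg_apply, Pi.mul_apply]
    ring
  · refine (wh i p (hU hp).1).congr (Eventually.of_forall fun q => ?_)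
    simp only [Pi.sub_apply, Pi.mul_apply, hi]
    push_cast
    ring
  · have x1 := norm_add_le (α * (H₁ i (C.idx p) p - (P i p - P (C.idx p) p)))
      (β * (H₂ i (C.idx p) p - ((C.dom N (C.idx p) : ℂ) - C.dom N i)))
    have x2 : 0 ≤ (3 + 4 * B + B * (D₁ + D₂ + K)) * Real.exp (-(δ / 4) * N) := by positivity
    refine le_trans (le_of_eq (congrArg norm (by ring))) (x1.trans ?_)
    linarith [scnorm_mul hα (e₁ _ _ hi p (hU hp)), scnorm_mul hβ (e₂ _ _ p (hU hp))]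
  · rcases big with h1 | h1 | ⟨x, hx, h1⟩
    · exact Or.inl h1
    · exact Or.inr (Or.inl (by linarith))
    · rcases le_total (1 / 4) ‖β‖ with h2 | h2
      · exact Or.inr (Or.inl h2)
      · refine Or.inr (Or.inr ⟨x, hx, ?_⟩)
        have h3 := hwb x (by rw [abs_of_nonneg hx.1]; exact hx.2)
        linarith [norm_sub_norm_le (w x) (β * C.dom N (C.idx x))]
  · have h1 := abs_le.1 (le_refl |((C.idx p₀).2 : ℝ)|)
    rw [dom_eq hN (k := 0) (by push_cast; linarith) (by push_cast; linarith)]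
    simpa using qb

end Cov

end Vale.Agent.P267
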