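import Vale.Agent.P267S.SM1

/-! P267, solver part: local connection forms. -/

open scoped Manifold ContDiff Topology
open Filter Metric Set

noncomputable section

namespace Vale.Agent.P267

set_option linter.unusedSectionVars false

variable {M : Type} [TopologicalSpace M] [ChartedSpace C2 M] [T2Space M]

namespace Cov
variable (C : Cov M)

/-- The local connection forms. -/
def sm2a (Φ : C.I → M → ℂ) (i : C.I) (q : M) : C2 →L[ℝ] ℂ :=
  ∑ l ∈ C.nb i, (C.rho l q : ℂ) • ((Φ i q / Φ l q)⁻¹ • C.db (Φ i / Φ l) q)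

theorem sm2_key {Φ : C.I → M → ℂ} (hne : ∀ i, ∀ p ∈ (C.ch i).source, Φ i p ≠ 0)
    (hsm : ∀ i j, ∀ p ∈ (C.ch i).source ∩ (C.ch j).source, SmAt (Φ i / Φ j) p) (i j : C.I) (p : M)
    (hp : p ∈ (C.ch i).source ∩ (C.ch j).source) :
    C.sm2a Φ i p - C.sm2a Φ j p = (Φ i p / Φ j p)⁻¹ • C.db (Φ i / Φ j) p := by
  have e0 : C.sm2a Φ j p =
      ∑ l ∈ C.nb i, (C.rho l p : ℂ) • ((Φ j p / Φ l p)⁻¹ • C.db (Φ j / Φ l) p) :=
    C.sum_nb (fun l => (Φ j p / Φ l p)⁻¹ • C.db (Φ j / Φ l) p) (fun l hl => C.mem_nb hp.2 hl)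
      fun l hl => C.mem_nb hp.1 hl
  have h1 := C.sum_rho (W := C.nb i) fun l hl => C.mem_nb hp.1 hl
  rw [e0, sm2a]
  refine ContinuousLinearMap.ext fun v => ?_
  simp only [ContinuousLinearMap.sub_apply, ContinuousLinearMap.sum_apply,
    ContinuousLinearMap.smul_apply, smul_eq_mul]
  rw [← Finset.sum_sub_distrib, ← one_mul ((Φ i p / Φ j p)⁻¹ * _), ← h1, Finset.sum_mul]
  refine Finset.sum_congr rfl fun l _ => ?_
  by_cases h0 : C.rho l p = 0
  · simp [h0]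
  have hl := (C.rho_supp h0).1
  have e : Φ i / Φ l =ᶠ[𝓝 p] Φ i / Φ j * (Φ j / Φ l) := by
    filter_upwards [(C.ch j).open_source.mem_nhds hp.2] with q hq
    have := hne j q hq
    simp only [Pi.div_apply, Pi.mul_apply]
    field_simp
  have a1 := hne i p hp.1
  have a2 := hne j p hp.2
  have a3 := hne l p hl
  rw [C.db_congr e, C.db_mul (hsm i j p hp) (hsm j l p ⟨hp.2, hl⟩)]
  simp only [ContinuousLinearMap.add_apply, ContinuousLinearMap.smul_apply, smul_eq_mul,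
    Pi.div_apply]
  field_simp
  ring

theorem sm2_sm {Φ : C.I → M → ℂ} (hne : ∀ i, ∀ p ∈ (C.ch i).source, Φ i p ≠ 0)
    (hsm : ∀ i j, ∀ p ∈ (C.ch i).source ∩ (C.ch j).source, SmAt (Φ i / Φ j) p) (i : C.I) (p : M)
    (hp : p ∈ (C.ch i).source) : C.SmF (C.sm2a Φ i) p :=
  C.smF_sum _ fun l _ => C.rho_smul_smF one_lt_two fun hl =>
    SmF.smul ((hsm i l p ⟨hp, hl.1⟩).inv (div_ne_zero (hne i p hp) (hne l p hl.1)))
      (smF_db (hsm i l p ⟨hp, hl.1⟩))

theorem sm2_log {f : M → ℂ} {p : M} (hf : SmAt f p) (h0 : f p ≠ 0) :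
    ∃ a, SmAt a p ∧ ∀ᶠ q in 𝓝 p, C.db a q = (f q)⁻¹ • C.db f q := by
  have h1 : ∀ᶠ z in 𝓝 (f p), z / f p ∈ Complex.slitPlane :=
    (continuous_id.div_const (f p)).continuousAt.eventually_mem
      (Complex.isOpen_slitPlane.mem_nhds (by simp [h0]))
  refine ⟨fun q => Complex.log (f q / f p), hf.comp (φ := fun w => Complex.log (w / f p)) ?_, ?_⟩
  · filter_upwards [h1] with z hz
    exact ((Complex.contDiffAt_log hz).restrict_scalars ℝ).comp z (contDiffAt_id.div_const _)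
  · filter_upwards [hf.continuousAt.eventually h1, C.sm_ev hf] with q hq hs
    have h2 := ((hasDerivAt_id (f q)).div_const (f p)).clog hq
    have h3 : f q ≠ 0 := fun h => Complex.slitPlane_ne_zero hq (by rw [h, zero_div])
    rw [C.db_comp hs (φ := fun w => Complex.log (w / f p)) h2]
    congr 1
    simp only [id]
    field_simp

theorem conn {Φ : C.I → M → ℂ} (hne : ∀ i, ∀ p ∈ (C.ch i).source, Φ i p ≠ 0)
    (hsm : ∀ i j, ∀ p ∈ (C.ch i).source ∩ (C.ch j).source, SmAt (Φ i / Φ j) p) {T : ℤ}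
    (hone : ∀ i : C.I, T ≤ |i.2| → ∀ p ∈ (C.ch i).source, Φ i p = 1) (δ : ℝ) :
    ∃ D α, C.Dat 1 3 δ 0 D α ∧ ∀ i j, ∀ p ∈ (C.ch i).source ∩ (C.ch j).source,
      α i p - α j p = (Φ i p / Φ j p)⁻¹ • C.db (Φ i / Φ j) p := by
  obtain ⟨D, hD, hb⟩ := C.bd_wt (r := 3) (x := fun i p => ‖C.sm2a Φ i p‖)
    (T := T + |⌈2 * C.R⌉|) (fun i => by
      obtain ⟨B, hB⟩ := smF_bdd (C.isCompact_cl i (r := 3) (by norm_num))
        fun p hp => C.sm2_sm hne hsm i p hp.1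
      exact ⟨B, fun p hp => hB p ⟨hp.1, hp.2.le⟩⟩) (fun i hi p hp => by
      refine le_of_eq (norm_eq_zero.2 (Finset.sum_eq_zero fun l hl => ?_))
      refine ContinuousLinearMap.ext fun v => ?_
      by_cases h0 : C.rho l p = 0
      · simp [h0]
      have h1 := Finset.mem_Icc.1 (Finset.mem_product.1 hl).2
      have h2 := le_abs_self ⌈2 * C.R⌉
      have h3 : T ≤ |l.2| := by
        have := abs_sub_abs_le_abs_sub i.2 l.2
        have h4 : |i.2 - l.2| ≤ ⌈2 * C.R⌉ := abs_le.2 ⟨by linarith [h1.2], by linarith [h1.1]⟩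
        linarith
      have e : Φ i / Φ l =ᶠ[𝓝 p] fun _ => 1 := by
        filter_upwards [(C.ch i).open_source.mem_nhds hp.1,
          (C.ch l).open_source.mem_nhds (C.rho_supp h0).1] with q hq hq'
        rw [Pi.div_apply, hone i (by linarith [abs_nonneg ⌈2 * C.R⌉]) q hq, hone l h3 q hq', div_one]
      rw [C.db_congr e, C.db_const]
      simp) (2 * δ)
  refine ⟨D, C.sm2a Φ, ⟨hD, fun i p hp => C.sm2_sm hne hsm i p hp.1, hb, fun i j p hp => ?_⟩,
    C.sm2_key hne hsm⟩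
  obtain ⟨a, h1, h2⟩ := C.sm2_log (hsm i j p ⟨hp.1.1, hp.2.1⟩)
    (div_ne_zero (hne i p hp.1.1) (hne j p hp.2.1))
  refine ⟨a, h1, ?_⟩
  filter_upwards [h2, (C.ch i).open_source.mem_nhds hp.1.1,
    (C.ch j).open_source.mem_nhds hp.2.1] with q hq hi hj
  rw [hq, Pi.div_apply, ← C.sm2_key hne hsm i j q ⟨hi, hj⟩]
  simp [df]

end Cov

end Vale.Agent.P267
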