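import Vale.Agent.P267S.ST1

/-! P267, solver part: the additive Cousin problem on one chart. -/

open scoped Manifold ContDiff Topology
open Filter Metric Set

noncomputable section

namespace Vale.Agent.P267

set_option linter.unusedSectionVars false

variable {M : Type} [TopologicalSpace M] [ChartedSpace C2 M] [T2Space M]

namespace Cov
variable {C : Cov M} {p : M} {F : C.I → M → ℂ} {B : ℝ} {u f : M → M → ℂ}

theorem st_smooth (hu : IsBundle HolAt u) (hR : C.Rep u F 2) (hf : C.Dec u f) (i : C.I) :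
    ∃ (S : M → ℂ) (D : ℝ), ∀ p ∈ C.U i (3 / 2), SmAt (F i * (f p - S)) p ∧ ‖S p‖ ≤ D := by
  have hP := C.isCh i
  set P := C.ch i with hPi
  choose A hA using hf.loc
  let W : C2 → Set C2 := fun z => interior {w |
    HolAt (u (P.symm w) * (f (P.symm z) - f (P.symm w))) (P.symm w) ∧
      ‖f (P.symm z) (P.symm w)‖ ≤ A (P.symm z)}
  obtain ⟨t, -, ht⟩ := (isCompact_closedBall (0 : C2) (3 / 2)).elim_nhds_subcover W fun z hz => by
    have k := C.symm_mem_U i (r := 2) (by norm_num)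
      ((mem_closedBall_zero_iff.1 hz).trans_lt (by norm_num))
    have k1 := P.tendsto_symm k.1.1
    rw [k.2] at k1
    exact interior_mem_nhds.2 (k1.eventually ((hf.coc _).and (hA _)))
  obtain ⟨χ, hχ⟩ := SmoothPartitionOfUnity.exists_isSubordinate (ι := t) 𝓘(ℝ, C2)
    (isClosed_closedBall (x := (0 : C2)) (ε := 3 / 2)) (fun z => W z)
    (fun _ => isOpen_interior) fun z hz => by
      obtain ⟨x, h1, h2⟩ := mem_iUnion₂.1 (ht hz)
      exact mem_iUnion.2 ⟨⟨x, h1⟩, h2⟩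
  refine ⟨fun q => ∑ z : t, (χ z (P q) : ℂ) * f (P.symm z) q, ∑ z : t, |A (P.symm z)|,
    fun p hp => ⟨?_, norm_sum_le_of_le _ fun z _ => ?_⟩⟩
  · have hp2 := C.U_mono i (by norm_num : (3 / 2 : ℝ) ≤ 2) hp
    have k : SmAt (∑ z : t, fun q => (χ z (P q) : ℂ) * (F i * (f p - f (P.symm z))) q) p := by
      refine SmAt.sum fun z _ => ?_
      by_cases hz : P p ∈ tsupport (χ z)
      · have k1 := (interior_subset (hχ z hz)).1
        rw [P.left_inv hp.1] at k1
        have k2 : SmAt ((fun w => (χ z w : ℂ)) ∘ P) p := hP.sm_fun hp.1 (.of_forall fun w =>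
          (Complex.ofRealCLM.contDiff.comp (χ z).contMDiff.contDiff).contDiffAt)
        refine (k2.mul ((hR i p hp2).1.mul k1).neg.smAt).congr ((hu.ne p).mono fun q hq => ?_)
        simp only [Pi.mul_apply, Pi.sub_apply, Pi.div_apply, Pi.neg_apply, Function.comp_apply]
        field_simp
        ring
      · refine smAt_zero.congr ?_
        filter_upwards [P.continuousAt hp.1 (notMem_tsupport_iff_eventuallyEq.1 hz)] with q hq
        have hq' : χ z (P q) = 0 := hq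
        simp [hq']
    refine k.congr ?_
    filter_upwards [(C.isOpen_U i _).mem_nhds hp] with q hq
    have k1 := χ.sum_eq_one (mem_closedBall_zero_iff.2 hq.2.le)
    rw [finsum_eq_sum_of_fintype] at k1
    have k2 : ∑ z : t, (χ z (P q) : ℂ) = 1 := by exact_mod_cast k1
    simp only [Finset.sum_apply, Pi.mul_apply, Pi.sub_apply]
    calc _ = F i q * ((∑ z : t, (χ z (P q) : ℂ)) * f p q -
          ∑ z : t, (χ z (P q) : ℂ) * f (P.symm z) q) := by
          rw [Finset.sum_mul, ← Finset.sum_sub_distrib, Finset.mul_sum]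
          exact Finset.sum_congr rfl fun l _ => by ring
      _ = _ := by rw [k2, one_mul]
  · by_cases hz : P p ∈ tsupport (χ z)
    · have k1 := (interior_subset (hχ z hz)).2
      rw [P.left_inv hp.1] at k1
      rw [norm_mul, Complex.norm_real, Real.norm_of_nonneg (χ.nonneg z _)]
      exact (mul_le_of_le_one_left (norm_nonneg _) (χ.le_one z _)).trans
        (k1.trans (le_abs_self _))
    · rw [image_eq_zero_of_notMem_tsupport hz, Complex.ofReal_zero, zero_mul, norm_zero]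
      exact abs_nonneg _

/-- The Dolbeault lemma with a bound, between two radii. -/
def DolM (C : Cov M) (r r' : ℝ) : Prop :=
  ∃ K : ℝ, 0 ≤ K ∧ ∀ (i : C.I) (α : M → C2 →L[ℝ] ℂ) (D : ℝ),
    (∀ p ∈ C.U i r, ‖α p‖ ≤ D ∧ ∃ a, C.Prim α a p) →
    ∃ g : M → ℂ, ∀ p ∈ C.U i r', C.Prim α g p ∧ ‖g p‖ ≤ K * D

theorem st_chart (hd : C.DolM (11 / 8) (5 / 4)) (hu : IsBundle HolAt u) (hF : C.Fr F 2 B)
    (hR : C.Rep u F 2) (hf : C.Dec u f) (i : C.I) :
    ∃ (P : M → ℂ) (D : ℝ), ∀ p ∈ C.U i (5 / 4), HolAt (u p * (f p - P)) p ∧ ‖P p‖ ≤ D := by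
  obtain ⟨K, hK, hd⟩ := hd
  obtain ⟨S, D, hS⟩ := st_smooth hu hR hf i
  have m : C.U i (3 / 2) ⊆ C.U i 2 := C.U_mono i (by norm_num)
  have h1 : ∀ p ∈ C.U i (3 / 2),
      C.Prim (fun q => C.db (F i * (f q - S)) q) (F i * (f p - S)) p := fun p hp => by
    refine ⟨(hS p hp).1, ?_⟩
    filter_upwards [(C.isOpen_U i _).mem_nhds hp, hf.coc p] with q k1 k2
    have k3 : HolAt (F i * (f p - f q)) q :=
      ((hR i q (m k1)).1.mul k2).congr ((hu.ne q).mono fun y hy => by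
        simp only [Pi.mul_apply, Pi.div_apply]
        field_simp)
    rw [show F i * (f p - S) = F i * (f q - S) + F i * (f p - f q) by ring,
      C.db_add (hS q k1).1 k3.smAt, C.db_hol k3, add_zero]
  obtain ⟨A, hA⟩ := smF_bdd (C := C) (α := fun q => C.db (F i * (f q - S)) q)
    (C.isCompact_cl i (r := 11 / 8) (by norm_num)) fun p hp => by
      have k := h1 p ⟨hp.1, hp.2.trans_lt (by norm_num)⟩
      exact (smF_db k.1).congr k.2
  obtain ⟨g, hg⟩ := hd i _ A fun p hp =>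
    ⟨hA p ⟨hp.1, hp.2.le⟩, _, h1 p (C.U_mono i (by norm_num) hp)⟩
  refine ⟨S + g / F i, D + K * A * B, fun p hp => ?_⟩
  have hp' := C.U_mono i (by norm_num : (5 / 4 : ℝ) ≤ 3 / 2) hp
  refine ⟨((hR i p (m hp')).2.mul ((h1 p hp').hol_sub (hg p hp).1)).congr
    ((sv_ne hF (m hp')).mono fun q hq => ?_), (norm_add_le _ _).trans
      (add_le_add (hS p hp').2 ?_)⟩
  · simp only [Pi.mul_apply, Pi.div_apply, Pi.sub_apply, Pi.add_apply]
    field_simp
    ring
  · rw [Pi.div_apply, div_eq_mul_inv, norm_mul]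
    exact mul_le_mul (hg p hp).2 (hF.bd i p (m hp')).2 (norm_nonneg _)
      ((norm_nonneg _).trans (hg p hp).2)

theorem dec_chart (hd : C.DolM (11 / 8) (5 / 4)) (hu : IsBundle HolAt u) (hF : C.Fr F 2 B)
    (hR : C.Rep u F 2) (hf : C.Dec u f) : ∃ (P : C.I → M → ℂ) (ε A : ℝ), 0 < ε ∧
      ∀ i, ∀ p ∈ C.U i (5 / 4), HolAt (u p * (f p - P i)) p ∧ ‖P i p‖ ≤ A * C.wt ε 0 i := by
  obtain ⟨ε, A, T, hε, h1⟩ := hf.dec
  have h2 : ∀ i : C.I, ∃ (P : M → ℂ) (D : ℝ), ∀ p ∈ C.U i (5 / 4),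
      HolAt (u p * (f p - P)) p ∧ ‖P p‖ ≤ D ∧ (T ≤ |i.2| → ‖P p‖ ≤ |A| * C.wt ε 0 i) :=
    fun i => by
    by_cases hi : T ≤ |i.2|
    · obtain ⟨P, hP⟩ := h1 i hi
      refine ⟨P, |A| * C.wt ε 0 i, fun p hp => ?_⟩
      obtain ⟨k1, k2⟩ := hP p (C.U_mono i (by norm_num) hp)
      have k3 := k2.trans (mul_le_mul_of_nonneg_right (le_abs_self A) (Real.exp_pos _).le)
      rw [← st_wt] at k3
      exact ⟨k1, k3, fun _ => k3⟩
    · obtain ⟨P, D, hP⟩ := st_chart hd hu hF hR hf i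
      exact ⟨P, D, fun p hp => ⟨(hP p hp).1, (hP p hp).2, fun h => absurd h hi⟩⟩
  choose P D hP using h2
  obtain ⟨D₁, -, k2⟩ := C.bd_wt (x := fun i p => ‖P i p‖ - |A| * C.wt ε 0 i)
    (r := 5 / 4) (T := T) (fun i => ⟨D i, fun p hp => by
      have := mul_nonneg (abs_nonneg A) (C.wt_pos ε 0 i).le
      linarith [(hP i p hp).2.1]⟩) (fun i hi p hp => sub_nonpos.2 ((hP i p hp).2.2 hi)) ε
  exact ⟨P, ε, |A| + D₁, hε, fun i p hp => ⟨(hP i p hp).1, by linarith [k2 i p hp]⟩⟩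

theorem s1_of (hd : C.DolM (11 / 8) (5 / 4)) (hu : IsBundle HolAt u) (hF : C.Fr F 2 B)
    (hR : C.Rep u F 2) (h1 : C.S1F F (5 / 4)) : C.S1 u := by
  intro f hf
  obtain ⟨P, ε, A, hε, hP⟩ := dec_chart hd hu hF hR hf
  have m : ∀ i, C.U i (5 / 4) ⊆ C.U i 2 := fun i => C.U_mono i (by norm_num)
  obtain ⟨w, w1, w2⟩ := h1 P ε A hε (fun i j p hp =>
    ((hR i p (m i hp.1)).1.mul ((hP j p hp.2).1.sub (hP i p hp.1).1)).congr
      ((hu.ne p).mono fun q hq => by
        simp only [Pi.mul_apply, Pi.div_apply, Pi.sub_apply]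
        field_simp
        ring)) fun i p hp => (hP i p hp).2
  refine ⟨w, w1, fun p => ?_⟩
  have hp : p ∈ C.U (C.idx p) (5 / 4) := st_idx (by norm_num) p
  refine ((hP _ p hp).1.add ((hR _ p (m _ hp)).2.mul (w2 _ p (C.mem_U_idx p)))).congr
    ((sv_ne hF (m _ hp)).mono fun q hq => ?_)
  simp only [Pi.mul_apply, Pi.div_apply, Pi.sub_apply, Pi.add_apply]
  field_simp
  ring

end Cov

end Vale.Agent.P267
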