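import Vale.Agent.P267S.Defs

/-! P267, solver part: division of the defect of a form by a holomorphic function. -/

open scoped Manifold ContDiff Topology
open Filter Metric Set

noncomputable section

namespace Vale.Agent.P267

set_option linter.unusedSectionVars false

variable {M : Type} [TopologicalSpace M] [ChartedSpace C2 M] [T2Space M]

theorem sv_cut {F : C2 → ℂ} {r r' : ℝ} (h0 : 0 < r') (hr : r' < r)
    (h : ∀ z ∈ ball (0 : C2) r, ContDiffAt ℝ ∞ F z) :
    ∃ G : C2 → ℂ, ContDiff ℝ ∞ G ∧ (∀ z ∈ ball (0 : C2) r', G z = F z) ∧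
      ∀ z : C2, r ≤ ‖z‖ → G z = 0 := by
  let b : ContDiffBump (0 : C2) := ⟨r', (r' + r) / 2, h0, by linarith⟩
  refine ⟨fun w => b w • F w, contDiff_iff_contDiffAt.2 fun w => ?_, fun z hz => ?_,
    fun z hz => ?_⟩
  · by_cases hw : w ∈ tsupport b
    · refine b.contDiff.contDiffAt.smul (h w (closedBall_subset_ball ?_ (b.tsupport_eq.le hw)))
      change (r' + r) / 2 < r
      linarith
    · refine (contDiffAt_const (c := 0)).congr_of_eventuallyEq ?_
      exact (notMem_tsupport_iff_eventuallyEq.1 hw).mono fun y hy => by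
        simp only [hy, Pi.zero_apply, zero_smul]
  · simp only [b.one_of_mem_closedBall (ball_subset_closedBall hz), one_smul]
  · have : b z = 0 := b.zero_of_le_dist (by
      rw [dist_zero_right]
      change (r' + r) / 2 ≤ _
      linarith)
    simp only [this, zero_smul]

theorem sv_conj (z : C2) (j l : Fin 2) :
    dbar (fun w : C2 => (starRingEnd ℂ) (w j)) z (Pi.single l 1) = if j = l then 1 else 0 := by
  have h : HasFDerivAt (fun w : C2 => (starRingEnd ℂ) (w j))
      ((Complex.conjCLE : ℂ →L[ℝ] ℂ).comp (ContinuousLinearMap.proj j : C2 →L[ℝ] ℂ)) z :=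
    ((Complex.conjCLE : ℂ →L[ℝ] ℂ).comp (ContinuousLinearMap.proj j : C2 →L[ℝ] ℂ)).hasFDerivAt
  rw [ac_app, h.fderiv]
  split_ifs with e
  · subst e
    simp
    norm_num
  · simp [Pi.single_eq_of_ne e]

namespace Cov
variable {C : Cov M} {σ a : M → ℂ} {p : M} {α β : M → C2 →L[ℝ] ℂ}
  {P : OpenPartialHomeomorph M C2}

theorem sv_curl_sm (h : C.SmF α p) (hP : IsCh P) (hp : p ∈ P.source) :
    ∀ᶠ z in 𝓝 (P p), ContDiffAt ℝ ∞ (C.curl P α) z := by
  filter_upwards [h.cmp_sm hP hp (Pi.single 0 1), h.cmp_sm hP hp (Pi.single 1 1)] with z k0 k1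
  exact (AD_sm k1 _).sub (AD_sm k0 _)

theorem sv_curl_sub (h : C.SmF α p) (h' : C.SmF β p) (hP : IsCh P) (hp : p ∈ P.source) :
    ∀ᶠ z in 𝓝 (P p), C.curl P (α - β) z = C.curl P α z - C.curl P β z := by
  filter_upwards [h.cmp_sm hP hp (Pi.single 0 1), h.cmp_sm hP hp (Pi.single 1 1),
    h'.cmp_sm hP hp (Pi.single 0 1), h'.cmp_sm hP hp (Pi.single 1 1)] with z k0 k1 k2 k3
  have e : ∀ v, (fun w => C.cmp P (α - β) w v) = fun w => C.cmp P α w v - C.cmp P β w v :=
    fun _ => rfl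
  simp only [curl, e, dbar_apply]
  rw [P272.B1_dzb_sub _ (k1.differentiableAt (by simp)) (k3.differentiableAt (by simp)),
    P272.B1_dzb_sub _ (k0.differentiableAt (by simp)) (k2.differentiableAt (by simp))]
  ring

theorem sv_curl_smul (hσ : HolAt σ p) (h : C.SmF β p) (hP : IsCh P) (hp : p ∈ P.source) :
    ∀ᶠ z in 𝓝 (P p), C.curl P (fun q => σ q • β q) z = σ (P.symm z) * C.curl P β z := by
  filter_upwards [h.cmp_sm hP hp (Pi.single 0 1), h.cmp_sm hP hp (Pi.single 1 1),
    ((hP.hol p hp σ).1 hσ).eventually_analyticAt] with z k0 k1 k2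
  have e : ∀ v, (fun w => C.cmp P (fun q => σ q • β q) w v) =
      fun w => (σ ∘ P.symm) w * C.cmp P β w v := fun _ => rfl
  have k3 := k2.differentiableAt
  simp only [curl, e, dbar_apply]
  rw [P271A.dzb_mul (k3.restrictScalars ℝ) (k1.differentiableAt (by simp)),
    P271A.dzb_mul (k3.restrictScalars ℝ) (k0.differentiableAt (by simp)), P271A.dzb_hol k3,
    P271A.dzb_hol k3, Function.comp_apply]
  ring

/-- A holomorphic factor can be cancelled in a closed form. -/
theorem sv_cancel (hσ : HolAt σ p) (h0 : ¬ σ =ᶠ[𝓝 p] 0) (h : C.SmF β p)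
    (h1 : C.Prim (fun q => σ q • β q) a p) : ∃ b, C.Prim β b p := by
  have hP := C.isCh (C.idx p)
  have hp := C.ac_src p
  set P := C.ch (C.idx p)
  refine h.prim hP hp ?_
  have h2 : (σ * fun q => C.curl P β (P q)) =ᶠ[𝓝 p] σ * 0 := by
    filter_upwards [P.continuousAt hp ((h1.curl hP hp).and (sv_curl_smul hσ h hP hp)),
      P.open_source.mem_nhds hp] with q k1 k2
    have k3 := k1.2
    rw [k1.1, P.left_inv k2] at k3
    simp [← k3]
  have h3 := hσ.cancel C h0 (w := fun q => C.curl P β (P q)) (w' := 0) (by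
    filter_upwards [P.continuousAt hp (sv_curl_sm h hP hp), P.open_source.mem_nhds hp]
      with q k1 k2
    have k3 : ContDiffAt ℝ ∞ (C.curl P β) (P q) := k1
    exact ContinuousAt.comp (f := P) (g := C.curl P β) k3.continuousAt (P.continuousAt k2))
    (.of_forall fun _ => continuousAt_const) h2
  filter_upwards [(P.tendsto_symm hp).eventually h3, P.eventually_right_inverse' hp] with z k1 k2
  simpa only [k2, Pi.zero_apply] using k1

/-- On one chart, a form that is closed near the zeros of `σ` is closed modulo `σ`. -/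
theorem sv_loc (i : C.I) {K : Set M} (hσ : ∀ p ∈ C.U i 2, HolAt σ p)
    (h0 : ∀ p ∈ C.U i 2, p ∈ K → σ p ≠ 0) (hα : ∀ p, C.SmF α p)
    (hc : ∀ p ∉ K, ∃ a, C.Prim α a p) :
    ∃ (β : M → C2 →L[ℝ] ℂ) (D : ℝ), ∀ p ∈ C.U i (7 / 4), C.SmF β p ∧ ‖β p‖ ≤ D ∧
      ∃ a, C.Prim (α - fun q => σ q • β q) a p := by
  have hP := C.isCh i
  set P := C.ch i with hPi
  have hz : ∀ z ∈ ball (0 : C2) 2, P.symm z ∈ C.U i 2 ∧ P (P.symm z) = z := fun z hz =>
    C.symm_mem_U i (by norm_num) (mem_ball_zero_iff.1 hz)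
  have h1 : ∀ z ∈ ball (0 : C2) 2, σ (P.symm z) = 0 → ∀ᶠ w in 𝓝 z, C.curl P α w = 0 := by
    intro z hz' e
    obtain ⟨k1, k2⟩ := hz z hz'
    obtain ⟨a, ha⟩ := hc _ fun h => h0 _ k1 h e
    simpa only [k2] using ha.curl hP k1.1
  obtain ⟨W, w1, w2, w3⟩ := sv_cut (F := fun z => C.curl P α z / σ (P.symm z)) (r := 2)
    (r' := 7 / 4) (by norm_num) (by norm_num) fun z hz' => by
      obtain ⟨k1, k2⟩ := hz z hz'
      by_cases e : σ (P.symm z) = 0
      · exact (contDiffAt_const (c := 0)).congr_of_eventuallyEq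
          ((h1 z hz' e).mono fun w hw => by simp only [hw, zero_div])
      · have k3 := (sv_curl_sm (hα _) hP k1.1).self_of_nhds
        have k4 := ((hP.sm _ k1.1 σ).1 (hσ _ k1).smAt).self_of_nhds
        rw [k2] at k3 k4
        simp only [div_eq_mul_inv]
        exact k3.mul (k4.inv e)
  obtain ⟨g, g1, g2, -⟩ := P272.B1_cauchy (0 : Fin 2) (K := fun z => W z) w1 (ρ := 2)
    fun w hw => w3 w (hw.trans (norm_le_pi_norm w 0))
  have s1 : ∀ p ∈ P.source, SmAt (g ∘ P) p := fun p hp =>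
    hP.sm_fun hp (.of_forall fun _ => g1.contDiffAt)
  have s2 : ∀ p ∈ P.source, SmAt (fun q => (starRingEnd ℂ) (P q 1)) p := fun p hp =>
    (hP.coord hp 1).smAt.conj
  have s3 : ∀ p ∈ P.source, C.SmF (fun q => (g ∘ P) q •
      C.db (fun q => (starRingEnd ℂ) (P q 1)) q) p := fun p hp =>
    (smF_db (s2 p hp)).smul (s1 p hp)
  set β := fun q => (g ∘ P) q • C.db (fun q => (starRingEnd ℂ) (P q 1)) q with hβ
  have c1 : ∀ w ∈ P.target, ∀ l, C.cmp P β w (Pi.single l 1) = if 1 = l then g w else 0 := by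
    intro w hw l
    have k1 := C.cmp_db hP (P.map_target hw) (s2 _ (P.map_target hw))
    rw [P.right_inv hw, AD_congr (G := fun w : C2 => (starRingEnd ℂ) (w 1))
      (mem_of_superset (P.open_target.mem_nhds hw) fun y hy => by
        simp only [mem_ofPred_eq, Function.comp_apply, P.right_inv hy])] at k1
    change g (P (P.symm w)) * C.cmp P (C.db fun q => (starRingEnd ℂ) (P q 1)) w _ = _
    rw [k1, sv_conj, P.right_inv hw]
    split_ifs <;> simp
  have c2 : ∀ w ∈ P.target, C.curl P β w = W w := by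
    intro w hw
    have k := P.open_target.mem_nhds hw
    rw [curl, AD_congr (G := g) (mem_of_superset k fun y hy => by simp [c1 y hy]),
      AD_congr (F := fun w => C.cmp P β w (Pi.single 0 1)) (G := fun _ => 0)
        (mem_of_superset k fun y hy => by simp [c1 y hy]), dbar_apply, dbar_apply, g2,
      P271A.dzb_const, sub_zero]
  obtain ⟨D, hD⟩ := smF_bdd (C := C) (α := β) (C.isCompact_cl i (r := 2) (by norm_num))
    fun p hp => s3 p hp.1
  refine ⟨β, D, fun p hp => ⟨s3 p hp.1, hD p ⟨hp.1, hp.2.le.trans (by norm_num)⟩, ?_⟩⟩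
  have hp2 := C.U_mono i (by norm_num : (7 / 4 : ℝ) ≤ 2) hp
  have s4 := (s3 p hp.1).smul (hσ p hp2).smAt
  refine ((hα p).sub s4).prim hP hp.1 ?_
  filter_upwards [sv_curl_sub (hα p) s4 hP hp.1, sv_curl_smul (hσ p hp2) (s3 p hp.1) hP hp.1,
    P.open_target.mem_nhds (P.map_source hp.1),
    isOpen_ball.mem_nhds (mem_ball_zero_iff.2 hp.2)] with z k1 k2 k3 k4
  rw [k1, k2, c2 z k3, w2 z k4]
  by_cases e : σ (P.symm z) = 0
  · rw [e, (h1 z (ball_subset_ball (by norm_num) k4) e).self_of_nhds, zero_mul, sub_zero]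
  · rw [mul_div_cancel₀ _ e, sub_self]

end Cov

end Vale.Agent.P267
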