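import Vale.Agent.P267S.SV1
import Vale.Agent.P267S.SM1

/-! P267, solver part: solving modulo a section, from the vanishing theorems. -/

open scoped Manifold ContDiff Topology
open Filter Metric Set

noncomputable section

namespace Vale.Agent.P267

set_option linter.unusedSectionVars false

variable {M : Type} [TopologicalSpace M] [ChartedSpace C2 M] [T2Space M]

theorem sv_z (c : ℂ) : c • (0 : C2 →L[ℝ] ℂ) = 0 :=
  ContinuousLinearMap.ext fun _ => mul_zero c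

namespace Cov
variable {C : Cov M} {σ a : M → ℂ} {p : M} {α β : M → C2 →L[ℝ] ℂ} {F : C.I → M → ℂ} {r B : ℝ}

theorem sv_mul (hσ : HolAt σ p) (h : C.Prim β a p) : C.Prim (fun q => σ q • β q) (σ * a) p := by
  refine ⟨hσ.smAt.mul h.1, ?_⟩
  filter_upwards [C.hol_ev hσ, h.ev] with q k1 k2
  rw [C.db_mul k1.smAt k2.1, C.db_hol k1, sv_z, add_zero, k2.2.self_of_nhds]

theorem sv_mono (h : C.Fr F r B) {r' : ℝ} (hr : r' ≤ r) : C.Fr F r' B :=
  ⟨fun i p hp => h.ne i p (C.U_mono i hr hp),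
    fun i j p hp => h.hol i j p ⟨C.U_mono i hr hp.1, C.U_mono j hr hp.2⟩,
    fun i p hp => h.bd i p (C.U_mono i hr hp)⟩

theorem sv_inv (h : C.Fr F r B) : C.Fr F⁻¹ r B := by
  refine ⟨fun i p hp => inv_ne_zero (h.ne i p hp), fun i j p hp => ?_, fun i p hp => ?_⟩
  · refine (h.hol j i p ⟨hp.2, hp.1⟩).congr (.of_forall fun q => ?_)
    simp only [Pi.div_apply, Pi.inv_apply, inv_div_inv]
  · simpa only [Pi.inv_apply, inv_inv] using (h.bd i p hp).symm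

theorem sv_tl (h : C.Fr F r B) (ht : C.Tl F r) : C.Tl F⁻¹ r := by
  obtain ⟨δ, A, hδ, hA⟩ := ht
  refine ⟨δ, B * A, hδ, fun i p hp => ?_⟩
  have e : F⁻¹ i p - 1 = -((F i p)⁻¹ * (F i p - 1)) := by
    have := h.ne i p hp
    simp only [Pi.inv_apply]
    field_simp
    ring
  rw [e, norm_neg, norm_mul, mul_assoc]
  exact mul_le_mul (h.bd i p hp).2 (hA i p hp) (norm_nonneg _)
    ((norm_nonneg _).trans (h.bd i p hp).1)

theorem sv_tl_mono (ht : C.Tl F r) {r' : ℝ} (hr : r' ≤ r) : C.Tl F r' := by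
  obtain ⟨δ, A, hδ, hA⟩ := ht
  exact ⟨δ, A, hδ, fun i p hp => hA i p (C.U_mono i hr hp)⟩

/-- A cochain with smooth differences can be made smooth. -/
theorem sv_smooth {f : C.I → M → ℂ} {δ A : ℝ} (hr : 1 < r) (hδ : 0 ≤ δ) (hA : 0 ≤ A)
    (h1 : ∀ i, ∀ p ∈ C.U i r, ‖f i p‖ ≤ A * C.wt δ 0 i)
    (h2 : ∀ i j, ∀ p ∈ C.U i r ∩ C.U j r, SmAt (F i * (f i - f j)) p) :
    ∃ (f' : C.I → M → ℂ) (A' : ℝ), (∀ i j, f' i - f' j = f i - f j) ∧
      ∀ i, ∀ p ∈ C.U i r, SmAt (F i * f' i) p ∧ ‖f' i p‖ ≤ A' * C.wt δ 0 i := by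
  obtain ⟨m, hm⟩ := C.card_nb
  obtain ⟨L, hL, h3⟩ := C.wt_nb hδ
  have e : ∀ i, ∀ q ∈ (C.ch i).source, ∑ l ∈ C.nb (C.idx q), (C.rho l q : ℂ) * f l q =
      ∑ l ∈ C.nb i, (C.rho l q : ℂ) * f l q := fun i q hq =>
    C.sum_nb (fun l => f l q) (fun l hl => C.mem_nb (C.ac_src q) hl) fun l hl => C.mem_nb hq hl
  refine ⟨fun i => f i - fun q => ∑ l ∈ C.nb (C.idx q), (C.rho l q : ℂ) * f l q,
    A + m * (A * L), fun i j => by ring, fun i p hp => ⟨?_, ?_⟩⟩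
  · have k : SmAt (∑ l ∈ C.nb i, fun q => (C.rho l q : ℂ) * (F i * (f i - f l)) q) p :=
      SmAt.sum fun l _ => C.rho_mul_sm hr fun hl => h2 i l p ⟨hp, hl⟩
    refine k.congr ?_
    filter_upwards [(C.ch i).open_source.mem_nhds hp.1] with q hq
    have k1 := C.sum_rho (W := C.nb i) fun l hl => C.mem_nb hq hl
    simp only [Finset.sum_apply, Pi.mul_apply, Pi.sub_apply, e i q hq]
    calc _ = F i q * ((∑ l ∈ C.nb i, (C.rho l q : ℂ)) * f i q -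
          ∑ l ∈ C.nb i, (C.rho l q : ℂ) * f l q) := by
          rw [Finset.sum_mul, ← Finset.sum_sub_distrib, Finset.mul_sum]
          exact Finset.sum_congr rfl fun l _ => by ring
      _ = _ := by rw [k1, one_mul]
  · have w := C.wt_pos δ 0 i
    have k : ∀ l ∈ C.nb i, ‖(C.rho l p : ℂ) * f l p‖ ≤ A * L * C.wt δ 0 i := fun l hl => by
      by_cases h0 : C.rho l p = 0
      · rw [h0, Complex.ofReal_zero, zero_mul, norm_zero]
        positivity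
      · rw [norm_mul, mul_assoc]
        exact (mul_le_of_le_one_left (norm_nonneg _) (C.rho_le l p)).trans
          ((h1 l p (C.rho_U hr h0)).trans (mul_le_mul_of_nonneg_left (h3 0 i l hl) hA))
    have k2 := (norm_sum_le _ _).trans (Finset.sum_le_card_nsmul _ _ _ k)
    rw [hm, nsmul_eq_mul] at k2
    simp only [Pi.sub_apply, e i p hp.1]
    refine (norm_sub_le _ _).trans ((add_le_add (h1 i p hp) k2).trans_eq (by ring))

/-- The local forms that make `α` closed modulo the section. -/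
theorem sv_forms {s : M → ℂ} {K : Set M} (hK : IsCompact K)
    (hσ : ∀ i, ∀ p ∈ C.U i 2, HolAt (F i * s) p)
    (h0 : ∀ i, ∀ p ∈ C.U i 2, p ∈ K → (F i * s) p ≠ 0) (hα : ∀ p, C.SmF α p)
    (hc : ∀ p ∉ K, ∃ a, C.Prim α a p) (δ : ℝ) :
    ∃ (β : C.I → M → C2 →L[ℝ] ℂ) (D : ℝ) (T : ℤ), 0 ≤ D ∧ (∀ i : C.I, T ≤ |i.2| → β i = 0) ∧
      ∀ i, ∀ p ∈ C.U i (7 / 4), C.SmF (β i) p ∧ ‖β i p‖ ≤ D * C.wt δ 0 i ∧
        ∃ a, C.Prim (α - fun q => (F i * s) q • β i q) a p := by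
  obtain ⟨T₀, hT⟩ := hK.exists_bound_of_continuousOn C.continuous_t.continuousOn
  have h1 : ∀ i : C.I, ∃ (β : M → C2 →L[ℝ] ℂ) (D : ℝ), (⌈T₀ + C.R⌉ + 1 ≤ |i.2| → β = 0) ∧
      ∀ p ∈ C.U i (7 / 4), C.SmF β p ∧ ‖β p‖ ≤ D ∧
        ∃ a, C.Prim (α - fun q => (F i * s) q • β q) a p := fun i => by
    by_cases h : ⌈T₀ + C.R⌉ + 1 ≤ |i.2|
    · refine ⟨0, 0, fun _ => rfl, fun p hp => ⟨smF_zero, by simp, ?_⟩⟩
      obtain ⟨a, ha⟩ := hc p fun hp' => by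
        have k1 := hT p hp'
        have k2 := C.t_ch hp.1
        have k3 : ((⌈T₀ + C.R⌉ + 1 : ℤ) : ℝ) ≤ |(i.2 : ℝ)| := by exact_mod_cast h
        have k4 := Int.le_ceil (T₀ + C.R)
        have k5 := abs_sub (C.t p + i.2) (C.t p)
        rw [add_sub_cancel_left] at k5
        rw [Real.norm_eq_abs] at k1
        push_cast at k3
        linarith
      exact ⟨a, ha.congr (.of_forall fun q => by simp [sv_z]) (EventuallyEq.refl _ _)⟩
    · obtain ⟨β, D, hβ⟩ := sv_loc i (hσ i) (h0 i) hα hc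
      exact ⟨β, D, fun h' => absurd h' h, hβ⟩
  choose β D h2 h3 using h1
  obtain ⟨D', k1, k2⟩ := C.bd_wt (x := fun i p => ‖β i p‖) (r := 7 / 4) (T := ⌈T₀ + C.R⌉ + 1)
    (fun i => ⟨D i, fun p hp => (h3 i p hp).2.1⟩) (fun i hi p _ => by simp [h2 i hi]) δ
  exact ⟨β, D', _, k1, h2, fun i p hp => ⟨(h3 i p hp).1, k2 i p hp, (h3 i p hp).2.2⟩⟩

theorem sv_wt {ε : ℝ} (hε : 0 ≤ ε) {i : C.I} (hp : p ∈ (C.ch i).source) :
    Real.exp (-ε * |C.t p|) ≤ Real.exp (ε * C.R) * C.wt ε 0 i := by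
  have k2 := C.t_ch hp
  have k5 := abs_sub (C.t p + i.2) (C.t p)
  rw [add_sub_cancel_left] at k5
  rw [wt, ← Real.exp_add, Int.cast_zero, sub_zero]
  exact Real.exp_le_exp.2 (by nlinarith)

end Cov

end Vale.Agent.P267
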